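import Crest.Agent.N222.F.Defs

/-!
# Row 222, part B (helper10): FROZEN definitions and leaf statements

See the team notes h10-B1, h10-B2.  Main statement: `BStmt` (the form class is empty).
Every `…Stmt` is proved in its own file as `theorem … : …Stmt` (hypotheses = other statements).
-/

set_option autoImplicit false
open MeasureTheory Set Filter Topology Function Metric
open scoped ContDiff InnerProductSpace RealInnerProductSpace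

noncomputable section

namespace Crest.Agent.N222

/-- quantify over spaces, with all the instances -/
def AllImm (Q : ∀ (d : ℕ) (ι : Type) [Fintype ι] [DecidableEq ι] (X : Type) [TopologicalSpace X]
    [T2Space X] [SecondCountableTopology X] [MeasurableSpace X] [BorelSpace X],
    Imm d ι X → Prop) : Prop :=
  ∀ (d : ℕ) (ι : Type) [Fintype ι] [DecidableEq ι] (X : Type) [TopologicalSpace X]
    [T2Space X] [SecondCountableTopology X] [MeasurableSpace X] [BorelSpace X] (M : Imm d ι X),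
    Q d ι X M

/-- existence of a space of dimension `d` -/
def ExImm (d : ℕ) (Q : ∀ (ι : Type) [Fintype ι] [DecidableEq ι] (X : Type) [TopologicalSpace X]
    [T2Space X] [SecondCountableTopology X] [MeasurableSpace X] [BorelSpace X],
    Imm d ι X → Prop) : Prop :=
  ∃ (ι : Type) (_ : Fintype ι) (_ : DecidableEq ι) (X : Type) (_ : TopologicalSpace X)
    (_ : T2Space X) (_ : SecondCountableTopology X) (_ : MeasurableSpace X) (_ : BorelSpace X)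
    (M : Imm d ι X), Q ι X M

/-! ### kernels -/

/-- `1` on `(-∞, 1/2]`, `0` on `[1, ∞)`, nonincreasing -/
def Phi (s : ℝ) : ℝ := Real.smoothTransition (2 * (1 - s))

/-- `Psi' = -Phi`, `Psi = 0` on `[1, ∞)` -/
def Psi (s : ℝ) : ℝ := ∫ t in s..1, Phi t

/-- the density of a plane -/
def cPhi (d : ℕ) : ℝ := ∫ z : E (Fin d), Phi (‖z‖ ^ 2)

variable {d : ℕ} {ι : Type} [Fintype ι] [DecidableEq ι] {X : Type} [TopologicalSpace X]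
  [MeasurableSpace X]

namespace Imm

variable (M : Imm d ι X)

/-- weighted density ratio -/
def Th (v : X → ℝ) (y : E ι) (r : ℝ) : ℝ :=
  (∫ p, v p * Phi (‖M.x p - y‖ ^ 2 / r ^ 2) ∂M.mu) / r ^ d

/-- squared normal part of `x - y` -/
def perp (y : E ι) (p : X) : ℝ := ‖M.x p - y - M.PL p (M.x p - y)‖ ^ 2

/-- mean curvature vector -/
def Hv (p : X) : E ι := WithLp.toLp 2 fun c => M.pre.H c p

/-- `2 |ψ ∇a - a ∇ψ|`, `ψ = om²` -/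
def cost (om a : X → ℝ) (p : X) : ℝ :=
  2 * √(∑ c, (om p ^ 2 * M.pre.D c a p - a p * M.pre.D c (fun q => om q ^ 2) p) ^ 2)

/-- the inequality (I) -/
def Ineq {k : ℕ} (V om : X → ℝ) (a : Fin k → X → ℝ) : Prop :=
  ∃ s > 0, ∀ p, om p ≠ 0 → s + ∑ i, M.cost om (a i) p ≤ V p * om p ^ 4 + ∑ i, a i p ^ 2

/-- `-4 Δ + R ≥ V` -/
def Form (V : X → ℝ) : Prop :=
  ∀ z, M.Tst z → 0 ≤ ∫ p, (4 * M.pre.gam z z p + (M.pre.scal p - V p) * z p ^ 2) ∂M.mu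

/-- the form class (INPUT of part B) -/
structure FormData (V om : X → ℝ) (a : Fin d → X → ℝ) : Prop where
  smV : M.Sm V
  smo : M.Tst om
  sma : ∀ i, M.Sm (a i)
  form : M.Form V
  ineq : M.Ineq V om a
  ess : Ess om a

/-- the pointwise class -/
structure PtData (F om : X → ℝ) (a : Fin d → X → ℝ) : Prop where
  smF : M.Sm F
  smo : M.Sm om
  sma : ∀ i, M.Sm (a i)
  ineq : M.Ineq (M.pre.EF F) om a
  ess : Ess om a

/-! ### graphs -/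

/-- position on the graph -/
def gx (u : X → ℝ) (p : X) : E (Option ι) := up (u p) (M.x p)

/-- delta-calculus of the graph (`= (M.graph u hu).pre`) -/
def gS (u : X → ℝ) : Pre (X → ℝ) (Option ι) := M.pre.graph u (M.vv u)

/-- area measure of the graph (`= (M.graph u hu).mu`) -/
def gmu (u : X → ℝ) : Measure X := M.mu.withDensity fun p => ENNReal.ofReal (M.vv u p)⁻¹

/-- unit normal, components -/
def nu (u : X → ℝ) : Option ι → X → ℝ := M.pre.nu u (M.vv u)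

/-- unit normal, vector -/
def nuv (u : X → ℝ) (p : X) : E (Option ι) := WithLp.toLp 2 fun c => M.nu u c p

/-- second fundamental form in `M × ℝ` -/
def A (u : X → ℝ) : Option ι → Option ι → X → ℝ := M.pre.A u (M.vv u)

/-- `|A|²` -/
def a2 (u : X → ℝ) : X → ℝ := M.pre.a2 u (M.vv u)

/-- `∇u / W` -/
def Xf (u : X → ℝ) : ι → X → ℝ := M.pre.X u (M.vv u)

/-- `div_F (∇u / W)` -/
def hF (F u : X → ℝ) : X → ℝ := M.pre.hF F u (M.vv u)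

/-- density ratio of the graph -/
def gTh (u : X → ℝ) (y : E (Option ι)) (r : ℝ) : ℝ :=
  (∫ p, Phi (‖M.gx u p - y‖ ^ 2 / r ^ 2) ∂M.gmu u) / r ^ d

/-- admissible graphs -/
structure Adm (F : X → ℝ) (Λ : ℝ) (u : X → ℝ) : Prop where
  sm : M.Sm u
  h : ∀ p, |M.hF F u p| ≤ Λ
  dh : ∀ c p, |(M.gS u).D c (M.hF F u) p| ≤ Λ
  xh : ∀ p, -Λ ≤ M.pre.dir (M.Xf u) (M.hF F u) p

/-- pointwise estimates of first order -/
structure Sheet (C : ℝ) (u : X → ℝ) : Prop where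
  H : ∀ p, ‖(WithLp.toLp 2 fun c => (M.gS u).H c p : E (Option ι))‖ ≤ C
  dnu : ∀ a c p, |(M.gS u).D a (M.nu u c) p + M.A u a c p| ≤ C
  II : ∀ a b c p, |(M.gS u).II a b c p - M.A u a b p * M.nu u c p| ≤ C
  n1 : ∀ c p, |(M.gS u).dv (fun a => M.A u a c) p - M.a2 u p * M.nu u c p| ≤ C * √(1 + M.a2 u p)

/-- Simons inequality with the refined Kato inequality -/
structure Sim (κ C : ℝ) (u : X → ℝ) (Y : Option ι → X → ℝ) : Prop where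
  sm : ∀ a, M.Sm (Y a)
  tan : (M.gS u).Tan Y
  near : ∀ a p, |Y a p - (M.gS u).D a (M.a2 u) p / 2| ≤ C * (1 + M.a2 u p)
  dv : ∀ p, κ * ((M.gS u).gam (M.a2 u) (M.a2 u) p / 4) ≤ (M.a2 u p + C) *
    ((M.gS u).dv Y p + M.a2 u p ^ 2 + C * ((1 + M.a2 u p) * √(1 + M.a2 u p)))

/-- density almost one at all points of the graph in a ball -/
def Flat (ε : ℝ) (u : X → ℝ) (y : E (Option ι)) (r : ℝ) : Prop :=
  ∀ q, ‖M.gx u q - y‖ < r → M.gTh u (M.gx u q) r ≤ (1 + ε) * cPhi d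

/-- the projection of `M × ℝ` as an operator -/
def PbL (p : X) (w : E (Option ι)) : E (Option ι) := up (w none) (M.PL p (down w))

end Imm

/-- compact embedded manifolds with a weight -/
def AllCl (Q : ∀ (d : ℕ) (ι : Type) [Fintype ι] [DecidableEq ι] (X : Type) [TopologicalSpace X]
    [T2Space X] [SecondCountableTopology X] [MeasurableSpace X] [BorelSpace X] [CompactSpace X],
    Imm d ι X → (X → ℝ) → Prop) : Prop :=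
  ∀ (d : ℕ) (ι : Type) [Fintype ι] [DecidableEq ι] (X : Type) [TopologicalSpace X]
    [T2Space X] [SecondCountableTopology X] [MeasurableSpace X] [BorelSpace X] [CompactSpace X]
    (M : Imm d ι X) (F : X → ℝ), Injective M.x → M.Sm F → Q d ι X M F

/-- **B**: the form class is empty. -/
def BStmt : Prop := AllImm fun _ _ _ _ _ _ _ _ _ _ M => ∀ V om a, ¬ M.FormData V om a

/-! ### solvers -/

/-- LIN (a): form-positive operators on a compact manifold. -/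
def LinAStmt : Prop := AllImm fun _ _ _ _ X _ _ _ _ _ M => CompactSpace X →
  ∀ (q : X → ℝ) (δ : ℝ), M.Sm q → 0 < δ →
    (∀ z, M.Sm z → δ * ∫ p, z p ^ 2 ∂M.mu ≤ ∫ p, (M.pre.gam z z p + q p * z p ^ 2) ∂M.mu) →
    ∀ f, M.Sm f → ∃ y, M.Sm y ∧ (∀ p, -M.pre.lap y p + q p * y p = f p) ∧
      ((∀ p, 0 < f p) → ∀ p, 0 < y p)

/-- QREG: interior estimates of all orders for quasilinear equations with a `C²` bound. -/
def QRegStmt : Prop := ∀ (n k : ℕ) (Z : Type) [NormedAddCommGroup Z] [NormedSpace ℝ Z]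
  [FiniteDimensional ℝ Z] (a : E (Fin n) × ℝ × E (Fin n) × Z → Matrix (Fin n) (Fin n) ℝ)
  (c : E (Fin n) × ℝ × E (Fin n) × Z → ℝ) (W K : Set (E (Fin n) × ℝ × E (Fin n) × Z)) (r B : ℝ),
  IsOpen W → IsCompact K → K ⊆ W → (∀ i j, ContDiffOn ℝ ∞ (fun s => a s i j) W) →
  ContDiffOn ℝ ∞ c W → (∀ s ∈ K, (a s).PosDef) → 0 < r → ∃ C : ℝ,
  ∀ (z0 : E (Fin n)) (w : E (Fin n) → ℝ) (l : Z), ContDiffOn ℝ ∞ w (ball z0 r) →
    (∀ z ∈ ball z0 r, (z, w z, gradient w z, l) ∈ K ∧ ‖fderiv ℝ (fderiv ℝ w) z‖ ≤ B ∧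
      ∑ i, ∑ j, a (z, w z, gradient w z, l) i j * fderiv ℝ (fderiv ℝ w) z (ee i) (ee j)
        = c (z, w z, gradient w z, l)) →
    ∀ z ∈ ball z0 (r / 2), ‖iteratedFDeriv ℝ k w z‖ ≤ C


/-! ### geometry of admissible graphs -/

/-- Picone inequality. -/
def PicStmt : Prop := AllImm fun _ _ _ _ X _ _ _ _ _ M => ∀ F y z : X → ℝ, M.Sm F → M.Sm y →
  (∀ p, 0 < y p) → M.Tst z →
  ∫ p, -M.pre.lapF F y p / y p * z p ^ 2 * Real.exp (F p) ∂M.mu ≤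
    ∫ p, M.pre.gam z z p * Real.exp (F p) ∂M.mu

/-- MON: the monotonicity identity. -/
def MonStmt : Prop := AllImm fun d _ _ _ X _ _ _ _ _ M => CompactSpace X →
  ∀ (v : X → ℝ) y (r : ℝ), M.Sm v → 0 < r → HasDerivAt (M.Th v y)
    ((-(r ^ 2 / 2) * (∫ p, M.pre.gam v (fun q => Psi (‖M.x q - y‖ ^ 2 / r ^ 2)) p ∂M.mu)
      + (∫ p, v p * (-2 * deriv Phi (‖M.x p - y‖ ^ 2 / r ^ 2)) * (M.perp y p / r ^ 2) ∂M.mu)
      + ∫ p, v p * Phi (‖M.x p - y‖ ^ 2 / r ^ 2) * ⟪M.x p - y, M.Hv p⟫ ∂M.mu) / r ^ (d + 1)) r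

/-- TAN: tangent measures of a compact embedded manifold. -/
def TanStmt : Prop := AllImm fun d ι _ _ X _ _ _ _ _ M => CompactSpace X → Injective M.x →
  ∀ p0 : X, ∃ L : E (Fin d) →ₗᵢ[ℝ] E ι, (∀ w, M.PL p0 w = w ↔ w ∈ range L) ∧
    ∀ (α : Type) (l : Filter α) (p : α → X) (r : α → ℝ), Tendsto p l (𝓝 p0) →
      Tendsto r l (𝓝[>] 0) → ∀ f : E ι × X → ℝ, Continuous f → HasCompactSupport f →
      Tendsto (fun j => (∫ q, f ((r j)⁻¹ • (M.x q - M.x (p j)), q) ∂M.mu) / r j ^ d) l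
        (𝓝 (∫ z, f (L z, p0)))

/-- MON2: monotonicity, remainder, density at a point. -/
def Mon2Stmt : Prop := AllImm fun d _ _ _ X _ _ _ _ _ M => CompactSpace X →
  ∀ Λ : ℝ, (∀ p, ‖M.Hv p‖ ≤ Λ) →
  (∀ y (r1 r2 : ℝ), 0 < r1 → r1 ≤ r2 → Real.exp (Λ * r1) * M.Th 1 y r1 +
    (∫ r in r1..r2, (∫ p, -2 * deriv Phi (‖M.x p - y‖ ^ 2 / r ^ 2) * M.perp y p ∂M.mu) /
      r ^ (d + 3)) ≤ Real.exp (Λ * r2) * M.Th 1 y r2) ∧
  (Injective M.x → (∀ (v : X → ℝ) p, Continuous v →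
      Tendsto (M.Th v (M.x p)) (𝓝[>] 0) (𝓝 (cPhi d * v p))) ∧
    ∀ p (r : ℝ), 0 < r → cPhi d ≤ Real.exp (Λ * r) * M.Th 1 (M.x p) r)

/-- first order estimates -/
def SheetStmt : Prop := AllCl fun _ _ _ _ _ _ _ _ _ _ _ M F =>
  ∀ Λ : ℝ, ∃ C : ℝ, 0 ≤ C ∧ ∀ u, M.Adm F Λ u → M.Sheet C u

/-- Simons + Kato -/
def SimStmt : Prop := AllCl fun _ _ _ _ _ _ _ _ _ _ _ M F =>
  ∀ Λ : ℝ, ∃ κ C : ℝ, 1 < κ ∧ 1 ≤ C ∧ ∀ u, M.Adm F Λ u → ∃ Y, M.Sim κ C u Y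

/-- stability -/
def StabStmt : Prop := AllCl fun _ _ _ _ _ _ _ _ _ _ _ M F =>
  ∀ Λ : ℝ, ∀ ε > 0, ∃ C : ℝ, ∀ u, M.Adm F Λ u → ∀ z, M.Sm z →
    ∫ p, M.a2 u p * z p ^ 2 ∂M.gmu u ≤
      (1 + ε) * (∫ p, (M.gS u).gam z z p ∂M.gmu u) + C * ∫ p, z p ^ 2 ∂M.gmu u

/-- calibration inequalities and area bounds -/
def CalStmt : Prop := AllCl fun d ι _ _ _ _ _ _ _ _ _ M F =>
  ∀ Λ : ℝ, ∃ C : ℝ, 0 ≤ C ∧ ∀ u, M.Adm F Λ u →
    (∀ f : E (Option ι) → ℝ, ContDiff ℝ ∞ f → HasCompactSupport f → (∀ y, 0 ≤ f y) →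
      (∫ p, f (M.gx u p) ∂M.gmu u ≤ ∫ p, (∫ t in Iic (u p),
        (‖fderiv ℝ f (up t (M.x p))‖ + C * f (up t (M.x p)))) ∂M.mu) ∧
      (∫ p, f (M.gx u p) ∂M.gmu u ≤ ∫ p, (∫ t in Ioi (u p),
        (‖fderiv ℝ f (up t (M.x p))‖ + C * f (up t (M.x p)))) ∂M.mu)) ∧
    (∀ y (r : ℝ), 0 < r → r ≤ 1 → (M.gmu u).real {p | ‖M.gx u p - y‖ ≤ r} ≤ C * r ^ d) ∧
    ∀ T : ℝ, 0 ≤ T → (M.gmu u).real {p | |u p| ≤ T} ≤ C * (1 + T)

/-- Schoen-Simon-Yau `L⁴` bound on slabs -/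
def SSYStmt : Prop := AllCl fun _ _ _ _ _ _ _ _ _ _ _ M F =>
  ∀ Λ T : ℝ, ∃ C : ℝ, ∀ u, M.Adm F Λ u → ∫ p in {p | |u p| ≤ T}, M.a2 u p ^ 2 ∂M.gmu u ≤ C

/-! ### blow-up limits -/

/-- points of the support of the first marginal -/
def InSupp {Y : Type} [NormedAddCommGroup Y] [MeasurableSpace Y] (V : Measure (Y × Y)) (y : Y) :
    Prop := ∀ ε > 0, 0 < V (ball y ε ×ˢ univ)

/-- limit varifolds in `ℝ^(d+1)` -/
structure LimV (d : ℕ) (V : Measure (E (Fin (d + 1)) × E (Fin (d + 1)))) : Prop where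
  fin : ∃ K : ℝ, ∀ y (R : ℝ), 0 < R → V (closedBall y R ×ˢ univ) ≤ ENNReal.ofReal (K * R ^ d)
  unit : ∀ᵐ q ∂V, ‖q.2‖ = 1
  zero : InSupp V 0
  low : ∀ y, InSupp V y → ∀ r : ℝ, 0 < r → cPhi d * r ^ d ≤ ∫ q, Phi (‖q.1 - y‖ ^ 2 / r ^ 2) ∂V
  cal : ∀ f : E (Fin (d + 1)) → ℝ, ContDiff ℝ ∞ f → HasCompactSupport f → (∀ y, 0 ≤ f y) →
    2 * ∫ q, f q.1 ∂V ≤ ∫ y, ‖fderiv ℝ f y‖

/-- LV1: support in a hyperplane gives density one. -/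
def LV1Stmt : Prop := ∀ d V, LimV d V → ∀ n : E (Fin (d + 1)), n ≠ 0 →
  (∀ y, InSupp V y → ⟪n, y⟫ = 0) → ∫ q, Phi (‖q.1‖ ^ 2) ∂V ≤ cPhi d

/-- LV2: no curvature gives one plane. -/
def LV2Stmt : Prop := ∀ d V, LimV d V →
  (∀ (w : E (Fin (d + 1))) (g : E (Fin (d + 1)) × E (Fin (d + 1)) → ℝ), ContDiff ℝ ∞ g →
    HasCompactSupport g → ∫ q, fderiv ℝ g q (w - ⟪q.2, w⟫ • q.2, 0) ∂V = 0) →
  ∃ n : E (Fin (d + 1)), n ≠ 0 ∧ ∀ y, InSupp V y → ⟪n, y⟫ = 0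

/-- LV3: a cone from every point of the support has a constant normal line. -/
def LV3Stmt : Prop := ∀ d V, LimV d V → (∀ y, InSupp V y → ∀ᵐ q ∂V, ⟪q.1 - y, q.2⟫ = 0) →
  ∃ e : E (Fin (d + 1)), ‖e‖ = 1 ∧ ∀ᵐ q ∂V, q.2 = e ∨ q.2 = -e

/-- BLOW: blow-up limits of admissible graphs. -/
def BlowStmt : Prop := AllCl fun d ι _ _ X _ _ _ _ _ _ M F =>
  ∀ (Λ : ℝ) (𝒰 : Ultrafilter ℕ) (u : ℕ → X → ℝ) (p : ℕ → X) (r : ℕ → ℝ),
    (∀ j, M.Adm F Λ (u j)) → Tendsto r 𝒰 (𝓝[>] 0) →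
    ∃ (p0 : X) (L : E (Fin (d + 1)) →ₗᵢ[ℝ] E (Option ι))
      (V : Measure (E (Fin (d + 1)) × E (Fin (d + 1)))), Tendsto p 𝒰 (𝓝 p0) ∧ LimV d V ∧
      (∀ w, M.PbL p0 w = w ↔ w ∈ range L) ∧
      (∀ g : E (Option ι) × E (Option ι) → ℝ, Continuous g → HasCompactSupport g →
        Tendsto (fun j => (∫ q, g ((r j)⁻¹ • (M.gx (u j) q - M.gx (u j) (p j)), M.nuv (u j) q)
          ∂M.gmu (u j)) / r j ^ d) 𝒰 (𝓝 (∫ q, g (L q.1, L q.2) ∂V))) ∧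
      ∀ y, InSupp V y → ∃ q : ℕ → X,
        Tendsto (fun j => (r j)⁻¹ • (M.gx (u j) (q j) - M.gx (u j) (p j))) 𝒰 (𝓝 (L y))

/-- FL: small curvature energy gives density almost one. -/
def FLStmt : Prop := AllCl fun d _ _ _ _ _ _ _ _ _ _ M F =>
  ∀ Λ : ℝ, ∀ ε > 0, ∃ R η : ℝ, 1 ≤ R ∧ 0 < η ∧ ∀ u, M.Adm F Λ u → ∀ p (r : ℝ), 0 < r → r ≤ η →
    r ^ 2 * ∫ q in {q | ‖M.gx u q - M.gx u p‖ ≤ R * r}, M.a2 u q ∂M.gmu u ≤ η * r ^ d →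
    M.gTh u (M.gx u p) r ≤ (1 + ε) * cPhi d

/-- FL2: close to a hyperplane gives density almost one. -/
def FL2Stmt : Prop := AllCl fun d ι _ _ _ _ _ _ _ _ _ M F =>
  ∀ Λ : ℝ, ∀ ε > 0, ∃ R η : ℝ, 1 ≤ R ∧ 0 < η ∧ ∀ u, M.Adm F Λ u → ∀ p (r : ℝ), 0 < r → r ≤ η →
    ∀ n : E (Option ι), ‖n‖ = 1 → 1 / 2 ≤ ‖M.PbL p n‖ →
    (∀ q, ‖M.gx u q - M.gx u p‖ ≤ R * r → |⟪n, M.gx u q - M.gx u p⟫| ≤ η * r) →
    M.gTh u (M.gx u p) r ≤ (1 + ε) * cPhi d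

/-- W: curvature bound. -/
def WStmt : Prop := AllCl fun _ _ _ _ _ _ _ _ _ _ _ M F =>
  ∀ Λ : ℝ, ∃ ε C : ℝ, 0 < ε ∧ ∀ u, M.Adm F Λ u → ∀ y (r : ℝ), 0 < r → r ≤ ε → M.Flat ε u y r →
    ∀ q, ‖M.gx u q - y‖ < r / 2 → r ^ 2 * M.a2 u q ≤ C

/-- W2: the normal is almost constant. -/
def W2Stmt : Prop := AllCl fun _ _ _ _ _ _ _ _ _ _ _ M F =>
  ∀ Λ : ℝ, ∀ η > 0, ∃ ε θ C : ℝ, 0 < ε ∧ 0 < θ ∧ ∀ u, M.Adm F Λ u → ∀ y (r : ℝ), 0 < r → r ≤ ε →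
    M.Flat ε u y r → ∀ q q', ‖M.gx u q - y‖ < θ * r → ‖M.gx u q' - y‖ < θ * r →
      r ^ 2 * M.a2 u q ≤ C ∧ ‖M.nuv u q - M.nuv u q'‖ ≤ η

/-! ### the Jang equation -/

/-- existence -/
def JangStmt : Prop := AllCl fun _ _ _ _ X _ _ _ _ _ _ M F =>
  ∀ (h : X → ℝ) (τ : ℝ), M.Sm h → 0 < τ → ∃ u, M.Sm u ∧ ∀ p, M.hF F u p = τ * u p - h p

/-- barrier -/
def BarStmt : Prop := AllCl fun _ _ _ _ X _ _ _ _ _ _ M F =>
  ∃ r0 C : ℝ, 0 < r0 ∧ 0 < C ∧ ∀ (h u : X → ℝ) (τ r : ℝ) (p : X), M.Sm u → 0 < τ → 0 < r →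
    r ≤ r0 → (∀ q, M.hF F u q = τ * u q - h q) → (∀ q, ‖M.x q - M.x p‖ < r → C / r ≤ h q) →
    C / (2 * r) ≤ τ * u p

end Crest.Agent.N222

end
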