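import Crest.Agent.N222.B.Defs

/-!
# Row 222, part B (helper10): FROZEN statements, second half (limit, shield, induction)
-/

set_option autoImplicit false
open MeasureTheory Set Filter Topology Function Metric
open scoped ContDiff InnerProductSpace RealInnerProductSpace

noncomputable section

namespace Crest.Agent.N222

variable {d : ℕ} {ι : Type} [Fintype ι] [DecidableEq ι] {X : Type} [TopologicalSpace X]
  [MeasurableSpace X]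

namespace Imm

variable (M : Imm d ι X)

/-- a blowing-up sequence of translated solutions of the Jang equation -/
structure Seq (F h : X → ℝ) (Λ : ℝ) (𝒰 : Ultrafilter ℕ) (u : ℕ → X → ℝ) (τ s : ℕ → ℝ) : Prop where
  smh : M.Sm h
  adm : ∀ j, M.Adm F Λ (u j)
  pos : ∀ j, 0 < τ j
  tau : Tendsto τ 𝒰 (𝓝 0)
  sh : Tendsto s 𝒰 (𝓝 0)
  eq : ∀ j p, M.hF F (u j) p = τ j * u j p + s j - h p
  thin : ∀ T : ℝ, Tendsto (fun j => M.mu.real {p | |u j p| ≤ T}) 𝒰 (𝓝 0)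

end Imm

/-- where the sequence is eventually positive -/
def Upos (𝒰 : Ultrafilter ℕ) (u : ℕ → X → ℝ) : Set X :=
  {p | ∃ N ∈ 𝓝 p, ∀ᶠ j in (𝒰 : Filter ℕ), ∀ q ∈ N, 0 < u j q}

/-- the limit slice -/
def Sb (𝒰 : Ultrafilter ℕ) (u : ℕ → X → ℝ) : Set X := (Upos 𝒰 u ∪ Upos 𝒰 fun j q => -u j q)ᶜ

namespace Imm

variable (M : Imm d ι X)

/-- regular points of the limit cylinder -/
def Reg (𝒰 : Ultrafilter ℕ) (u : ℕ → X → ℝ) (p : X) (t : ℝ) : Prop :=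
  ∃ ρ C : ℝ, 0 < ρ ∧ ∀ᶠ j in (𝒰 : Filter ℕ), ∀ q q', ‖M.gx (u j) q - up t (M.x p)‖ < ρ →
    ‖M.gx (u j) q' - up t (M.x p)‖ < ρ →
    M.a2 (u j) q ≤ C ∧ ‖M.nuv (u j) q - M.nuv (u j) q'‖ ≤ 1 / 100

/-- the bad set -/
def Bad (𝒰 : Ultrafilter ℕ) (u : ℕ → X → ℝ) : Set X :=
  {p | p ∈ Sb 𝒰 u ∧ ∀ t, ¬ M.Reg 𝒰 u p t}

/-- the regular part of the slice -/
def Sig (𝒰 : Ultrafilter ℕ) (u : ℕ → X → ℝ) : Set X := Sb 𝒰 u \ M.Bad 𝒰 u

/-- Minkowski codimension four inside an `m`-dimensional slice -/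
def Nets (m : ℕ) (B : Set X) : Prop :=
  ∃ C : ℝ, ∀ r : ℝ, 0 < r → r ≤ 1 → ∃ s : Finset X, (∀ p ∈ s, p ∈ B) ∧
    (s.card : ℝ) * r ^ m ≤ C * r ^ 4 ∧ ∀ p ∈ B, ∃ q ∈ s, ‖M.x p - M.x q‖ ≤ r


/-- projection of the cylinder over `M` -/
def cylP (p : X) : Option ι → Option ι → ℝ := fun b c => M.pre.Pb b c p

/-- first jet of the projection of the cylinder over `M` -/
def cylB (p : X) : Option ι → Option ι → Option ι → ℝ := fun a b c =>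
  a.elim 0 fun a => M.pre.D a (M.pre.Pb b c) p

end Imm

/-- compact embedded manifolds of positive dimension with a blowing-up sequence -/
def AllSeq (Q : ∀ (m : ℕ) (ι : Type) [Fintype ι] [DecidableEq ι] (X : Type) [TopologicalSpace X]
    [T2Space X] [SecondCountableTopology X] [MeasurableSpace X] [BorelSpace X] [CompactSpace X],
    Imm (m + 1) ι X → (X → ℝ) → (X → ℝ) → Ultrafilter ℕ → (ℕ → X → ℝ) → Prop) : Prop :=
  ∀ (m : ℕ) (ι : Type) [Fintype ι] [DecidableEq ι] (X : Type) [TopologicalSpace X]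
    [T2Space X] [SecondCountableTopology X] [MeasurableSpace X] [BorelSpace X] [CompactSpace X]
    (M : Imm (m + 1) ι X) (F h : X → ℝ) (Λ : ℝ) (𝒰 : Ultrafilter ℕ) (u : ℕ → X → ℝ)
    (τ s : ℕ → ℝ), Injective M.x → M.Sm F → M.Seq F h Λ 𝒰 u τ s → Q m ι X M F h 𝒰 u

/-- L1: existence of a sequence, with the barrier property. -/
def SeqStmt : Prop := AllCl fun _ _ _ _ X _ _ _ _ _ _ M F =>
  ∃ r0 C : ℝ, 0 < r0 ∧ 0 < C ∧ ∀ h : X → ℝ, M.Sm h →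
    ∃ (Λ : ℝ) (𝒰 : Ultrafilter ℕ) (u : ℕ → X → ℝ) (τ s : ℕ → ℝ), M.Seq F h Λ 𝒰 u τ s ∧
      ∀ (r : ℝ) p, 0 < r → r ≤ r0 →
        ((∀ q, ‖M.x q - M.x p‖ < r → C / r ≤ h q) → p ∈ Upos 𝒰 u) ∧
        ((∀ q, ‖M.x q - M.x p‖ < r → h q ≤ -(C / r)) → p ∈ Upos 𝒰 fun j q => -u j q)

/-- L2: the limit is a cylinder. -/
def CylStmt : Prop := AllSeq fun _ _ _ _ _ _ _ _ _ _ _ _ _ _ 𝒰 u =>
  (∀ p ∈ Sb 𝒰 u, ∀ t : ℝ, ∀ N ∈ 𝓝 p, ∀ᶠ j in (𝒰 : Filter ℕ), ∃ q ∈ N, u j q = t) ∧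
  ∀ p, p ∉ Sb 𝒰 u → ∀ T : ℝ, ∃ N ∈ 𝓝 p, ∀ᶠ j in (𝒰 : Filter ℕ), ∀ q ∈ N, T < |u j q|

/-- L3: the bad set is small. -/
def NetStmt : Prop := AllSeq fun m _ _ _ _ _ _ _ _ _ _ M _ _ 𝒰 u =>
  IsClosed (M.Bad 𝒰 u) ∧ M.Nets m (M.Bad 𝒰 u)

/-- Local description at a regular point: `e` is a slice chart, `c j` are charts of the graphs
with coordinate `0` equal to the height, which converge in `C²` to the cylinder. -/
structure Box {m : ℕ} (M : Imm (m + 1) ι X) (𝒰 : Ultrafilter ℕ) (u : ℕ → X → ℝ) (p : X) (t : ℝ)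
    (e : OpenPartialHomeomorph X (E (Fin (m + 1)))) (ρ : ℝ)
    (c : ℕ → OpenPartialHomeomorph X (E (Fin (m + 1)))) : Prop where
  ch : IsChart M.x e
  mem : p ∈ e.source
  zero : e p = 0
  pos : 0 < ρ
  sub : closedBall 0 ρ ⊆ e.target
  slice : ∀ q ∈ e.source, q ∈ Sb 𝒰 u ↔ e q 0 = 0
  chj : ∀ᶠ j in (𝒰 : Filter ℕ), IsChart M.x (c j) ∧ (c j).target = ball 0 ρ ∧
    ∀ z ∈ ball (0 : E (Fin (m + 1))) ρ, u j ((c j).symm z) = t + z 0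
  cover : ∃ N ∈ 𝓝 p, ∃ δ > 0, ∀ᶠ j in (𝒰 : Filter ℕ), ∀ q ∈ N, |u j q - t| < δ →
    q ∈ (c j).source ∧ ‖c j q‖ < ρ / 2
  conv : ∀ k ≤ 2, TendstoUniformlyOn (fun j => iteratedFDeriv ℝ k (M.x ∘ (c j).symm))
    (iteratedFDeriv ℝ k fun z => M.x (e.symm (z - z 0 • ee 0))) 𝒰 (ball 0 ρ)

/-- L4: local graphs. -/
def BoxStmt : Prop := AllSeq fun _ _ _ _ _ _ _ _ _ _ _ M _ _ 𝒰 u =>
  ∀ p ∈ Sb 𝒰 u, ∀ t, M.Reg 𝒰 u p t → ∃ e ρ c, Box M 𝒰 u p t e ρ c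

/-- L5: regular at one height is regular at all heights. -/
def AllHtStmt : Prop := AllSeq fun _ _ _ _ _ _ _ _ _ _ _ M _ _ 𝒰 u =>
  ∀ p ∈ M.Sig 𝒰 u, ∀ t, M.Reg 𝒰 u p t

/-- L6: convergence of curvature integrals. -/
def ConvStmt : Prop := AllSeq fun m ι _ _ X _ _ _ _ _ _ M _ _ 𝒰 u =>
  ∃ N : Imm m ι (M.Sig 𝒰 u), (∀ q, N.x q = M.x q) ∧
    (∀ z, N.Tst z → ∃ z', M.Sm z' ∧ Disjoint (tsupport z') (M.Bad 𝒰 u) ∧
      ∀ q : M.Sig 𝒰 u, z' q = z q) ∧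
    ∀ (Ψ : X × ℝ × (Option ι → Option ι → ℝ) × (Option ι → Option ι → Option ι → ℝ) → ℝ)
      (K : Set X) (T : ℝ), Continuous Ψ → IsCompact K → Disjoint K (M.Bad 𝒰 u) →
      (∀ s, Ψ s ≠ 0 → s.1 ∈ K ∧ |s.2.1| ≤ T) →
      Tendsto (fun j => ∫ q, Ψ (q, u j q, fun b c => (M.gS (u j)).P b c q,
          fun a b c => (M.gS (u j)).D a ((M.gS (u j)).P b c) q) ∂M.gmu (u j)) 𝒰
        (𝓝 (∫ q : M.Sig 𝒰 u, (∫ t : ℝ, Ψ (q, t, N.cylP q, N.cylB q)) ∂N.mu))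

/-- what the limit slice delivers -/
structure Slice {m : ℕ} (M : Imm (m + 1) ι X) (F G : X → ℝ) (S B : Set X) (N : Imm m ι ↥(S \ B)) :
    Prop where
  x : ∀ q, N.x q = M.x q
  closed : IsClosed B
  sub : B ⊆ S
  nets : M.Nets m B
  H : ∃ C : ℝ, ∀ q, ‖N.Hv q‖ ≤ C
  form : ∀ z, N.Tst z → 0 ≤ ∫ q, (2 * N.pre.gam z z q +
    (N.pre.EF (fun q => F q) q - G q) * z q ^ 2) * Real.exp (F q) ∂N.mu

/-- L7: the slice. -/
def LimStmt : Prop := AllSeq fun m ι _ _ X _ _ _ _ _ _ M F h 𝒰 u =>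
  ∀ k : X → ℝ, M.Sm k → (∀ p, √(M.pre.gam h h p) ≤ k p) →
    ∃ N : Imm m ι ↥(Sb 𝒰 u \ M.Bad 𝒰 u),
      Slice M F (fun p => M.pre.EF F p + h p ^ 2 - 2 * k p) (Sb 𝒰 u) (M.Bad 𝒰 u) N

/-! ### topology -/

/-- E1: straight line homotopy. -/
def Ess1Stmt : Prop := ∀ (X : Type) [TopologicalSpace X] (k : ℕ) (om : X → ℝ)
  (a a' : Fin k → X → ℝ), Continuous om → HasCompactSupport om → (∀ i, Continuous (a i)) →
  (∀ i, Continuous (a' i)) →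
  (∀ p ∈ tsupport om, om p = 0 → ∀ s ∈ Icc (0 : ℝ) 1, ∃ i, (1 - s) * a i p + s * a' i p ≠ 0) →
  Ess om a → Ess om a'

/-- E2: slicing by a closed partition. -/
def Ess2Stmt : Prop := ∀ (X : Type) [TopologicalSpace X] [T2Space X] [SecondCountableTopology X]
  [CompactSpace X] (k : ℕ) (om : X → ℝ)
  (a : Fin (k + 1) → X → ℝ) (U U' : Set X), Continuous om →
  (∀ i, Continuous (a i)) → IsOpen U → IsOpen U' → Disjoint U U' →
  (∀ p ∈ tsupport om, om p = 0 → (∀ i : Fin k, a i.succ p = 0) →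
    (0 < a 0 p ∧ p ∈ U) ∨ (a 0 p < 0 ∧ p ∈ U')) →
  Ess om a → Ess (fun q : ↥(U ∪ U')ᶜ => om q) fun (i : Fin k) q => a i.succ q

/-- E3: cutting off a region on which the map does not vanish. -/
def Ess3Stmt : Prop := ∀ (X : Type) [TopologicalSpace X] [T2Space X] (k : ℕ) (om χ : X → ℝ)
  (a : Fin k → X → ℝ) (S B : Set X), Continuous om → Continuous χ → (∀ i, Continuous (a i)) →
  Disjoint (tsupport χ) B → (∀ p ∈ S, om p ≠ 0 → χ p = 0 → ∃ i, a i p ≠ 0) →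
  Ess (fun q : S => om q) (fun i q => a i q) →
  Ess (fun q : ↥(S \ B) => om q * χ q) fun i q => a i q

/-- E4: transport along an open embedding. -/
def Ess4Stmt : Prop := ∀ (X Y : Type) [TopologicalSpace X] [T2Space X] [TopologicalSpace Y] (k : ℕ)
  (e : OpenPartialHomeomorph X Y) (om : X → ℝ) (a : Fin k → X → ℝ) (om' : Y → ℝ)
  (a' : Fin k → Y → ℝ), HasCompactSupport om → tsupport om ⊆ e.source → (∀ i, Continuous (a i)) →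
  (∀ p ∈ e.source, om' (e p) = om p ∧ ∀ i, a' i (e p) = a i p) → Ess om a → Ess om' a'

/-! ### the steps of the induction -/

/-- STEP 0: the truncated last coordinate (here coordinate `0`). -/
def Step0Stmt : Prop := ∀ (m : ℕ) (ι : Type) [Fintype ι] [DecidableEq ι] (X : Type)
  [TopologicalSpace X] [T2Space X] [SecondCountableTopology X] [MeasurableSpace X] [BorelSpace X]
  [CompactSpace X] (M : Imm (m + 1) ι X) (F om : X → ℝ) (a : Fin (m + 1) → X → ℝ),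
  Injective M.x → M.PtData F om a → ∀ r0 C : ℝ, 0 < r0 → 0 < C →
  ∃ (h k : X → ℝ) (s : ℝ), M.Sm h ∧ M.Sm k ∧ (∀ p, √(M.pre.gam h h p) ≤ k p) ∧ 0 < s ∧
    ∀ p ∈ tsupport om,
      (s + ∑ i : Fin m, M.cost om (a i.succ) p ≤
        (M.pre.EF F p + h p ^ 2 - 2 * k p) * om p ^ 4 + ∑ i : Fin m, a i.succ p ^ 2) ∨
      ∃ r, 0 < r ∧ r ≤ r0 ∧ ((0 < a 0 p ∧ ∀ q, ‖M.x q - M.x p‖ < r → C / r ≤ h q) ∨
        (a 0 p < 0 ∧ ∀ q, ‖M.x q - M.x p‖ < r → h q ≤ -(C / r)))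

/-- GEN: a small translation moves the image of a thin set off the first axis. -/
def GenStmt : Prop := AllImm fun _ _ _ _ X _ _ _ _ _ M => CompactSpace X → Injective M.x →
  ∀ (k : ℕ) (B : Set X) (a : Fin (k + 1) → X → ℝ), IsClosed B → M.Nets (k + 1) B →
    (∀ i, M.Sm (a i)) → ∀ ε > 0, ∃ ξ : Fin (k + 1) → ℝ, (∀ i, |ξ i| ≤ ε) ∧ ∃ η t : ℝ, 0 < η ∧ 0 < t ∧
      ∀ p, ∀ q ∈ B, ‖M.x p - M.x q‖ ≤ t → η ≤ ∑ i : Fin k, (a i.succ p + ξ i.succ) ^ 2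

/-- RIESZ: the weight and the cut-off. -/
def RieszStmt : Prop := ∀ (m : ℕ) (ι : Type) [Fintype ι] [DecidableEq ι] (X : Type)
  [TopologicalSpace X] [T2Space X] [SecondCountableTopology X] [MeasurableSpace X] [BorelSpace X]
  [CompactSpace X] (M : Imm (m + 1) ι X) (F G : X → ℝ) (S B : Set X) (N : Imm m ι ↥(S \ B)),
  Injective M.x → M.Sm F → Slice M F G S B N → ∃ C c : ℝ, 0 < c ∧ ∀ δ V0 t0 t2 : ℝ, 0 < δ → 0 < t0 →
    0 < t2 → ∃ (t1 : ℝ) (w χ : X → ℝ), 0 < t1 ∧ t1 ≤ t2 ∧ M.Sm w ∧ M.Sm χ ∧ (∀ p, 1 ≤ w p) ∧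
      Disjoint (tsupport χ) B ∧ (∀ p, 0 ≤ χ p ∧ χ p ≤ 1) ∧ (∀ p, √(M.pre.gam χ χ p) ≤ C / t1) ∧
      (∀ p, χ p ≠ 1 ∨ M.pre.gam χ χ p ≠ 0 → c / t1 ^ (7 / 4 : ℝ) ≤ w p) ∧
      (∀ p, 2 ≤ w p → ∃ q ∈ B, ‖M.x p - M.x q‖ ≤ t0) ∧
      ∀ q : ↥(S \ B), -δ * w q ≤ -N.pre.lapF (fun q => F q) (fun q => w q) q ∧
        (2 ≤ w q → V0 * w q ≤ -N.pre.lapF (fun q => F q) (fun q => w q) q)

/-- WEIGHT: the form inequality with a positive weight. -/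
def WeightStmt : Prop := AllImm fun _ _ _ _ X _ _ _ _ _ N => ∀ F G w : X → ℝ, N.Sm F → N.Sm G →
  N.Sm w → (∀ q, 0 < w q) → (∀ z, N.Tst z → 0 ≤ ∫ q, (2 * N.pre.gam z z q +
    (N.pre.EF F q - G q) * z q ^ 2) * Real.exp (F q) ∂N.mu) →
  N.Form fun q => G q - N.pre.lapF F w q / w q + N.pre.gam w w q / (2 * w q ^ 2)

/-- SHIELD: from the slice to the form class. -/
def ShieldStmt : Prop := ∀ (m : ℕ) (ι : Type) [Fintype ι] [DecidableEq ι] (X : Type)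
  [TopologicalSpace X] [T2Space X] [SecondCountableTopology X] [MeasurableSpace X] [BorelSpace X]
  [CompactSpace X] (M : Imm (m + 1) ι X) (F G om : X → ℝ) (a : Fin m → X → ℝ) (S B : Set X)
  (N : Imm m ι ↥(S \ B)) (s : ℝ), Injective M.x → M.Sm F → M.Sm G → M.Sm om → (∀ i, M.Sm (a i)) →
  IsClosed S → Slice M F G S B N → 0 < s →
  (∀ p ∈ S, p ∈ tsupport om → s + ∑ i, M.cost om (a i) p ≤ G p * om p ^ 4 + ∑ i, a i p ^ 2) →
  Ess (fun q : S => om q) (fun i q => a i q) → ∃ V om' a', N.FormData V om' a'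

/-- DOUBLE: a compact part of an immersed manifold lies in a compact one. -/
def DblStmt : Prop := AllImm fun d ι _ _ X _ _ _ _ _ M => ∀ K : Set X, IsCompact K →
  ∃ (Y : Type) (_ : TopologicalSpace Y) (_ : T2Space Y) (_ : SecondCountableTopology Y)
    (_ : MeasurableSpace Y) (_ : BorelSpace Y) (_ : CompactSpace Y) (N : Imm d (Option ι) Y)
    (e : OpenPartialHomeomorph X Y) (c : ℝ), K ⊆ e.source ∧ ∀ p ∈ e.source, N.x (e p) = up c (M.x p)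

/-- CLOSE: from the form class to the pointwise class on a compact manifold. -/
def CloseStmt : Prop := AllImm fun d _ _ _ _ _ _ _ _ _ M => ∀ V om a, M.FormData V om a →
  ExImm d fun _ _ _ Y _ _ _ _ _ N => CompactSpace Y ∧ ∃ F om' a', N.PtData F om' a'

/-- EMB: immersed to embedded. -/
def EmbStmt : Prop := AllImm fun d _ _ _ X _ _ _ _ _ M => CompactSpace X →
  ∀ F om a, M.PtData F om a → ExImm d fun _ _ _ Y _ _ _ _ _ N =>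
    CompactSpace Y ∧ Injective N.x ∧ ∃ F' om' a', N.PtData F' om' a'

/-- the drift form of the hypothesis gives the form inequality -/
def DriftStmt : Prop := AllImm fun _ ι _ _ X _ _ _ _ _ M => ∀ (b : ι → X → ℝ) (V : X → ℝ),
  (∀ a, M.Sm (b a)) → M.pre.Tan b → M.Sm V → ∀ z, M.Tst z →
  (∀ p ∈ tsupport z, V p ≤ M.pre.Eb b p) →
  0 ≤ ∫ p, (4 * M.pre.gam z z p + (M.pre.scal p - V p) * z p ^ 2) ∂M.mu

end Crest.Agent.N222

end
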