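import Crest.Agent.N222.B.E0
import Crest.Agent.N222.F.Graph

/-!
# Row 222, part B, ε-regularity block (helper16): rescaled integrals, output of a blow-up,
monotonicity for graphs, mean value inequality
-/

set_option autoImplicit false
set_option linter.unusedSectionVars false
open MeasureTheory Set Filter Topology Function Metric
open scoped ContDiff InnerProductSpace RealInnerProductSpace

noncomputable section

namespace Crest.Agent.N222.EP

variable {d : ℕ} {ι : Type} [Fintype ι] [DecidableEq ι] {X : Type} [TopologicalSpace X]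
  [T2Space X] [SecondCountableTopology X] [MeasurableSpace X] [BorelSpace X] [CompactSpace X]

/-! ### mean value inequality -/

section Mean
variable {N : Imm d ι X}

theorem rem_nonneg (N : Imm d ι X) (y : E ι) (r : ℝ) (p : X) :
    0 ≤ -2 * deriv Phi (‖N.x p - y‖ ^ 2 / r ^ 2) * N.perp y p :=
  mul_nonneg (mul_nonneg_of_nonpos_of_nonpos (by norm_num) Phi_anti.deriv_nonpos) (sq_nonneg _)

/-- If the first and the last term of the monotonicity identity are bounded below, the weighted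
density at scale `ρ` controls the value at the centre. -/
theorem mean_value (hMon : MonStmt) (hMon2 : Mon2Stmt) (hN : Injective N.x) {v : X → ℝ}
    (hv : N.Sm v) (h0 : ∀ q, 0 ≤ v q) (p : X) {ρ K : ℝ} (hρ : 0 < ρ)
    (h : ∀ t, 0 < t → t ≤ ρ → -(K * t ^ (d + 1)) ≤
      -(t ^ 2 / 2) * (∫ q, N.pre.gam v (fun q => Psi (‖N.x q - N.x p‖ ^ 2 / t ^ 2)) q ∂N.mu)
      + ∫ q, v q * Phi (‖N.x q - N.x p‖ ^ 2 / t ^ 2) * ⟪N.x q - N.x p, N.Hv q⟫ ∂N.mu) :
    cPhi d * v p - K * ρ ≤ N.Th v (N.x p) ρ := by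
  obtain ⟨Λ, hΛ⟩ := isCompact_univ.exists_bound_of_continuousOn
    (f := N.Hv) (Imm.Sm.continuous (Imm.sm_euclid.2 N.sm_H)).continuousOn
  have hl := ((hMon2 d ι X N inferInstance Λ fun q => hΛ q (mem_univ q)).2 hN).1 v p hv.continuous
  have hd := fun t (ht : 0 < t) =>
    (hMon d ι X N inferInstance v (N.x p) t hv ht).add ((hasDerivAt_id t).const_mul K)
  have hm : MonotoneOn (fun t => N.Th v (N.x p) t + K * t) (Ioc 0 ρ) := by
    refine monotoneOn_of_deriv_nonneg (convex_Ioc 0 ρ)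
      (fun t ht => (hd t ht.1).continuousAt.continuousWithinAt)
      (fun t ht => (hd t (interior_subset ht).1).differentiableAt.differentiableWithinAt)
      fun t ht => ?_
    obtain ⟨ht0, ht1⟩ := interior_subset ht
    refine le_of_le_of_eq ?_ (hd t ht0).deriv.symm
    have h1 := h t ht0 ht1
    have h2 : 0 ≤ ∫ q, v q * (-2 * deriv Phi (‖N.x q - N.x p‖ ^ 2 / t ^ 2)) *
        (N.perp (N.x p) q / t ^ 2) ∂N.mu := integral_nonneg fun q => by
      have := mul_nonneg (h0 q) (div_nonneg (rem_nonneg N (N.x p) t q) (sq_nonneg t))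
      exact this.trans_eq (by ring)
    rw [mul_one, ← neg_le_iff_add_nonneg, le_div_iff₀ (by positivity)]
    linarith
  have hl2 : Tendsto (fun t => N.Th v (N.x p) t + K * t) (𝓝[>] 0) (𝓝 (cPhi d * v p + K * 0)) :=
    hl.add ((tendsto_id.mono_left nhdsWithin_le_nhds).const_mul K)
  have := le_of_tendsto hl2 (by
    filter_upwards [Ioc_mem_nhdsGT hρ] with t ht using hm ht ⟨hρ, le_rfl⟩ ht.2)
  linarith

end Mean

variable {M : Imm d ι X} {u : X → ℝ} {C : ℝ}

/-! ### monotonicity for graphs -/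

theorem graph_Hv_le (hu : M.Sm u) (h : M.Sheet C u) (p : X) : ‖(M.graph u hu).Hv p‖ ≤ C := by
  rw [Imm.Hv, Imm.graph_pre hu]; exact h.H p

theorem gTh_nonneg {r : ℝ} (hr : 0 < r) (y : E (Option ι)) : 0 ≤ M.gTh u y r :=
  div_nonneg (integral_nonneg fun _ => Phi_nonneg _) (by positivity)

theorem gTh_mono (hMon2 : Mon2Stmt) (hu : M.Sm u) (h : M.Sheet C u) (y : E (Option ι))
    {r1 r2 : ℝ} (h1 : 0 < r1) (h2 : r1 ≤ r2) :
    Real.exp (C * r1) * M.gTh u y r1 ≤ Real.exp (C * r2) * M.gTh u y r2 := by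
  have := (hMon2 d _ X (M.graph u hu) inferInstance C (graph_Hv_le hu h)).1 y r1 r2 h1 h2
  rw [Imm.graph_Th hu, Imm.graph_Th hu] at this
  refine le_trans (le_add_of_nonneg_right ?_) this
  exact intervalIntegral.integral_nonneg h2 fun t ht =>
    div_nonneg (integral_nonneg fun q => rem_nonneg _ _ _ q) (pow_pos (h1.trans_le ht.1) _).le

theorem gTh_low (hMon2 : Mon2Stmt) (hM : Injective M.x) (hu : M.Sm u) (h : M.Sheet C u) (p : X)
    {r : ℝ} (hr : 0 < r) : cPhi d ≤ Real.exp (C * r) * M.gTh u (M.gx u p) r := by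
  have := ((hMon2 d _ X (M.graph u hu) inferInstance C (graph_Hv_le hu h)).2
    (Imm.gx_injective hM u)).2 p r hr
  rwa [Imm.graph_Th hu] at this

/-! ### rescaled integrals -/

/-- rescaled position -/
def ry (M : Imm d ι X) (u : X → ℝ) (p : X) (r : ℝ) (q : X) : E (Option ι) :=
  r⁻¹ • (M.gx u q - M.gx u p)

/-- rescaled integral -/
def bl (M : Imm d ι X) (u : X → ℝ) (r : ℝ) (f : X → ℝ) : ℝ := (∫ q, f q ∂M.gmu u) / r ^ d

/-- area bound (second part of `CalStmt`) -/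
def Area (M : Imm d ι X) (C : ℝ) (u : X → ℝ) : Prop :=
  ∀ y (r : ℝ), 0 < r → r ≤ 1 → (M.gmu u).real {p | ‖M.gx u p - y‖ ≤ r} ≤ C * r ^ d

variable {p q : X} {r R K : ℝ} {f g : X → ℝ}

theorem norm_ry (hr : 0 < r) : ‖ry M u p r q‖ = ‖M.gx u q - M.gx u p‖ / r := by
  rw [ry, norm_smul, norm_inv, Real.norm_of_nonneg hr.le, inv_mul_eq_div]

theorem norm_ry_le (hr : 0 < r) : ‖ry M u p r q‖ ≤ R ↔ ‖M.gx u q - M.gx u p‖ ≤ R * r := by
  rw [norm_ry hr, div_le_iff₀ hr]

theorem ry_sub (q' : X) : ry M u p r q - ry M u p r q' = ry M u q' r q := by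
  rw [ry, ry, ry, ← smul_sub, sub_sub_sub_cancel_right]

theorem sm_ry (hu : M.Sm u) (p : X) (r : ℝ) : M.Sm (ry M u p r) :=
  (Imm.sm_const r⁻¹).smul ((Imm.sm_gx hu).sub (Imm.sm_const _))

theorem continuous_ry (hu : M.Sm u) (p : X) (r : ℝ) : Continuous (ry M u p r) :=
  (sm_ry hu p r).continuous

theorem integrable_gmu (hu : M.Sm u) (hf : Continuous f) : Integrable f (M.gmu u) :=
  haveI := Imm.isFiniteMeasure_gmu hu
  hf.integrable_of_hasCompactSupport (HasCompactSupport.of_compactSpace f)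

/-- `gTh` at scale `σ r` around `q'` -/
theorem gTh_eq_bl (hr : 0 < r) (q' : X) (σ : ℝ) : M.gTh u (M.gx u q') (σ * r) =
    bl M u r (fun q => Phi (‖ry M u p r q - ry M u p r q'‖ ^ 2 / σ ^ 2)) / σ ^ d := by
  simp only [Imm.gTh, bl, ry_sub, norm_ry hr, div_pow, div_div, mul_pow, mul_comm]

theorem bl_add (hu : M.Sm u) (hf : Continuous f) (hg : Continuous g) :
    bl M u r (fun q => f q + g q) = bl M u r f + bl M u r g := by
  rw [bl, integral_add (integrable_gmu hu hf) (integrable_gmu hu hg), add_div]; rfl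

theorem bl_sub (hu : M.Sm u) (hf : Continuous f) (hg : Continuous g) :
    bl M u r (fun q => f q - g q) = bl M u r f - bl M u r g := by
  rw [bl, integral_sub (integrable_gmu hu hf) (integrable_gmu hu hg), sub_div]; rfl

theorem bl_const_mul (c : ℝ) (f : X → ℝ) : bl M u r (fun q => c * f q) = c * bl M u r f := by
  rw [bl, integral_const_mul, mul_div_assoc]; rfl

theorem bl_nonneg (hr : 0 < r) (h : ∀ q, 0 ≤ f q) : 0 ≤ bl M u r f :=
  div_nonneg (integral_nonneg h) (by positivity)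

theorem bl_mono (hu : M.Sm u) (hr : 0 < r) (hf : Continuous f) (hg : Continuous g)
    (h : ∀ q, f q ≤ g q) : bl M u r f ≤ bl M u r g :=
  div_le_div_of_nonneg_right (integral_mono (integrable_gmu hu hf) (integrable_gmu hu hg) h)
    (by positivity)


theorem abs_bl_le (hu : M.Sm u) (hA : Area M C u) (hr : 0 < r) (hR : 0 < R) (h1 : R * r ≤ 1)
    (hK : 0 ≤ K) (h : ∀ q, ‖ry M u p r q‖ ≤ R → |f q| ≤ K)
    (h0 : ∀ q, R < ‖ry M u p r q‖ → f q = 0) : |bl M u r f| ≤ K * (C * R ^ d) := by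
  haveI := Imm.isFiniteMeasure_gmu hu
  rw [bl, abs_div, abs_of_pos (pow_pos hr d), div_le_iff₀ (pow_pos hr d),
    ← setIntegral_eq_integral_of_forall_compl_eq_zero (s := {q | ‖M.gx u q - M.gx u p‖ ≤ R * r})
      fun q hq => h0 q (not_le.1 fun h => hq ((norm_ry_le hr).1 h))]
  refine (norm_setIntegral_le_of_norm_le_const (f := f) (C := K) (measure_lt_top _ _)
    fun q hq => h q ((norm_ry_le hr).2 hq)).trans ?_
  refine (mul_le_mul_of_nonneg_left (hA _ _ (by positivity) h1) hK).trans_eq ?_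
  rw [mul_pow]; ring

section Seq
variable {α : Type} {l : Filter α} {u : α → X → ℝ} {p : α → X} {r : α → ℝ} {p0 : X}

theorem ev_pos (hr : Tendsto r l (𝓝[>] 0)) : ∀ᶠ j in l, 0 < r j := hr.eventually self_mem_nhdsWithin

theorem ev_mul_le (hr : Tendsto r l (𝓝[>] 0)) (R : ℝ) {ε : ℝ} (hε : 0 < ε) :
    ∀ᶠ j in l, R * r j ≤ ε :=
  ((hr.mono_right nhdsWithin_le_nhds).const_mul R).eventually (ge_mem_nhds (by simpa using hε))

/-- rescaled balls shrink to the limit point -/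
theorem ev_near (hM : Injective M.x) (hp : Tendsto p l (𝓝 p0)) (hr : Tendsto r l (𝓝[>] 0))
    (R : ℝ) {N : Set X} (hN : N ∈ 𝓝 p0) :
    ∀ᶠ j in l, ∀ q, ‖ry M (u j) (p j) (r j) q‖ ≤ R → q ∈ N := by
  rw [(M.continuous_x.isClosedEmbedding hM).isInducing.nhds_eq_comap] at hN
  obtain ⟨ε, hε, h⟩ := (nhds_basis_ball.comap M.x).mem_iff.1 hN
  filter_upwards [ev_pos hr, ev_mul_le hr R (half_pos hε),
    ((M.continuous_x.tendsto p0).comp hp).eventually (ball_mem_nhds _ (half_pos hε))]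
    with j h1 h2 h3 q hq
  refine h ?_
  have h4 := (Imm.norm_x_sub_le (u j) q (M.gx (u j) (p j))).trans ((norm_ry_le h1).1 hq)
  change ‖M.x q - M.x (p j)‖ ≤ _ at h4
  have h5 : dist (M.x (p j)) (M.x p0) < ε / 2 := h3
  rw [mem_preimage, mem_ball]
  linarith [dist_triangle (M.x q) (M.x (p j)) (M.x p0), dist_eq_norm (M.x q) (M.x (p j))]

/-- uniformly small integrands with support in a rescaled ball -/
theorem tendsto_bl_zero (hu : ∀ j, M.Sm (u j)) (hA : ∀ j, Area M C (u j))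
    (hr : Tendsto r l (𝓝[>] 0)) {f : α → X → ℝ} (R : ℝ)
    (h : ∀ ε > 0, ∀ᶠ j in l, ∀ q, ‖ry M (u j) (p j) (r j) q‖ ≤ R → |f j q| ≤ ε)
    (h0 : ∀ᶠ j in l, ∀ q, R < ‖ry M (u j) (p j) (r j) q‖ → f j q = 0) :
    Tendsto (fun j => bl M (u j) (r j) (f j)) l (𝓝 0) := by
  refine Metric.tendsto_nhds.2 fun ε hε => ?_
  have hR : 0 < |R| + 1 := by positivity
  have hB : 0 < |C * (|R| + 1) ^ d| + 1 := by positivity
  filter_upwards [ev_pos hr, ev_mul_le hr (|R| + 1) one_pos, h _ (div_pos hε hB), h0]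
    with j h1 h2 h3 h4
  rw [Real.dist_eq, sub_zero]
  refine (abs_bl_le (p := p j) (hu j) (hA j) h1 hR h2 (div_pos hε hB).le (fun q _ => ?_)
    fun q hq => h4 q (by linarith [le_abs_self R])).trans_lt ?_
  · by_cases hq : ‖ry M (u j) (p j) (r j) q‖ ≤ R
    · exact h3 q hq
    · rw [h4 q (not_le.1 hq), abs_zero]; positivity
  · rw [div_mul_eq_mul_div, div_lt_iff₀ hB]
    exact mul_lt_mul_of_pos_left (by linarith [le_abs_self (C * (|R| + 1) ^ d)]) hε

end Seq

/-! ### the output of a blow-up -/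

/-- `BlowStmt` with test functions that have bounded support in the position only -/
structure Out (M : Imm d ι X) (𝒰 : Ultrafilter ℕ) (u : ℕ → X → ℝ) (p : ℕ → X) (r : ℕ → ℝ) (p0 : X)
    (L : Y d →ₗᵢ[ℝ] E (Option ι)) (V : Measure (Y d × Y d)) : Prop where
  tp : Tendsto p 𝒰 (𝓝 p0)
  lim : LimV d V
  ran : ∀ w, M.PbL p0 w = w ↔ w ∈ range L
  conv : ∀ (g : E (Option ι) × E (Option ι) → ℝ) (R : ℝ), Continuous g →
    (∀ s, R < ‖s.1‖ → g s = 0) →
    Tendsto (fun j => bl M (u j) (r j) fun q => g (ry M (u j) (p j) (r j) q, M.nuv (u j) q)) 𝒰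
      (𝓝 (∫ q, g (L q.1, L q.2) ∂V))
  supp : ∀ y, InSupp V y → ∃ q : ℕ → X,
    Tendsto (fun j => ry M (u j) (p j) (r j) (q j)) 𝒰 (𝓝 (L y))

theorem exists_out (hB : BlowStmt) (hM : Injective M.x) {F : X → ℝ} (hF : M.Sm F) {Λ : ℝ}
    (𝒰 : Ultrafilter ℕ) {u : ℕ → X → ℝ} (p : ℕ → X) {r : ℕ → ℝ} (hu : ∀ j, M.Adm F Λ (u j))
    (hr : Tendsto r 𝒰 (𝓝[>] 0)) : ∃ p0 L V, Out M 𝒰 u p r p0 L V := by
  obtain ⟨p0, L, V, h1, h2, h3, h4, h5⟩ := hB d ι X M F hM hF Λ 𝒰 u p r hu hr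
  refine ⟨p0, L, V, h1, h2, h3, fun g R hg h0 => ?_, h5⟩
  have h6 := h4 (fun s => g s * Phi (‖s.2 - 0‖ ^ 2 / 2 ^ 2)) (by fun_prop)
    (hcs_of_norm (max R 2) fun s hs => by
      rcases lt_max_iff.1 (hs.trans_eq (Prod.norm_def s)) with h | h
      · rw [h0 s ((le_max_left _ _).trans_lt h), zero_mul]
      · rw [Phi_ball_zero two_pos (by rw [sub_zero]; exact ((le_max_right _ _).trans_lt h).le),
          mul_zero])
  have e : ∀ {n : E (Option ι)}, ‖n‖ = 1 → Phi (‖n - 0‖ ^ 2 / 2 ^ 2) = 1 := fun hn =>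
    Phi_ball_one two_pos (by rw [sub_zero, hn]; norm_num)
  simp only [fun j q => e (Imm.norm_nuv (hu j).sm q), mul_one] at h6
  rwa [integral_congr_ae (g := fun q => g (L q.1, L q.2)) (by
    filter_upwards [h2.unit] with q hq
    rw [e (by rw [L.norm_map, hq]), mul_one])] at h6

/-- the ultrafilter for arguments by contradiction -/
theorem tendsto_hyper {r : ℕ → ℝ} (h0 : ∀ j, 0 < r j) (h : ∀ j, r j ≤ 1 / ((j : ℝ) + 1)) :
    Tendsto r (hyperfilter ℕ) (𝓝[>] 0) :=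
  (tendsto_nhdsWithin_iff.2 ⟨squeeze_zero (fun j => (h0 j).le) h
    tendsto_one_div_add_atTop_nhds_zero_nat, .of_forall h0⟩).mono_left
    (Nat.cofinite_eq_atTop ▸ hyperfilter_le_cofinite)

end Crest.Agent.N222.EP

end
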