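import Crest.Agent.N222.B.Defs
import Crest.Agent.N222.F.Res
import Crest.Agent.N222.B.Defs2
import Crest.Agent.N222.B.E1
import Crest.Agent.N222.F.Lip
import Crest.Agent.N222.F.Ker

-- ▼ part N222/B/ULim
section

/-!
# Row 222, part B: smooth limits along an ultrafilter (helper46)
-/

set_option autoImplicit false
open MeasureTheory Set Filter Topology Function Metric
open scoped ContDiff

noncomputable section

namespace Crest.Agent.N222

namespace UL

variable {X : Type} [NormedAddCommGroup X] [NormedSpace ℝ X] [FiniteDimensional ℝ X]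

theorem finite_cml (j : ℕ) (F : Type) [NormedAddCommGroup F] [NormedSpace ℝ F]
    [FiniteDimensional ℝ F] : FiniteDimensional ℝ (X [×j]→L[ℝ] F) := by
  induction j with
  | zero =>
    exact (continuousMultilinearCurryFin0 ℝ X F).symm.toLinearEquiv.finiteDimensional
  | succ j ih =>
    exact (continuousMultilinearCurryLeftEquiv ℝ (fun _ : Fin (j + 1) => X)
      F).symm.toLinearEquiv.finiteDimensional

/-- bounded equi-Lipschitz families converge uniformly along an ultrafilter -/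
theorem lip_lim {F : Type} [NormedAddCommGroup F] [ProperSpace F] (𝒰 : Ultrafilter ℕ)
    (g : ℕ → X → F) (z0 : X) (r C L : ℝ)
    (hC : ∀ᶠ j in (𝒰 : Filter ℕ), ∀ z ∈ ball z0 r, ‖g j z‖ ≤ C)
    (hL : ∀ᶠ j in (𝒰 : Filter ℕ), ∀ z ∈ ball z0 r, ∀ y ∈ ball z0 r, ‖g j y - g j z‖ ≤ L * ‖y - z‖) :
    ∃ G : X → F, TendstoUniformlyOn g G 𝒰 (ball z0 r) := by
  have : ProperSpace X := FiniteDimensional.proper_real X
  have h1 : ∀ z, ∃ a : F, z ∈ ball z0 r → Tendsto (fun j => g j z) 𝒰 (𝓝 a) := by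
    intro z
    by_cases hz : z ∈ ball z0 r
    · obtain ⟨a, -, ha⟩ := (isCompact_closedBall (0 : F) C).ultrafilter_le_nhds
        (𝒰.map fun j => g j z) (by
          rw [Ultrafilter.coe_map, le_principal_iff, mem_map]
          filter_upwards [hC] with j hj
          simpa using hj z hz)
      exact ⟨a, fun _ => ha⟩
    · exact ⟨0, fun h => absurd h hz⟩
  choose G hG using h1
  refine ⟨G, Metric.tendstoUniformlyOn_iff.2 fun ε hε => ?_⟩
  have hGL : ∀ z ∈ ball z0 r, ∀ y ∈ ball z0 r, ‖G y - G z‖ ≤ L * ‖y - z‖ := fun z hz y hy =>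
    le_of_tendsto ((hG y hy).sub (hG z hz)).norm (hL.mono fun j hj => hj z hz y hy)
  have htb : TotallyBounded (ball z0 r) :=
    (isCompact_closedBall z0 r).totallyBounded.subset ball_subset_closedBall
  set δ := ε / 3 / (|L| + 1) with hδ
  have hδ0 : 0 < δ := by positivity
  obtain ⟨t, hts, htf, ht⟩ := Metric.finite_approx_of_totallyBounded htb δ hδ0
  have h2 : ∀ᶠ j in (𝒰 : Filter ℕ), ∀ z ∈ t, dist (g j z) (G z) < ε / 3 :=
    (eventually_all_finite htf).2 fun z hz => Metric.tendsto_nhds.1 (hG z (hts hz)) _ (by positivity)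
  filter_upwards [h2, hL] with j hj hjL y hy
  obtain ⟨z, hz, hyz⟩ := mem_iUnion₂.1 (ht hy)
  have hyz' : ‖y - z‖ < δ := by rwa [mem_ball, dist_eq_norm] at hyz
  have h3 : L * ‖y - z‖ ≤ ε / 3 := by
    have : L * ‖y - z‖ ≤ (|L| + 1) * δ :=
      mul_le_mul ((le_abs_self L).trans (by linarith)) hyz'.le (norm_nonneg _) (by positivity)
    rwa [hδ, mul_div_cancel₀ _ (by positivity)] at this
  have a1 := (hGL z (hts hz) y hy).trans h3
  have a2 := (hjL z (hts hz) y hy).trans h3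
  have a3 := hj z hz
  rw [← dist_eq_norm] at a1 a2
  have := dist_triangle4 (G y) (G z) (g j z) (g j y)
  rw [dist_comm (G z), dist_comm (g j z) (g j y)] at this
  linarith

omit [FiniteDimensional ℝ X] in
/-- derivatives of limits -/
theorem der_lim {F : Type} [NormedAddCommGroup F] [NormedSpace ℝ F] (𝒰 : Ultrafilter ℕ)
    {g : ℕ → X → F} {G : X → F} {G' : X → X →L[ℝ] F} {z0 : X} {r : ℝ}
    (hd : ∀ᶠ j in (𝒰 : Filter ℕ), ∀ z ∈ ball z0 r, DifferentiableAt ℝ (g j) z)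
    (h0 : TendstoUniformlyOn g G 𝒰 (ball z0 r))
    (h1 : TendstoUniformlyOn (fun j => fderiv ℝ (g j)) G' 𝒰 (ball z0 r)) :
    ∀ x ∈ ball z0 r, HasFDerivAt G (G' x) x := by
  intro x hx
  have hb : ball z0 r ∈ 𝓝 x := isOpen_ball.mem_nhds hx
  refine hasFDerivAt_of_tendstoUniformlyOnFilter (l := (𝒰 : Filter ℕ)) (f := g)
    (f' := fun j => fderiv ℝ (g j)) ?_ ?_ (eventually_of_mem hb fun y hy => h0.tendsto_at hy)
  · exact (tendstoUniformlyOn_iff_tendstoUniformlyOnFilter.1 h1).mono_right (le_principal_iff.2 hb)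
  · exact (hd.prod_mk (eventually_of_mem hb fun _ h => h)).mono fun q hq =>
      (hq.1 q.2 hq.2).hasFDerivAt

/-- smooth limits, vector valued -/
theorem sm_lim {F : Type} [NormedAddCommGroup F] [NormedSpace ℝ F] [FiniteDimensional ℝ F]
    (𝒰 : Ultrafilter ℕ) (w : ℕ → X → F) (z0 : X) (r : ℝ)
    (hw : ∀ᶠ j in (𝒰 : Filter ℕ), ContDiffOn ℝ ∞ (w j) (ball z0 r))
    (hb : ∀ k : ℕ, ∃ C : ℝ, ∀ᶠ j in (𝒰 : Filter ℕ), ∀ z ∈ ball z0 r,
      ‖iteratedFDeriv ℝ k (w j) z‖ ≤ C) :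
    ∃ v : X → F, ContDiffOn ℝ ∞ v (ball z0 r) ∧ TendstoUniformlyOn w v 𝒰 (ball z0 r) := by
  choose C hC using hb
  have : ∀ j, FiniteDimensional ℝ (X [×j]→L[ℝ] F) := fun j => finite_cml j F
  have : ∀ j, ProperSpace (X [×j]→L[ℝ] F) := fun j => FiniteDimensional.proper_real _
  have hd : ∀ k, ∀ᶠ j in (𝒰 : Filter ℕ), ∀ z ∈ ball z0 r,
      DifferentiableAt ℝ (iteratedFDeriv ℝ k (w j)) z := fun k => hw.mono fun j hj z hz =>
    ((hj.contDiffAt (isOpen_ball.mem_nhds hz)).iteratedFDeriv_right (m := 1)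
      (by exact_mod_cast le_top)).differentiableAt one_ne_zero
  have h1 : ∀ k, ∃ G : X → X [×k]→L[ℝ] F,
      TendstoUniformlyOn (fun j => iteratedFDeriv ℝ k (w j)) G 𝒰 (ball z0 r) := fun k =>
    lip_lim 𝒰 _ z0 r (C k) (C (k + 1)) (hC k) (by
      filter_upwards [hd k, hC (k + 1)] with j hj hj' z hz y hy
      refine (convex_ball z0 r).norm_image_sub_le_of_norm_fderiv_le hj (fun x hx => ?_) hz hy
      rw [norm_fderiv_iteratedFDeriv]; exact hj' x hx)
  choose G hG using h1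
  have hder : ∀ m, ∀ x ∈ ball z0 r, HasFDerivAt (G m) (G (m + 1) x).curryLeft x := fun m =>
    der_lim 𝒰 (g := fun j => iteratedFDeriv ℝ m (w j)) (G' := fun x => (G (m + 1) x).curryLeft)
      (hd m) (hG m) ((continuousMultilinearCurryLeftEquiv ℝ (fun _ : Fin (m + 1) => X)
        F).isometry.uniformContinuous.comp_tendstoUniformlyOn (hG (m + 1)))
  have hT : HasFTaylorSeriesUpToOn ∞ (fun x => (G 0 x).curry0) (fun x j => G j x) (ball z0 r) :=
    ⟨fun _ _ => rfl, fun m _ x hx => (hder m x hx).hasFDerivWithinAt,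
      fun m _ x hx => (hder m x hx).continuousAt.continuousWithinAt⟩
  refine ⟨fun x => (G 0 x).curry0, hT.contDiffOn, ?_⟩
  exact (continuousMultilinearCurryFin0 ℝ X F).isometry.uniformContinuous.comp_tendstoUniformlyOn
    (hG 0)



end UL


end Crest.Agent.N222

end
end

-- ▼ part N222/B/Box0
section

/-!
# Row 222, part B, local graphs: the Euclidean core
(statements by helper10, proofs by helper38)
-/

set_option autoImplicit false
open Set Filter Topology Function Metric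
open scoped ContDiff

noncomputable section

namespace Crest.Agent.N222.Bx

variable {m n : ℕ}

theorem norm_sq_cons0 (t : ℝ) (z : E (Fin m)) : ‖cons0 t z‖ ^ 2 = t ^ 2 + ‖z‖ ^ 2 := by
  simp [EuclideanSpace.real_norm_sq_eq, Fin.sum_univ_succ]

theorem norm_tail0_le (z : E (Fin (m + 1))) : ‖tail0 z‖ ≤ ‖z‖ := by
  have := norm_sq_cons0 (z 0) (tail0 z)
  rw [cons0_tail0] at this
  exact abs_le_of_sq_le_sq' (by nlinarith [sq_nonneg (z 0)]) (norm_nonneg _) |>.2

theorem abs_zero_le (z : E (Fin (m + 1))) : |z 0| ≤ ‖z‖ := by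
  simpa using PiLp.norm_apply_le z 0

theorem norm_cons0_le (t : ℝ) (z : E (Fin m)) : ‖cons0 t z‖ ≤ |t| + ‖z‖ := by
  refine abs_le_of_sq_le_sq' ?_ (by positivity) |>.2
  rw [norm_sq_cons0, ← sq_abs t]
  nlinarith [abs_nonneg t, norm_nonneg z]

/-- a function whose derivative is positive at every zero has at most one zero -/
theorem one_zero {g g' : ℝ → ℝ} {a b : ℝ} (hg : ∀ s ∈ Icc a b, HasDerivAt g (g' s) s)
    (h : ∀ s ∈ Icc a b, g s = 0 → 0 < g' s) (ha : g a = 0) (hb : g b = 0) (hab : a ≤ b) :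
    a = b := by
  by_contra hne
  have hlt : a < b := lt_of_le_of_ne hab hne
  have h0 : ∀ s ∈ Icc a b, (0 : ℝ) ≤ g s := fun s hs =>
    image_le_of_deriv_right_lt_deriv_boundary' (f := fun _ => (0 : ℝ)) (f' := fun _ => 0)
      continuousOn_const (fun x _ => hasDerivWithinAt_const _ _ _) ha.ge
      (fun x hx => (hg x hx).continuousAt.continuousWithinAt)
      (fun x hx => (hg x (Ico_subset_Icc_self hx)).hasDerivWithinAt)
      (fun x hx e => h x (Ico_subset_Icc_self hx) e.symm) hs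
  have h1 : Tendsto (slope g b) (𝓝[<] b) (𝓝 (g' b)) :=
    (hasDerivAt_iff_tendsto_slope.1 (hg b ⟨hab, le_rfl⟩)).mono_left
      (nhdsWithin_mono _ fun x hx => ne_of_lt hx)
  have h2 : g' b ≤ 0 := by
    refine le_of_tendsto h1 ?_
    filter_upwards [Ioo_mem_nhdsLT hlt] with s hs
    rw [slope_def_field, hb, sub_zero]
    exact div_nonpos_of_nonneg_of_nonpos (h0 s (Ioo_subset_Icc_self hs)) (by linarith [hs.2])
  exact absurd (h b ⟨hab, le_rfl⟩ hb) (not_lt.2 h2)

/-- climbing through a slab -/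
theorem climb {g g' : ℝ → ℝ} {μ : ℝ} (hg : ∀ s ∈ Icc (0 : ℝ) 1, HasDerivAt g (g' s) s)
    (h0 : g 0 = 0) (hμ : 0 ≤ μ) (h : ∀ s ∈ Icc (0 : ℝ) 1, |g s| ≤ μ → μ < g' s) : μ ≤ g 1 := by
  have := image_le_of_deriv_right_lt_deriv_boundary' (f := fun s => μ * s) (f' := fun _ => μ)
    (a := 0) (b := 1) (B := g) (B' := g') (by fun_prop)
    (fun x _ => by simpa using ((hasDerivAt_id x).const_mul μ).hasDerivWithinAt) (by simp [h0])
    (fun x hx => (hg x hx).continuousAt.continuousWithinAt)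
    (fun x hx => (hg x (Ico_subset_Icc_self hx)).hasDerivWithinAt)
    (fun x hx e => h x (Ico_subset_Icc_self hx) (by
      rw [← e, abs_of_nonneg (mul_nonneg hμ hx.1)]
      exact mul_le_of_le_one_right hμ hx.2.le)) (x := 1) ⟨zero_le_one, le_rfl⟩
  simpa using this

/-- global inverse function theorem for a bijection -/
theorem exists_oph {Φ : E (Fin n) → E (Fin n)} {S T : Set (E (Fin n))} (hS : IsOpen S)
    (hT : IsOpen T) (hb : BijOn Φ S T) (hΦ : ContDiffOn ℝ ∞ Φ S)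
    (hd : ∀ z ∈ S, Injective (fderiv ℝ Φ z)) :
    ∃ g : OpenPartialHomeomorph (E (Fin n)) (E (Fin n)), g.source = S ∧ g.target = T ∧
      (∀ z, g z = Φ z) ∧ ContDiffOn ℝ ∞ g.symm T := by
  have hs : ContDiffOn ℝ ∞ (hb.toPartialEquiv Φ S T).symm T := by
    intro y hy
    obtain ⟨z, hz, rfl⟩ := hb.surjOn hy
    have h1 : ContDiffAt ℝ ∞ Φ z := hΦ.contDiffAt (hS.mem_nhds hz)
    let L : E (Fin n) ≃L[ℝ] E (Fin n) :=
      (LinearEquiv.ofInjectiveEndo (fderiv ℝ Φ z).toLinearMap (hd z hz)).toContinuousLinearEquiv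
    have h2 : HasFDerivAt Φ (L : E (Fin n) →L[ℝ] E (Fin n)) z := by
      have : (L : E (Fin n) →L[ℝ] E (Fin n)) = fderiv ℝ Φ z := by ext v; rfl
      rw [this]
      exact (h1.differentiableAt (by simp)).hasFDerivAt
    have h3 := (h1.hasStrictFDerivAt' h2 (by simp)).localInverse_unique
      (g := (hb.toPartialEquiv Φ S T).symm)
      (eventually_of_mem (hS.mem_nhds hz) fun x hx => (hb.toPartialEquiv Φ S T).left_inv hx)
    exact ((h1.to_localInverse h2 (by simp)).congr_of_eventuallyEq h3).contDiffWithinAt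
  exact ⟨{ toPartialEquiv := hb.toPartialEquiv Φ S T
           open_source := hS
           open_target := hT
           continuousOn_toFun := hΦ.continuousOn
           continuousOn_invFun := hs.continuousOn }, rfl, rfl, fun _ => rfl, hs⟩

/-- `U` increases along the cone around the axis `0` inside the slab `|U| < δ` -/
def Cone (U : E (Fin (m + 1)) → ℝ) (R δ : ℝ) : Prop :=
  ∀ y ∈ ball (0 : E (Fin (m + 1))) (2 * R), |U y| < δ →
    ∀ η : E (Fin (m + 1)), ‖tail0 η‖ ≤ η 0 → η 0 ≤ fderiv ℝ U y η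

theorem hasDerivAt_cons0 (z : E (Fin m)) (s : ℝ) :
    HasDerivAt (fun s => cons0 s z) (cons0 1 0) s := by
  have h : (fun s : ℝ => cons0 s z) = fun s => cons0 0 z + s • cons0 1 (0 : E (Fin m)) := by
    funext s
    ext i
    refine Fin.cases ?_ (fun _ => ?_) i <;> simp
  rw [h]
  simpa using ((hasDerivAt_id s).smul_const (cons0 1 (0 : E (Fin m)))).const_add (cons0 0 z)

/-- climbing along a segment -/
theorem seg {U : E (Fin (m + 1)) → ℝ} {R δ ρ c : ℝ} (hρ : 0 ≤ ρ) (hδ : ρ < δ)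
    (hU : ∀ y ∈ ball (0 : E (Fin (m + 1))) (2 * R), DifferentiableAt ℝ U y) (hc : Cone U R δ)
    {a b : E (Fin (m + 1))} (ha : a ∈ ball (0 : E (Fin (m + 1))) (2 * R))
    (hb : b ∈ ball (0 : E (Fin (m + 1))) (2 * R)) (hUa : U a = 0) (h1 : |c| = 1)
    (h2 : ‖tail0 (b - a)‖ ≤ c * (b - a) 0) (h3 : ρ < c * (b - a) 0) : ρ ≤ c * U b := by
  have hm : ∀ s ∈ Icc (0 : ℝ) 1, a + s • (b - a) ∈ ball (0 : E (Fin (m + 1))) (2 * R) :=
    fun s hs => (convex_ball _ _).add_smul_sub_mem ha hb hs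
  have := climb (g := fun s => c * U (a + s • (b - a)))
    (g' := fun s => c * fderiv ℝ U (a + s • (b - a)) (b - a)) (μ := ρ)
    (fun s hs => by
      have h4 : HasDerivAt (fun s : ℝ => a + s • (b - a)) (b - a) s := by
        simpa using ((hasDerivAt_id s).smul_const (b - a)).const_add a
      exact ((hU _ (hm s hs)).hasFDerivAt.comp_hasDerivAt s h4).const_mul c)
    (by simp [hUa]) hρ fun s hs h => by
      rw [abs_mul, h1, one_mul] at h
      have h5 : tail0 (c • (b - a)) = c • tail0 (b - a) := by ext i; simp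
      have := hc _ (hm s hs) (h.trans_lt hδ) (c • (b - a))
        (by rw [h5, norm_smul, Real.norm_eq_abs, h1, one_mul]; exact h2)
      rw [map_smul] at this
      exact h3.trans_le this
  simpa using this

/-- `(U, y')` are coordinates -/
theorem exists_graph_chart {U : E (Fin (m + 1)) → ℝ} {R δ ρ : ℝ} (hρ : 0 < ρ) (hR : 8 * ρ ≤ R)
    (hδ : ρ < δ) (hU : ContDiffOn ℝ ∞ U (ball 0 (2 * R))) (hc : Cone U R δ)
    {a : E (Fin (m + 1))} (ha : ‖a‖ ≤ ρ) (hUa : U a = 0) :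
    ∃ g : OpenPartialHomeomorph (E (Fin (m + 1))) (E (Fin (m + 1))),
      g.source = {y | |y 0| < R ∧ ‖tail0 y‖ < ρ ∧ ‖cons0 (U y) (tail0 y)‖ < ρ} ∧
      g.target = ball 0 ρ ∧ (∀ y, g y = cons0 (U y) (tail0 y)) ∧
      ContDiffOn ℝ ∞ g g.source ∧ ContDiffOn ℝ ∞ g.symm (ball 0 ρ) ∧
      ∀ z ∈ ball (0 : E (Fin (m + 1))) ρ, |g.symm z 0| ≤ R / 2 := by
  have hR0 : 0 < R := by linarith
  set Φ : E (Fin (m + 1)) → E (Fin (m + 1)) := fun y => cons0 (U y) (tail0 y) with hΦ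
  set S : Set (E (Fin (m + 1))) := {y | |y 0| < R ∧ ‖tail0 y‖ < ρ ∧ ‖Φ y‖ < ρ} with hSd
  have hin : ∀ (s : ℝ) (z : E (Fin m)), |s| < R → ‖z‖ < ρ → cons0 s z ∈
      ball (0 : E (Fin (m + 1))) (2 * R) := fun s z hs hz => by
    rw [mem_ball_zero_iff]
    linarith [norm_cons0_le s z]
  have hin' : ∀ y : E (Fin (m + 1)), |y 0| < R → ‖tail0 y‖ < ρ →
      y ∈ ball (0 : E (Fin (m + 1))) (2 * R) := fun y h1 h2 => by
    simpa only [cons0_tail0] using hin _ _ h1 h2
  have hΦs : ContDiffOn ℝ ∞ Φ (ball 0 (2 * R)) :=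
    contDiff_cons0.comp_contDiffOn (hU.prodMk contDiff_tail0.contDiffOn)
  have hsub : S ⊆ ball 0 (2 * R) := fun y hy => hin' y hy.1 hy.2.1
  have hUS : ∀ y ∈ S, |U y| < δ := fun y hy =>
    ((abs_zero_le (Φ y)).trans_lt hy.2.2).trans hδ
  have hdU : ∀ y ∈ ball (0 : E (Fin (m + 1))) (2 * R), DifferentiableAt ℝ U y := fun y hy =>
    (hU.contDiffAt (isOpen_ball.mem_nhds hy)).differentiableAt (by simp)
  have hA : IsOpen {y : E (Fin (m + 1)) | |y 0| < R ∧ ‖tail0 y‖ < ρ} :=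
    IsOpen.and (isOpen_lt (by fun_prop) continuous_const)
      (isOpen_lt contDiff_tail0.continuous.norm continuous_const)
  have hS : IsOpen S := by
    have := (hΦs.continuousOn.mono fun y hy => hin' y hy.1 hy.2).isOpen_inter_preimage hA
      (isOpen_ball (x := 0) (ε := ρ))
    have e : S = {y : E (Fin (m + 1)) | |y 0| < R ∧ ‖tail0 y‖ < ρ} ∩ Φ ⁻¹' ball 0 ρ := by
      ext y
      simp [hSd, and_assoc]
    rwa [e]
  have hsurj : ∀ z ∈ ball (0 : E (Fin (m + 1))) ρ, ∃ y ∈ S, Φ y = z ∧ |y 0| ≤ R / 2 := by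
    intro z hz
    rw [mem_ball_zero_iff] at hz
    have hz' : ‖tail0 z‖ < ρ := (norm_tail0_le z).trans_lt hz
    have hz0 := abs_lt.1 ((abs_zero_le z).trans_lt hz)
    have ha0 := abs_le.1 ((abs_zero_le a).trans ha)
    have haB : a ∈ ball (0 : E (Fin (m + 1))) (2 * R) := by
      rw [mem_ball_zero_iff]; linarith
    have ht : ∀ s : ℝ, ‖tail0 (cons0 s (tail0 z) - a)‖ ≤ 2 * ρ := fun s => by
      have : tail0 (cons0 s (tail0 z) - a) = tail0 z - tail0 a := by ext i; simp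
      rw [this]
      linarith [norm_sub_le (tail0 z) (tail0 a), norm_tail0_le a]
    have u1 := seg hρ.le hδ hdU hc haB (hin (R / 2) _ (by rw [abs_of_pos] <;> linarith) hz') hUa
      (c := 1) (by simp) ((ht _).trans (by simp; linarith)) (by simp; linarith)
    have u2 := seg hρ.le hδ hdU hc haB (hin (-(R / 2)) _ (by rw [abs_neg, abs_of_pos] <;> linarith)
      hz') hUa (c := -1) (by simp) ((ht _).trans (by simp; linarith)) (by simp; linarith)
    have hI : ∀ s ∈ Icc (-(R / 2)) (R / 2), |s| < R := fun s hs =>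
      abs_lt.2 ⟨by linarith [hs.1], by linarith [hs.2]⟩
    have hco : ContinuousOn (fun s => U (cons0 s (tail0 z))) (Icc (-(R / 2)) (R / 2)) :=
      fun s hs => ((hdU _ (hin s _ (hI s hs) hz')).hasFDerivAt.comp_hasDerivAt s
        (hasDerivAt_cons0 _ s)).continuousAt.continuousWithinAt
    obtain ⟨s, hs, hsz⟩ := intermediate_value_Icc (by linarith) hco
      (show z 0 ∈ Icc _ _ from ⟨by linarith, by linarith⟩)
    have he : Φ (cons0 s (tail0 z)) = z := by
      simp only [hΦ, tail0_cons0]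
      rw [show U (cons0 s (tail0 z)) = z 0 from hsz, cons0_tail0]
    exact ⟨cons0 s (tail0 z), ⟨hI s hs, hz', by rwa [he]⟩, he, abs_le.2 hs⟩
  have hinj : ∀ y ∈ S, ∀ y' ∈ S, Φ y = Φ y' → y 0 ≤ y' 0 → y = y' := by
    intro y hy y' hy' e hle
    have e1 : tail0 y = tail0 y' := (congrArg tail0 e :)
    have e2 : U y = U y' := congrArg (fun v : E (Fin (m + 1)) => v 0) e
    have hI : ∀ s ∈ Icc (y 0) (y' 0), cons0 s (tail0 y) ∈ ball (0 : E (Fin (m + 1))) (2 * R) :=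
      fun s hs => hin s _ (abs_lt.2 ⟨(abs_lt.1 hy.1).1.trans_le hs.1,
        hs.2.trans_lt (abs_lt.1 hy'.1).2⟩) hy.2.1
    have e3 : y 0 = y' 0 := one_zero (g := fun s => U (cons0 s (tail0 y)) - U y)
      (g' := fun s => fderiv ℝ U (cons0 s (tail0 y)) (cons0 1 0))
      (fun s hs => ((hdU _ (hI s hs)).hasFDerivAt.comp_hasDerivAt s
        (hasDerivAt_cons0 _ s)).sub_const _)
      (fun s hs h0 => zero_lt_one.trans_le (hc _ (hI s hs)
        (by rw [sub_eq_zero.1 h0]; exact hUS y hy) (cons0 1 0) (by simp)))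
      (by simp only [cons0_tail0, sub_self]) (by simp only [e1, cons0_tail0, e2, sub_self]) hle
    rw [← cons0_tail0 y, ← cons0_tail0 y', e1, e3]
  have hb : BijOn Φ S (ball 0 ρ) :=
    ⟨fun y hy => mem_ball_zero_iff.2 hy.2.2, fun y hy y' hy' e => (le_total (y 0) (y' 0)).elim
      (hinj y hy y' hy' e) fun h => (hinj y' hy' y hy e.symm h).symm,
      fun z hz => let ⟨y, hy, e, _⟩ := hsurj z hz; ⟨y, hy, e⟩⟩
  have hd : ∀ y ∈ S, Injective (fderiv ℝ Φ y) := by
    intro y hy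
    have h1 : HasFDerivAt Φ (fderiv ℝ Φ y) y :=
      ((hΦs.contDiffAt (isOpen_ball.mem_nhds (hsub hy))).differentiableAt (by simp)).hasFDerivAt
    have h2 : fderiv ℝ U y = EuclideanSpace.proj 0 ∘L fderiv ℝ Φ y :=
      ((EuclideanSpace.proj (𝕜 := ℝ) (0 : Fin (m + 1))).hasFDerivAt.comp y h1).fderiv
    have h3 : ∀ i : Fin m, EuclideanSpace.proj i.succ =
        EuclideanSpace.proj i.succ ∘L fderiv ℝ Φ y := fun i =>
      (EuclideanSpace.proj (𝕜 := ℝ) i.succ).hasFDerivAt.unique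
        ((EuclideanSpace.proj (𝕜 := ℝ) i.succ).hasFDerivAt.comp y h1 :)
    refine (injective_iff_map_eq_zero _).2 fun η hη => ?_
    have h4 : tail0 η = 0 := by
      ext i
      simpa [hη] using congrArg (fun T : E (Fin (m + 1)) →L[ℝ] ℝ => T η) (h3 i)
    have h5 : fderiv ℝ U y η = 0 := by simp [h2, hη]
    have h6 : η 0 = 0 := by
      rcases le_total 0 (η 0) with h | h
      · exact le_antisymm (h5 ▸ hc y (hsub hy) (hUS y hy) η (by simpa [h4] using h)) h
      · have h7 : tail0 (-η) = 0 := by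
          ext i
          simpa using congrArg (fun v : E (Fin m) => v i) h4
        have := hc y (hsub hy) (hUS y hy) (-η) (by simpa [h7] using h)
        simp only [map_neg, h5, neg_zero, PiLp.neg_apply] at this
        linarith
    rw [← cons0_tail0 η, h6, h4]
    ext i
    refine Fin.cases rfl (fun _ => rfl) i
  obtain ⟨g, g1, g2, g3, g4⟩ := exists_oph hS isOpen_ball hb (hΦs.mono hsub) hd
  refine ⟨g, g1, g2, g3, ?_, g4, fun z hz => ?_⟩
  · rw [g1, show (g : _ → _) = Φ from funext g3]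
    exact hΦs.mono hsub
  · obtain ⟨y, hy, e, h⟩ := hsurj z hz
    rwa [← e, ← g3, g.left_inv (g1 ▸ hy)]

/-- the chart that straightens the graph of `σ` -/
theorem exists_flatten {σ : E (Fin m) → ℝ} {ρ : ℝ} (hσ : ContDiffOn ℝ ∞ σ (ball 0 ρ)) :
    ∃ g : OpenPartialHomeomorph (E (Fin (m + 1))) (E (Fin (m + 1))),
      g.source = {y | ‖tail0 y‖ < ρ} ∧ g.target = {y | ‖tail0 y‖ < ρ} ∧
      (∀ y, g y = cons0 (y 0 - σ (tail0 y)) (tail0 y)) ∧
      (∀ y, g.symm y = cons0 (y 0 + σ (tail0 y)) (tail0 y)) ∧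
      ContDiffOn ℝ ∞ g g.source ∧ ContDiffOn ℝ ∞ g.symm g.target := by
  have hO : IsOpen {y : E (Fin (m + 1)) | ‖tail0 y‖ < ρ} :=
    isOpen_lt contDiff_tail0.continuous.norm continuous_const
  have h0 : ContDiff ℝ ∞ fun y : E (Fin (m + 1)) => y 0 := contDiff_euclidean.1 contDiff_id 0
  have h1 : ContDiffOn ℝ ∞ (fun y : E (Fin (m + 1)) => σ (tail0 y)) {y | ‖tail0 y‖ < ρ} :=
    hσ.comp contDiff_tail0.contDiffOn fun y hy => mem_ball_zero_iff.2 hy
  have h2 : ContDiffOn ℝ ∞ (fun y : E (Fin (m + 1)) => cons0 (y 0 - σ (tail0 y)) (tail0 y))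
      {y | ‖tail0 y‖ < ρ} :=
    contDiff_cons0.comp_contDiffOn ((h0.contDiffOn.sub h1).prodMk contDiff_tail0.contDiffOn)
  have h3 : ContDiffOn ℝ ∞ (fun y : E (Fin (m + 1)) => cons0 (y 0 + σ (tail0 y)) (tail0 y))
      {y | ‖tail0 y‖ < ρ} :=
    contDiff_cons0.comp_contDiffOn ((h0.contDiffOn.add h1).prodMk contDiff_tail0.contDiffOn)
  exact ⟨{ toFun := fun y => cons0 (y 0 - σ (tail0 y)) (tail0 y)
           invFun := fun y => cons0 (y 0 + σ (tail0 y)) (tail0 y)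
           source := {y | ‖tail0 y‖ < ρ}
           target := {y | ‖tail0 y‖ < ρ}
           map_source' := fun _ h => h
           map_target' := fun _ h => h
           left_inv' := fun y _ => by simp [cons0_tail0]
           right_inv' := fun y _ => by simp [cons0_tail0]
           open_source := hO
           open_target := hO
           continuousOn_toFun := h2.continuousOn
           continuousOn_invFun := h3.continuousOn }, rfl, rfl, fun _ => rfl, fun _ => rfl, h2, h3⟩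

/-- smooth limits along an ultrafilter: all jets converge -/
theorem jets_lim {F : Type} [NormedAddCommGroup F] [NormedSpace ℝ F] [FiniteDimensional ℝ F]
    (𝒰 : Ultrafilter ℕ) (w : ℕ → E (Fin n) → F) (v : E (Fin n) → F) (z0 : E (Fin n)) (r : ℝ)
    (hw : ∀ᶠ j in (𝒰 : Filter ℕ), ContDiffOn ℝ ∞ (w j) (ball z0 r))
    (hb : ∀ k : ℕ, ∃ C : ℝ, ∀ᶠ j in (𝒰 : Filter ℕ), ∀ z ∈ ball z0 r,
      ‖iteratedFDeriv ℝ k (w j) z‖ ≤ C)
    (hv : ∀ z ∈ ball z0 r, Tendsto (fun j => w j z) 𝒰 (𝓝 (v z))) (k : ℕ) :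
    TendstoUniformlyOn (fun j => iteratedFDeriv ℝ k (w j)) (iteratedFDeriv ℝ k v) 𝒰
      (ball z0 r) := by
  choose C hC using hb
  have : ∀ j, FiniteDimensional ℝ (E (Fin n) [×j]→L[ℝ] F) := fun j => UL.finite_cml j F
  have : ∀ j, ProperSpace (E (Fin n) [×j]→L[ℝ] F) := fun j => FiniteDimensional.proper_real _
  have hd : ∀ k, ∀ᶠ j in (𝒰 : Filter ℕ), ∀ z ∈ ball z0 r,
      DifferentiableAt ℝ (iteratedFDeriv ℝ k (w j)) z := fun k => hw.mono fun j hj z hz =>
    ((hj.contDiffAt (isOpen_ball.mem_nhds hz)).iteratedFDeriv_right (m := 1)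
      (by exact_mod_cast le_top)).differentiableAt one_ne_zero
  have h1 : ∀ k, ∃ G : E (Fin n) → E (Fin n) [×k]→L[ℝ] F,
      TendstoUniformlyOn (fun j => iteratedFDeriv ℝ k (w j)) G 𝒰 (ball z0 r) := fun k =>
    UL.lip_lim 𝒰 _ z0 r (C k) (C (k + 1)) (hC k) (by
      filter_upwards [hd k, hC (k + 1)] with j hj hj' z hz y hy
      refine (convex_ball z0 r).norm_image_sub_le_of_norm_fderiv_le hj (fun x hx => ?_) hz hy
      rw [norm_fderiv_iteratedFDeriv]; exact hj' x hx)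
  choose G hG using h1
  have hder : ∀ m, ∀ x ∈ ball z0 r, HasFDerivAt (G m) (G (m + 1) x).curryLeft x := fun m =>
    UL.der_lim 𝒰 (g := fun j => iteratedFDeriv ℝ m (w j)) (G' := fun x => (G (m + 1) x).curryLeft)
      (hd m) (hG m) ((continuousMultilinearCurryLeftEquiv ℝ (fun _ : Fin (m + 1) => E (Fin n))
        F).isometry.uniformContinuous.comp_tendstoUniformlyOn (hG (m + 1)))
  have h0 : TendstoUniformlyOn w (fun x => (G 0 x).curry0) 𝒰 (ball z0 r) :=
    (continuousMultilinearCurryFin0 ℝ (E (Fin n))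
      F).isometry.uniformContinuous.comp_tendstoUniformlyOn (hG 0)
  have hT : HasFTaylorSeriesUpToOn ∞ v (fun x j => G j x) (ball z0 r) :=
    ⟨fun x hx => tendsto_nhds_unique (h0.tendsto_at hx) (hv x hx),
      fun m _ x hx => (hder m x hx).hasFDerivWithinAt,
      fun m _ x hx => (hder m x hx).continuousAt.continuousWithinAt⟩
  refine (hG k).congr_right fun x hx => ?_
  rw [← iteratedFDerivWithin_of_isOpen k isOpen_ball hx]
  exact hT.eq_iteratedFDerivWithin_of_uniqueDiffOn (by exact_mod_cast le_top)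
    isOpen_ball.uniqueDiffOn hx

/-- composition of a fixed smooth map with a family that is bounded in every `C^k` -/
theorem comp_bound {F G : Type} [NormedAddCommGroup F] [NormedSpace ℝ F] [FiniteDimensional ℝ F]
    [NormedAddCommGroup G] [NormedSpace ℝ G] {φ : F → G} {O K : Set F} (hO : IsOpen O)
    (hK : IsCompact K) (hKO : K ⊆ O) (hφ : ContDiffOn ℝ ∞ φ O) (l : Filter ℕ)
    (w : ℕ → E (Fin n) → F) (z0 : E (Fin n)) (r : ℝ)
    (hw : ∀ᶠ j in l, ContDiffOn ℝ ∞ (w j) (ball z0 r) ∧ MapsTo (w j) (ball z0 r) K)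
    (hb : ∀ k : ℕ, ∃ C : ℝ, ∀ᶠ j in l, ∀ z ∈ ball z0 r, ‖iteratedFDeriv ℝ k (w j) z‖ ≤ C)
    (k : ℕ) : ∃ C : ℝ, ∀ᶠ j in l, ∀ z ∈ ball z0 r, ‖iteratedFDeriv ℝ k (φ ∘ w j) z‖ ≤ C := by
  choose B hB using hb
  have h1 : ∀ i : ℕ, ∃ C : ℝ, ∀ y ∈ K, ‖iteratedFDerivWithin ℝ i φ O y‖ ≤ C := fun i =>
    hK.exists_bound_of_continuousOn ((hφ.continuousOn_iteratedFDerivWithin
      (by exact_mod_cast le_top) hO.uniqueDiffOn).mono hKO)
  choose C hC using h1
  have hs : ∀ (A : ℕ → ℝ) (i : ℕ), i ≤ k → A i ≤ ∑ i ∈ Finset.range (k + 1), |A i| :=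
    fun A i hi => (le_abs_self _).trans (Finset.single_le_sum (f := fun i => |A i|)
      (fun _ _ => abs_nonneg _) (Finset.mem_range.2 (Nat.lt_succ_of_le hi)))
  refine ⟨k.factorial * (∑ i ∈ Finset.range (k + 1), |C i|) *
    (1 + ∑ i ∈ Finset.range (k + 1), |B i|) ^ k, ?_⟩
  filter_upwards [hw, (eventually_all_finset (Finset.range (k + 1))).2 fun i _ => hB i]
    with j hj hj' z hz
  rw [← iteratedFDerivWithin_of_isOpen k isOpen_ball hz]
  refine norm_iteratedFDerivWithin_comp_le hφ hj.1 (by exact_mod_cast le_top) hO.uniqueDiffOn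
    isOpen_ball.uniqueDiffOn (fun x hx => hKO (hj.2 hx)) hz
    (fun i hi => (hC i _ (hj.2 hz)).trans (hs C i hi)) fun i h1 hi => ?_
  rw [iteratedFDerivWithin_of_isOpen i isOpen_ball hz]
  have h2 : 0 ≤ ∑ i ∈ Finset.range (k + 1), |B i| := Finset.sum_nonneg fun _ _ => abs_nonneg _
  refine (hj' i (Finset.mem_range.2 (Nat.lt_succ_of_le hi)) z hz).trans ((hs B i hi).trans ?_)
  exact (le_add_of_nonneg_left zero_le_one).trans (le_self_pow₀ (by linarith) (by omega))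

end Crest.Agent.N222.Bx

end
end

-- ▼ part N222/B/Box1
section

/-!
# Row 222, part B, local graphs: the cone condition at a regular point (helper10)
-/

set_option autoImplicit false
set_option linter.unusedSectionVars false
open MeasureTheory Set Filter Topology Function Metric
open scoped ContDiff InnerProductSpace RealInnerProductSpace

noncomputable section

namespace Crest.Agent.N222.Bx

variable {m d : ℕ} {ι : Type} [Fintype ι] [DecidableEq ι] {X : Type} [TopologicalSpace X]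
  [T2Space X] [SecondCountableTopology X] [MeasurableSpace X] [BorelSpace X] [CompactSpace X]

theorem down_nuv (M : Imm d ι X) (u : X → ℝ) (q : X) :
    down (M.nuv u q) = -(M.vv u q • M.grad u q) := by
  ext a; rfl

/-- a point of small tilt in every ball -/
theorem exists_small_v (hMon2 : Mon2Stmt) {M : Imm d ι X} (hM : Injective M.x) {u : X → ℝ}
    (hu : M.Sm u) {C : ℝ} (hC : M.Sheet C u) (q : X) {r ε : ℝ} (hr : 0 < r) (hε : 0 < ε)
    (h : M.mu.real {q' | |u q'| ≤ |u q| + r} < ε * (cPhi d * Real.exp (-(C * r)) * r ^ d)) :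
    ∃ q', ‖M.gx u q' - M.gx u q‖ < r ∧ M.vv u q' < ε := by
  by_contra hn
  push Not at hn
  have h1 := EP.gTh_low hMon2 hM hu hC q hr
  have hc : Continuous fun q' => Phi (‖M.gx u q' - M.gx u q‖ ^ 2 / r ^ 2) := by
    have := (Imm.sm_gx hu).continuous
    fun_prop
  have h2 : ε * ∫ q', Phi (‖M.gx u q' - M.gx u q‖ ^ 2 / r ^ 2) ∂M.gmu u ≤
      M.mu.real {q' | |u q'| ≤ |u q| + r} := by
    have hs : MeasurableSet {q' | |u q'| ≤ |u q| + r} :=
      (isClosed_le hu.continuous.abs continuous_const).measurableSet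
    rw [← integral_const_mul, ← integral_indicator_one hs]
    refine (integral_mono (EP.integrable_gmu hu (continuous_const.mul hc))
      (EP.integrable_gmu hu (hu.vv.continuous.mul hc)) fun q' => ?_).trans ?_
    · by_cases hq : ‖M.gx u q' - M.gx u q‖ < r
      · exact mul_le_mul_of_nonneg_right (hn q' hq) (Phi_nonneg _)
      · simp [Phi_eq_zero_of_le hr (not_lt.1 hq)]
    · refine (Imm.integral_vv_mul hu _).trans_le ?_
      refine integral_mono (hc.integrable_of_hasCompactSupport (.of_compactSpace _))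
        ((integrable_const 1).indicator hs) fun q' => ?_
      by_cases hq : ‖M.gx u q' - M.gx u q‖ < r
      · have : q' ∈ {q' | |u q'| ≤ |u q| + r} := by
          have h3 : |u q' - u q| ≤ _ := Imm.abs_u_sub_le (M := M) u q' (M.gx u q)
          have h4 := abs_sub_abs_le_abs_sub (u q') (u q)
          change |u q'| ≤ |u q| + r
          linarith
        rw [indicator_of_mem this]; exact Phi_le_one _
      · simp only [Phi_eq_zero_of_le hr (not_lt.1 hq)]
        exact indicator_nonneg (fun _ _ => zero_le_one) _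
  rw [Imm.gTh, ← mul_div_assoc, le_div_iff₀ (by positivity)] at h1
  have h3 : cPhi d * Real.exp (-(C * r)) * r ^ d ≤
      ∫ q', Phi (‖M.gx u q' - M.gx u q‖ ^ 2 / r ^ 2) ∂M.gmu u := by
    rw [Real.exp_neg, mul_right_comm, ← div_eq_mul_inv, div_le_iff₀' (Real.exp_pos _)]
    exact h1
  nlinarith

/-- a chart whose differential at `p` is an isometry with prescribed first axis -/
theorem exists_chart_dir (M : Imm (m + 1) ι X) (p : X) {ξ : E ι} (hξ : ‖ξ‖ = 1)
    (hp : M.PL p ξ = ξ) : ∃ (e : OpenPartialHomeomorph X (E (Fin (m + 1))))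
      (L : E (Fin (m + 1)) →ₗᵢ[ℝ] E ι), IsChart M.x e ∧ p ∈ e.source ∧ e p = 0 ∧ L (ee 0) = ξ ∧
      fderiv ℝ (M.x ∘ e.symm) 0 = L.toContinuousLinearMap := by
  obtain ⟨e, L, he, hpe, hL, hq, hD⟩ := M.exists_proj_chart p
  obtain ⟨v, rfl⟩ := (hL ξ).1 hp
  have hv : ‖(ee 0 : E (Fin (m + 1)))‖ = ‖v‖ := by simpa using hξ.symm
  let O : E (Fin (m + 1)) ≃ₗᵢ[ℝ] E (Fin (m + 1)) := (ℝ ∙ (ee 0 - v))ᗮ.reflection
  have hO : O (ee 0) = v := Submodule.reflection_sub hv
  have he0 : e p = 0 := by simp [hq]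
  refine ⟨e.trans O.symm.toHomeomorph.toOpenPartialHomeomorph, L.comp O.toLinearIsometry,
    he.trans _ O.symm.contDiff.contDiffOn O.contDiff.contDiffOn, by simpa using hpe, ?_,
    by simp [hO], ?_⟩
  · change O.symm (e p) = 0
    rw [he0, map_zero]
  · change fderiv ℝ ((M.x ∘ e.symm) ∘ O) 0 = _
    have hd : DifferentiableAt ℝ (M.x ∘ e.symm) (O 0) := by
      rw [map_zero, ← he0]
      exact (he.sm.contDiffAt (e.open_target.mem_nhds (e.map_source hpe))).differentiableAt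
        (by simp)
    rw [fderiv_comp _ hd O.differentiableAt, map_zero, hD, O.fderiv]
    rfl

theorem cone_ineq {Xv ξ : E ι} {J : E (Fin (m + 1)) →L[ℝ] E ι} {L : E (Fin (m + 1)) →ₗᵢ[ℝ] E ι}
    (hL : L (ee 0) = ξ) (hX : ‖Xv‖ ≤ 1) (hXξ : ‖Xv - ξ‖ ≤ 1 / 5)
    (hJ : ‖J - L.toContinuousLinearMap‖ ≤ 1 / 5) {η : E (Fin (m + 1))} (hη : ‖tail0 η‖ ≤ η 0) :
    η 0 / 5 ≤ ⟪Xv, J η⟫ := by
  have h0 : 0 ≤ η 0 := (norm_nonneg _).trans hη
  have h1 : ‖η‖ ≤ 2 * η 0 := by
    have := norm_cons0_le (η 0) (tail0 η)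
    rw [cons0_tail0, abs_of_nonneg h0] at this
    linarith
  have h2 : ⟪ξ, L η⟫ = η 0 := by
    rw [← hL, L.inner_map_map]; simp [ee, EuclideanSpace.inner_single_left]
  have h3 : |⟪Xv - ξ, L η⟫| ≤ 1 / 5 * ‖η‖ := by
    refine (abs_real_inner_le_norm _ _).trans ?_
    rw [L.norm_map]; gcongr
  have h4 : |⟪Xv, J η - L η⟫| ≤ 1 * (1 / 5 * ‖η‖) := by
    refine (abs_real_inner_le_norm _ _).trans ?_
    have : ‖J η - L η‖ ≤ 1 / 5 * ‖η‖ :=
      ((J - L.toContinuousLinearMap).le_opNorm η).trans (by gcongr)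
    gcongr
  rw [inner_sub_left, h2] at h3
  rw [inner_sub_right] at h4
  have := (abs_le.1 h3).1
  have := (abs_le.1 h4).1
  linarith

theorem exists_cone (hCyl : CylStmt) (hMon2 : Mon2Stmt) (hSh : SheetStmt) {M : Imm (m + 1) ι X}
    {F h : X → ℝ} {Λ : ℝ} {𝒰 : Ultrafilter ℕ} {u : ℕ → X → ℝ} {τ s : ℕ → ℝ} (hM : Injective M.x)
    (hF : M.Sm F) (hu : M.Seq F h Λ 𝒰 u τ s) {p : X} (hp : p ∈ Sb 𝒰 u) {t : ℝ}
    (hr : M.Reg 𝒰 u p t) :
    ∃ (e : OpenPartialHomeomorph X (E (Fin (m + 1)))) (R δ C : ℝ), IsChart M.x e ∧ p ∈ e.source ∧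
      e p = 0 ∧ 0 < R ∧ 0 < δ ∧ closedBall 0 (2 * R) ⊆ e.target ∧
      ∀ᶠ j in (𝒰 : Filter ℕ), Cone (fun y => u j (e.symm y) - t) R δ ∧
        ∀ y ∈ ball (0 : E (Fin (m + 1))) (2 * R), |u j (e.symm y) - t| < δ →
          M.a2 (u j) (e.symm y) ≤ C := by
  obtain ⟨ρ0, C0, hρ0, hreg⟩ := hr
  obtain ⟨C, -, hC⟩ := hSh _ ι X M F hM hF Λ
  obtain ⟨ρ1, hρ1, hP⟩ := (Imm.mem_nhds_iff_ball hM).1
    (M.sm_PL.continuous.continuousAt (x := p) (ball_mem_nhds (M.PL p) (ε := 1 / 100) (by norm_num)))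
  set r := min ρ0 ρ1 / 2 with hrdef
  have hr0 : 0 < r := by positivity
  have hr1 : 2 * r ≤ ρ0 := by have := min_le_left ρ0 ρ1; linarith
  have hr2 : 2 * r ≤ ρ1 := by have := min_le_right ρ0 ρ1; linarith
  have hN : {q | ‖M.x q - M.x p‖ < r} ∈ 𝓝 p := (Imm.mem_nhds_iff_ball hM).2 ⟨r, hr0, fun _ h => h⟩
  have h1 := (hCyl m ι X M F h Λ 𝒰 u τ s hM hF hu).1 p hp t _ hN
  have hpos : 0 < 1 / 100 * (cPhi (m + 1) * Real.exp (-(C * r)) * r ^ (m + 1)) := by
    have := cPhi_pos (m + 1); positivity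
  have h2 := (hu.thin (|t| + r)).eventually (gt_mem_nhds hpos)
  have h3 : ∀ᶠ j in (𝒰 : Filter ℕ), ∃ q', ‖M.gx (u j) q' - up t (M.x p)‖ < 2 * r ∧
      M.vv (u j) q' < 1 / 100 := by
    filter_upwards [h1, h2] with j ⟨q, hq, hqt⟩ hj
    obtain ⟨q', hq', hv⟩ := exists_small_v hMon2 hM (hu.adm j).sm (hC _ (hu.adm j)) q hr0
      (ε := 1 / 100) (by norm_num) (by rw [hqt]; exact hj)
    refine ⟨q', ?_, hv⟩
    have h4 : ‖M.gx (u j) q - up t (M.x p)‖ < r := by
      rw [Imm.gx, hqt, up_sub, sub_self]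
      exact (norm_up_le _ _).trans_lt (by simpa using hq)
    have := norm_sub_le_norm_sub_add_norm_sub (M.gx (u j) q') (M.gx (u j) q) (up t (M.x p))
    linarith
  obtain ⟨q', hq'⟩ := h3.choice
  obtain ⟨n, -, hn⟩ := (isCompact_closedBall (0 : E (Option ι)) 1).ultrafilter_le_nhds
    (𝒰.map fun j => M.nuv (u j) (q' j)) (by
      rw [Ultrafilter.coe_map, le_principal_iff, mem_map]
      exact Eventually.of_forall fun j => by simp [Imm.norm_nuv (hu.adm j).sm])
  have hn' : ∀ᶠ j in (𝒰 : Filter ℕ), ‖M.nuv (u j) (q' j) - n‖ < 1 / 100 := by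
    simpa only [dist_eq_norm] using Metric.tendsto_nhds.1 hn (1 / 100) (by norm_num)
  -- all normals in the box are close to `n`
  have h5 : ∀ᶠ j in (𝒰 : Filter ℕ), ∀ q, ‖M.gx (u j) q - up t (M.x p)‖ < ρ0 →
      M.a2 (u j) q ≤ C0 ∧ M.vv (u j) q ≤ 2 / 100 ∧
        ‖M.vv (u j) q • M.grad (u j) q + down n‖ ≤ 2 / 100 := by
    filter_upwards [hreg, hq', hn'] with j hj hj1 hj2 q hq
    obtain ⟨a1, a2⟩ := hj q (q' j) hq (hj1.1.trans_le hr1)
    refine ⟨a1, ?_, ?_⟩
    · have : |M.vv (u j) q - M.vv (u j) (q' j)| ≤ _ :=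
        abs_none_le (M.nuv (u j) q - M.nuv (u j) (q' j))
      linarith [(abs_le.1 this).2, hj1.2]
    · have := norm_down_le (M.nuv (u j) q - n)
      rw [down_sub, down_nuv, ← neg_add', norm_neg] at this
      linarith [norm_sub_le_norm_sub_add_norm_sub (M.nuv (u j) q) (M.nuv (u j) (q' j)) n]
  have hX1 : ∀ j q, ‖M.vv (u j) q • M.grad (u j) q‖ ≤ 1 := fun j q => by
    have := norm_down_le (M.nuv (u j) q)
    rwa [down_nuv, norm_neg, Imm.norm_nuv (hu.adm j).sm] at this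
  have hX2 : ∀ j q, 1 - M.vv (u j) q ≤ ‖M.vv (u j) q • M.grad (u j) q‖ := fun j q => by
    have := norm_up_le (M.nuv (u j) q none) (down (M.nuv (u j) q))
    rw [up_down, down_nuv, norm_neg, Imm.norm_nuv (hu.adm j).sm] at this
    have h6 : |M.nuv (u j) q none| = M.vv (u j) q := abs_of_pos (M.vv_pos _ _)
    linarith
  set b := M.PL p (-down n) with hb
  have hb1 : ‖b + down n‖ ≤ 5 / 100 ∧ 93 / 100 ≤ ‖b‖ ∧ ‖b‖ ≤ 103 / 100 := by
    obtain ⟨j, hj1, hj2⟩ := (hq'.and h5).exists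
    obtain ⟨-, a1, a2⟩ := hj2 (q' j) (hj1.1.trans_le hr1)
    set Y := M.vv (u j) (q' j) • M.grad (u j) (q' j) with hY
    have hYt : M.PL (q' j) Y = Y := by rw [hY, map_smul, Imm.PL_grad]
    have a3 : ‖M.PL (q' j) - M.PL p‖ < 1 / 100 := by
      have := hP (q' j) ((Imm.norm_x_sub_le (u j) (q' j) (up t (M.x p))).trans_lt
        (hj1.1.trans_le hr2))
      rwa [mem_preimage, mem_ball, dist_eq_norm] at this
    have a4 : ‖Y - M.PL p Y‖ ≤ 1 / 100 := by
      have := (M.PL (q' j) - M.PL p).le_opNorm Y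
      rw [sub_apply, hYt] at this
      nlinarith [hX1 j (q' j), norm_nonneg Y, norm_nonneg (M.PL (q' j) - M.PL p)]
    have a5 : ‖M.PL p Y - b‖ ≤ 2 / 100 := by
      rw [hb, ← map_sub, sub_neg_eq_add]; exact (M.norm_PL_le p _).trans a2
    have a6 : ‖Y - b‖ ≤ 3 / 100 := by linarith [norm_sub_le_norm_sub_add_norm_sub Y (M.PL p Y) b]
    have a7 := hX1 j (q' j)
    have a8 := hX2 j (q' j)
    have a9 := abs_le.1 ((abs_norm_sub_norm_le Y b).trans a6)
    refine ⟨?_, by linarith [a9.2], by linarith [a9.1]⟩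
    have : b + down n = Y + down n - (Y - b) := by abel
    rw [this]; linarith [norm_sub_le (Y + down n) (Y - b)]
  obtain ⟨hb1, hb2, hb3⟩ := hb1
  have hb0 : 0 < ‖b‖ := by linarith
  have hξ : ‖‖b‖⁻¹ • b‖ = 1 := by rw [norm_smul, norm_inv, norm_norm, inv_mul_cancel₀ hb0.ne']
  have hξb : ‖b - ‖b‖⁻¹ • b‖ ≤ 7 / 100 := by
    have : b - ‖b‖⁻¹ • b = (‖b‖ - 1) • ‖b‖⁻¹ • b := by
      rw [sub_smul, one_smul, smul_smul, mul_inv_cancel₀ hb0.ne', one_smul]
    rw [this, norm_smul, hξ, mul_one, Real.norm_eq_abs, abs_le]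
    constructor <;> linarith
  obtain ⟨e, L, he, hpe, he0, hL, hD⟩ := exists_chart_dir M p hξ (by rw [map_smul, hb, M.PL_PL])
  have ht : e.target ∈ 𝓝 (0 : E (Fin (m + 1))) := he0 ▸ e.open_target.mem_nhds (e.map_source hpe)
  have hc := he.sm.contDiffAt ht
  have hs0 : e.symm 0 = p := by rw [← he0, e.left_inv hpe]
  have hev : ∀ᶠ y in 𝓝 (0 : E (Fin (m + 1))), y ∈ e.target ∧ ‖M.x (e.symm y) - M.x p‖ < ρ0 / 2 ∧
      ‖fderiv ℝ (M.x ∘ e.symm) y - L.toContinuousLinearMap‖ < 1 / 5 := by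
    have b1 := Metric.tendsto_nhds.1 hc.continuousAt (ρ0 / 2) (by positivity)
    have b2 := Metric.tendsto_nhds.1 (hc.fderiv_right (m := 0) (by simp)).continuousAt (1 / 5)
      (by norm_num)
    filter_upwards [ht, b1, b2] with y y1 y2 y3
    rw [dist_eq_norm] at y2 y3
    exact ⟨y1, by simpa [hs0] using y2, by rwa [hD] at y3⟩
  obtain ⟨R, hR, hRs⟩ := nhds_basis_closedBall.eventually_iff.1 hev
  have hR2 : 2 * (R / 2) = R := by ring
  refine ⟨e, R / 2, ρ0 / 2, C0, he, hpe, he0, by positivity, by positivity,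
    fun y hy => (hRs (hR2 ▸ hy)).1, ?_⟩
  filter_upwards [h5] with j hj
  have key : ∀ y ∈ ball (0 : E (Fin (m + 1))) (2 * (R / 2)), |u j (e.symm y) - t| < ρ0 / 2 →
      ‖M.gx (u j) (e.symm y) - up t (M.x p)‖ < ρ0 := fun y hy hyt => by
    have := (hRs (ball_subset_closedBall (hR2 ▸ hy))).2.1
    rw [Imm.gx, up_sub]
    linarith [norm_up_le (u j (e.symm y) - t) (M.x (e.symm y) - M.x p)]
  refine ⟨fun y hy hyt η hη => ?_, fun y hy hyt => (hj _ (key y hy hyt)).1⟩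
  obtain ⟨y1, -, y3⟩ := hRs (ball_subset_closedBall (hR2 ▸ hy))
  obtain ⟨-, a1, a2⟩ := hj _ (key y hy hyt)
  have a3 : ‖M.vv (u j) (e.symm y) • M.grad (u j) (e.symm y) - ‖b‖⁻¹ • b‖ ≤ 1 / 5 := by
    set Y := M.vv (u j) (e.symm y) • M.grad (u j) (e.symm y)
    have : Y - ‖b‖⁻¹ • b = Y + down n - (b + down n) + (b - ‖b‖⁻¹ • b) := by abel
    rw [this]
    linarith [norm_add_le (Y + down n - (b + down n)) (b - ‖b‖⁻¹ • b),
      norm_sub_le (Y + down n) (b + down n)]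
  have a4 := cone_ineq hL (hX1 j _) a3 y3.le hη
  have a5 : fderiv ℝ (fun y => u j (e.symm y) - t) y η =
      ⟪M.grad (u j) (e.symm y), fderiv ℝ (M.x ∘ e.symm) y η⟫ := by
    have := Imm.fderiv_chart (u j) he (e.map_target y1)
    rw [e.right_inv y1] at this
    rw [fderiv_sub_const, ← Imm.td_eq_inner]
    exact congrArg (fun T : _ →L[ℝ] ℝ => T η) this
  rw [a5]
  rw [real_inner_smul_left] at a4
  have a6 := M.vv_pos (u j) (e.symm y)
  have a7 : 0 ≤ η 0 := (norm_nonneg _).trans hη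
  by_contra hlt
  push Not at hlt
  nlinarith

end Crest.Agent.N222.Bx

end
end

-- ▼ part N222/B/Box2
section

/-!
# Row 222, part B, local graphs: jets (helper10)
-/

set_option autoImplicit false
set_option linter.unusedSectionVars false
open Set Filter Topology Function Metric
open scoped ContDiff InnerProductSpace RealInnerProductSpace

noncomputable section

namespace Crest.Agent.N222.Bx

variable {m n : ℕ} {ι : Type} [Fintype ι] [DecidableEq ι]

/-! ### linear algebra -/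

/-- inverse Gram matrix -/
def ginv (J : E (Fin n) →L[ℝ] E ι) : Matrix (Fin n) (Fin n) ℝ :=
  Matrix.gram ℝ fun i => Lam J (ee i)

theorem ginv_apply (J : E (Fin n) →L[ℝ] E ι) (i k : Fin n) :
    ginv J i k = ⟪Lam J (ee i), Lam J (ee k)⟫ := rfl

theorem Lam_inj {J : E (Fin n) →L[ℝ] E ι} (hJ : Injective J) : Injective (Lam J) := by
  refine (injective_iff_map_eq_zero _).2 fun v hv => ?_
  have := adj_Lam_apply hJ v
  rw [← inner_self_eq_zero (𝕜 := ℝ)]
  nth_rw 2 [← this]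
  rw [ContinuousLinearMap.adjoint_inner_right, hv, inner_zero_left]

theorem ginv_posDef {J : E (Fin n) →L[ℝ] E ι} (hJ : Injective J) : (ginv J).PosDef := by
  refine Matrix.posDef_gram_iff_linearIndependent.2 ?_
  have := (EuclideanSpace.basisFun (Fin n) ℝ).toBasis.linearIndependent.map'
    (Lam J).toLinearMap (LinearMap.ker_eq_bot.2 (Lam_inj hJ))
  have h1 : (fun i => Lam J (ee i)) =
      (Lam J).toLinearMap ∘ (EuclideanSpace.basisFun (Fin n) ℝ).toBasis := by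
    funext i; simp [ee]
  exact h1 ▸ this

theorem clm_sum {V : Type} [NormedAddCommGroup V] [NormedSpace ℝ V] (J : E (Fin n) →L[ℝ] V)
    (v : E (Fin n)) : J v = ∑ i, v i • J (ee i) := by
  conv_lhs => rw [eq_sum_ee v]
  simp only [map_sum, map_smul]

theorem adj_apply (J : E (Fin n) →L[ℝ] E ι) (w : E ι) (i : Fin n) :
    ContinuousLinearMap.adjoint J w i = ⟪J (ee i), w⟫ := by
  rw [← ContinuousLinearMap.adjoint_inner_right]
  simp [ee, EuclideanSpace.inner_single_left]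

theorem proj_eq {J : E (Fin n) →L[ℝ] E ι} (hJ : Injective J) (a b : ι) :
    J (ContinuousLinearMap.adjoint (Lam J) (ee a)) b =
      ∑ i, ∑ k, ginv J i k * (J (ee k) a * J (ee i) b) := by
  have h1 : ∀ v, J (ContinuousLinearMap.adjoint (Lam J) (Lam J v)) = Lam J v := fun v =>
    congrArg J (adj_Lam_apply hJ _)
  rw [clm_sum J]
  simp only [WithLp.ofLp_sum, WithLp.ofLp_smul, Finset.sum_apply, Pi.smul_apply, smul_eq_mul]
  refine Finset.sum_congr rfl fun i _ => ?_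
  have h2 : ⟪Lam J (ee i), ee a⟫ = Lam J (ee i) a := by
    simp [ee, EuclideanSpace.inner_single_right]
  rw [adj_apply, h2, ← h1 (ee i), clm_sum J]
  simp only [WithLp.ofLp_sum, WithLp.ofLp_smul, Finset.sum_apply, Pi.smul_apply, smul_eq_mul,
    Finset.sum_mul, adj_apply, ginv_apply]
  exact Finset.sum_congr rfl fun k _ => by rw [real_inner_comm]; ring

theorem abs_form_le (A : ι → ι → ℝ) (v w : E ι) :
    |∑ a, ∑ b, A a b * (v a * w b)| ≤ √(∑ a, ∑ b, A a b * A a b) * (‖v‖ * ‖w‖) := by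
  have h := Finset.sum_mul_sq_le_sq_mul_sq Finset.univ (fun q : ι × ι => A q.1 q.2)
    fun q => v q.1 * w q.2
  simp only [Fintype.sum_prod_type, mul_pow] at h
  rw [← Finset.sum_mul_sum, ← EuclideanSpace.real_norm_sq_eq, ← EuclideanSpace.real_norm_sq_eq] at h
  refine abs_le_of_sq_le_sq' ?_ (by positivity) |> abs_le.2
  rw [mul_pow, Real.sq_sqrt (Finset.sum_nonneg fun _ _ => Finset.sum_nonneg fun _ _ =>
    mul_self_nonneg _), mul_pow]
  simpa only [sq] using h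

theorem inner_cons0 (t t' : ℝ) (y y' : E (Fin m)) :
    ⟪cons0 t y, cons0 t' y'⟫ = t * t' + ⟪y, y'⟫ := by
  simp [PiLp.inner_apply, Fin.sum_univ_succ, mul_comm]

theorem inner_split (y y' : E (Fin (m + 1))) : ⟪y, y'⟫ = y 0 * y' 0 + ⟪tail0 y, tail0 y'⟫ := by
  conv_lhs => rw [← cons0_tail0 y, ← cons0_tail0 y', inner_cons0]

theorem cons0_eq (t : ℝ) (y : E (Fin m)) : cons0 t y = t • ee 0 + cons0 0 y := by
  ext i; refine Fin.cases ?_ (fun k => ?_) i <;> simp [ee]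

theorem tail0_ee : tail0 (ee 0 : E (Fin (m + 1))) = 0 := by ext i; simp [ee]

/-! ### graphs over the coordinates `(height, y')` -/

/-- `z ↦ (w z, z')` -/
def ps (w : E (Fin (m + 1)) → ℝ) (z : E (Fin (m + 1))) : E (Fin (m + 1)) := cons0 (w z) (tail0 z)

/-- its differential -/
def jT (P : E (Fin (m + 1))) : E (Fin (m + 1)) →L[ℝ] E (Fin (m + 1)) :=
  consL m ∘L ((innerSL ℝ P).prod (tailL m))

theorem jT_apply (P v : E (Fin (m + 1))) : jT P v = cons0 ⟪P, v⟫ (tail0 v) := rfl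

theorem contDiff_jT : ContDiff ℝ ∞ (jT (m := m)) :=
  contDiff_clm_apply_iff.2 fun _ =>
    contDiff_cons0.comp ((contDiff_id.inner ℝ contDiff_const).prodMk contDiff_const)

theorem inner_gradient (w : E (Fin n) → ℝ) (z v : E (Fin n)) :
    ⟪gradient w z, v⟫ = fderiv ℝ w z v := InnerProductSpace.toDual_symm_apply

theorem hasFDerivAt_ps {w : E (Fin (m + 1)) → ℝ} {z : E (Fin (m + 1))}
    (hw : DifferentiableAt ℝ w z) : HasFDerivAt (ps w) (jT (gradient w z)) z := by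
  have := (consL m).hasFDerivAt.comp z (hw.hasFDerivAt.prodMk (tailL m).hasFDerivAt)
  refine this.congr_fderiv ?_
  ext1 v
  simp [jT_apply]

theorem contDiffAt_ps {w : E (Fin (m + 1)) → ℝ} {z : E (Fin (m + 1))} {k : WithTop ℕ∞}
    (hw : ContDiffAt ℝ k w z) : ContDiffAt ℝ k (ps w) z :=
  (consL m).contDiff.contDiffAt.comp z (hw.prodMk (tailL m).contDiff.contDiffAt)

theorem fderiv2_comp {V : Type} [NormedAddCommGroup V] [NormedSpace ℝ V]
    {G : E (Fin (m + 1)) → V} {w : E (Fin (m + 1)) → ℝ} {z : E (Fin (m + 1))}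
    (hw : ContDiffAt ℝ 2 w z) (hG : ContDiffAt ℝ 2 G (ps w z)) (a b : E (Fin (m + 1))) :
    fderiv ℝ (fderiv ℝ (G ∘ ps w)) z a b =
      fderiv ℝ (fderiv ℝ G) (ps w z) (jT (gradient w z) a) (jT (gradient w z) b) +
        fderiv ℝ (fderiv ℝ w) z a b • fderiv ℝ G (ps w z) (ee 0) := by
  have hw1 := hw.differentiableAt two_ne_zero
  have hw2 := (hw.fderiv_right (m := 1) le_rfl).differentiableAt one_ne_zero
  have hG2 := (hG.fderiv_right (m := 1) le_rfl).differentiableAt one_ne_zero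
  have hc := ((hG.comp z (contDiffAt_ps hw)).fderiv_right (m := 1) le_rfl).differentiableAt
    one_ne_zero
  have h1 : (fun y => fderiv ℝ (G ∘ ps w) y b) =ᶠ[𝓝 z] fun y =>
      fderiv ℝ G (ps w y) (consL m (fderiv ℝ w y b, tail0 b)) := by
    filter_upwards [hw.eventually (by simp), (contDiffAt_ps hw).continuousAt.eventually
      (hG.eventually (by simp))] with y y1 y2
    rw [((y2.differentiableAt two_ne_zero).hasFDerivAt.comp y
      (hasFDerivAt_ps (y1.differentiableAt two_ne_zero))).fderiv, ← inner_gradient]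
    rfl
  have h2 := (hG2.hasFDerivAt.comp z (hasFDerivAt_ps hw1)).clm_apply
    ((consL m).hasFDerivAt.comp z ((Imm.hasFDerivAt_apply_const hw2 b).prodMk
      (hasFDerivAt_const (tail0 b) z)))
  have h3 := congrArg (fun T : E (Fin (m + 1)) →L[ℝ] V => T a)
    ((Imm.hasFDerivAt_apply_const hc b).unique (h2.congr_of_eventuallyEq h1))
  have h4 : ∀ r : ℝ, cons0 r (0 : E (Fin m)) = r • ee 0 := fun r => by
    ext i; refine Fin.cases ?_ (fun k => ?_) i <;> simp [ee]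
  simp only [ContinuousLinearMap.flip_apply, add_apply,
    ContinuousLinearMap.comp_apply, ContinuousLinearMap.prod_apply, comp_apply, consL_apply,
    zero_apply, h4, map_smul] at h3
  rw [h3, add_comm, jT_apply _ b, inner_gradient]

/-! ### jets -/

/-- points, values, gradients, parameters -/
abbrev Jet (m : ℕ) : Type := E (Fin (m + 1)) × ℝ × E (Fin (m + 1)) × (ℝ × ℝ)

variable (φ : E (Fin (m + 1)) → E ι)

/-- position in the chart of `M` -/
def jy (s : Jet m) : E (Fin (m + 1)) := cons0 s.2.1 (tail0 s.1)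

/-- differential of the parametrisation of the graph -/
def jJ (s : Jet m) : E (Fin (m + 1)) →L[ℝ] E (Option ι) :=
  upL ι ∘L ((EuclideanSpace.proj (0 : Fin (m + 1))).prod (fderiv ℝ φ (jy s) ∘L jT s.2.2.1))

/-- horizontal conormal -/
def jxi (s : Jet m) : E ι := Lam (fderiv ℝ φ (jy s)) (cons0 1 (-tail0 s.2.2.1))

/-- length of the conormal -/
def jN (s : Jet m) : ℝ := √(s.2.2.1 0 ^ 2 + ‖jxi φ s‖ ^ 2)

/-- lower order part of the second fundamental form -/
def jB (s : Jet m) (a b : E (Fin (m + 1))) : ℝ :=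
  ⟪jxi φ s, fderiv ℝ (fderiv ℝ φ) (jy s) (jT s.2.2.1 a) (jT s.2.2.1 b)⟫

/-- right hand side -/
def jc (F h : E (Fin (m + 1)) → ℝ) (t : ℝ) (s : Jet m) : ℝ :=
  -(jN φ s * (s.2.2.2.1 * (t + s.1 0) + s.2.2.2.2 - h (jy s))) +
    fderiv ℝ F (jy s) (ContinuousLinearMap.adjoint (Lam (fderiv ℝ φ (jy s))) (jxi φ s)) -
    ∑ i, ∑ k, ginv (jJ φ s) i k * jB φ s (ee i) (ee k)

/-- bound for the second derivatives -/
def jb (C : ℝ) (s : Jet m) : ℝ := jN φ s * (√C * ‖jJ φ s‖ ^ 2) +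
  ‖jxi φ s‖ * (‖fderiv ℝ (fderiv ℝ φ) (jy s)‖ * ‖jT s.2.2.1‖ ^ 2)

theorem jJ_apply (s : Jet m) (v : E (Fin (m + 1))) :
    jJ φ s v = up (v 0) (fderiv ℝ φ (jy s) (jT s.2.2.1 v)) := rfl

theorem contDiff_jy : ContDiff ℝ ∞ (jy (m := m)) :=
  contDiff_cons0.comp (contDiff_snd.fst.prodMk (contDiff_tail0.comp contDiff_fst))

variable {φ} {s : Jet m}

theorem jJ_inj (h : Injective (fderiv ℝ φ (jy s))) : Injective (jJ φ s) := by
  refine (injective_iff_map_eq_zero _).2 fun v hv => ?_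
  have h1 : v 0 = 0 := congrArg (fun y : E (Option ι) => y none) hv
  have h2 : jT s.2.2.1 v = 0 := (injective_iff_map_eq_zero _).1 h _ (congrArg down hv)
  have h3 : tail0 v = 0 := congrArg tail0 h2
  rw [← cons0_tail0 v, h1, h3]
  ext i; exact Fin.cases rfl (fun _ => rfl) i

theorem jxi_ne (h : Injective (fderiv ℝ φ (jy s))) : jxi φ s ≠ 0 := fun h0 => by
  have := congrArg (fun y : E (Fin (m + 1)) => y 0)
    ((injective_iff_map_eq_zero _).1 (Lam_inj h) _ h0)
  simp at this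

theorem jN_pos (h : Injective (fderiv ℝ φ (jy s))) : 0 < jN φ s :=
  Real.sqrt_pos.2 (by have := norm_pos_iff.2 (jxi_ne h); positivity)

variable (hφ : ContDiffAt ℝ ∞ φ (jy s)) (h : Injective (fderiv ℝ φ (jy s)))
include hφ

theorem cd_D : ContDiffAt ℝ ∞ (fun s => fderiv ℝ φ (jy s)) s :=
  (hφ.fderiv_right (m := ∞) le_rfl).comp s contDiff_jy.contDiffAt

theorem cd_D2 : ContDiffAt ℝ ∞ (fun s => fderiv ℝ (fderiv ℝ φ) (jy s)) s :=
  ((hφ.fderiv_right (m := ∞) le_rfl).fderiv_right (m := ∞) le_rfl).comp s contDiff_jy.contDiffAt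

omit hφ in
theorem cd_T : ContDiffAt ℝ ∞ (fun s : Jet m => jT s.2.2.1) s :=
  (contDiff_jT.comp contDiff_snd.snd.fst).contDiffAt

theorem cd_J : ContDiffAt ℝ ∞ (jJ φ) s := by
  have h1 : jJ φ = fun s => upL ι ∘L ((EuclideanSpace.proj (0 : Fin (m + 1))).prod 0) +
      (upL ι ∘L ContinuousLinearMap.inr ℝ ℝ (E ι)) ∘L (fderiv ℝ φ (jy s) ∘L jT s.2.2.1) := by
    funext s; ext1 v
    ext c; cases c <;> simp [jJ_apply]
  rw [h1]
  exact contDiffAt_const.add (contDiffAt_const.clm_comp ((cd_D hφ).clm_comp cd_T))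

include h

theorem cd_Lam : ContDiffAt ℝ ∞ (fun s => Lam (fderiv ℝ φ (jy s))) s :=
  ContDiffAt.comp (g := Lam) (f := fun s => fderiv ℝ φ (jy s)) s (contDiffAt_Lam h) (cd_D hφ)

theorem cd_xi : ContDiffAt ℝ ∞ (jxi φ) s :=
  (cd_Lam hφ h).clm_apply ((contDiff_cons0_right 1).comp
    (contDiff_tail0.comp contDiff_snd.snd.fst).neg).contDiffAt

theorem cd_N : ContDiffAt ℝ ∞ (jN φ) s := by
  refine ContDiffAt.sqrt (ContDiffAt.add (ContDiffAt.pow ?_ 2) ((cd_xi hφ h).norm_sq ℝ)) ?_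
  · exact ((contDiff_euclidean.1 contDiff_snd.snd.fst) 0).contDiffAt
  · exact (Real.sqrt_pos.1 (jN_pos h)).ne'

theorem cd_a (i k : Fin (m + 1)) : ContDiffAt ℝ ∞ (fun s => ginv (jJ φ s) i k) s := by
  have := (contDiffAt_Lam (jJ_inj h)).comp s (cd_J hφ)
  exact (this.clm_apply contDiffAt_const).inner ℝ (this.clm_apply contDiffAt_const)

theorem cd_B (a b : E (Fin (m + 1))) : ContDiffAt ℝ ∞ (fun s => jB φ s a b) s :=
  (cd_xi hφ h).inner ℝ (((cd_D2 hφ).clm_apply (cd_T.clm_apply contDiffAt_const)).clm_apply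
    (cd_T.clm_apply contDiffAt_const))

theorem cd_c {F g : E (Fin (m + 1)) → ℝ} (hF : ContDiffAt ℝ ∞ F (jy s))
    (hg : ContDiffAt ℝ ∞ g (jy s)) (t : ℝ) : ContDiffAt ℝ ∞ (jc φ F g t) s := by
  refine ContDiffAt.sub (ContDiffAt.add (ContDiffAt.neg ((cd_N hφ h).mul ?_)) ?_) ?_
  · refine ContDiffAt.sub (ContDiffAt.add (ContDiffAt.mul ?_ (contDiffAt_const.add ?_)) ?_)
      (hg.comp s contDiff_jy.contDiffAt)
    · exact contDiff_snd.snd.snd.fst.contDiffAt
    · exact ((contDiff_euclidean.1 contDiff_fst) 0).contDiffAt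
    · exact contDiff_snd.snd.snd.snd.contDiffAt
  · exact ((hF.fderiv_right (m := ∞) le_rfl).comp s contDiff_jy.contDiffAt).clm_apply
      (((contDiff_adjoint (ι := ι) (κ := Fin (m + 1))).contDiffAt.comp s (cd_Lam hφ h)).clm_apply
        (cd_xi hφ h))
  · exact ContDiffAt.sum fun i _ => ContDiffAt.sum fun k _ => (cd_a hφ h i k).mul (cd_B hφ h _ _)

theorem cont_b (C : ℝ) : ContinuousAt (jb φ C) s := by
  have h1 := (cd_N hφ h).continuousAt
  have h2 : ContinuousAt (fun s => ‖jJ φ s‖) s := (cd_J hφ).continuousAt.norm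
  have h3 : ContinuousAt (fun s => ‖jxi φ s‖) s := (cd_xi hφ h).continuousAt.norm
  have h4 : ContinuousAt (fun s => ‖fderiv ℝ (fderiv ℝ φ) (jy s)‖) s :=
    ContinuousAt.norm (E := E (Fin (m + 1)) →L[ℝ] E (Fin (m + 1)) →L[ℝ] E ι)
      (cd_D2 hφ).continuousAt
  have h5 : ContinuousAt (fun s : Jet m => ‖jT s.2.2.1‖) s := (cd_T (s := s)).continuousAt.norm
  exact (h1.fun_mul (continuousAt_const.fun_mul (h2.fun_pow 2))).fun_add
    (h3.fun_mul (h4.fun_mul (h5.fun_pow 2)))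

end Crest.Agent.N222.Bx

end
end

-- ▼ part N222/B/Box3
section

/-!
# Row 222, part B, local graphs: the equation and the estimates (helper10)
-/

set_option autoImplicit false
set_option linter.unusedSectionVars false
open Set Filter Topology Function Metric
open scoped ContDiff InnerProductSpace RealInnerProductSpace

noncomputable section

namespace Crest.Agent.N222.Bx

variable {m : ℕ} {ι : Type} [Fintype ι] [DecidableEq ι] {X : Type} [TopologicalSpace X]
  [MeasurableSpace X]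

/-- `c` is the chart `(u - t, y')`, and `w` is the coordinate `y₀` as a function of it -/
structure GC (M : Imm (m + 1) ι X) (u : X → ℝ) (e c : OpenPartialHomeomorph X (E (Fin (m + 1))))
    (w : E (Fin (m + 1)) → ℝ) (t ρ : ℝ) : Prop where
  hu : M.Sm u
  he : IsChart M.x e
  hc : IsChart M.x c
  tg : c.target = ball 0 ρ
  sm : ContDiffOn ℝ ∞ w (ball 0 ρ)
  mem : ∀ z ∈ ball 0 ρ, ps w z ∈ e.target
  eq : ∀ z ∈ ball 0 ρ, c.symm z = e.symm (ps w z)
  ht : ∀ z ∈ ball 0 ρ, u (c.symm z) = t + z 0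
  cone : ∀ z ∈ ball 0 ρ, ∀ η : E (Fin (m + 1)), ‖tail0 η‖ ≤ η 0 →
    η 0 ≤ fderiv ℝ (u ∘ e.symm) (ps w z) η

namespace GC

variable {M : Imm (m + 1) ι X} {u : X → ℝ} {e c : OpenPartialHomeomorph X (E (Fin (m + 1)))}
  {w : E (Fin (m + 1)) → ℝ} {t ρ : ℝ} (H : GC M u e c w t ρ) {z : E (Fin (m + 1))}
  (hz : z ∈ ball (0 : E (Fin (m + 1))) ρ)
include H hz

theorem wAt : ContDiffAt ℝ ∞ w z := H.sm.contDiffAt (isOpen_ball.mem_nhds hz)

theorem fAt {V : Type} [NormedAddCommGroup V] [NormedSpace ℝ V] {f : X → V} (hf : M.Sm f) :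
    ContDiffAt ℝ ∞ (f ∘ e.symm) (ps w z) :=
  (hf.chart H.he).contDiffAt (e.open_target.mem_nhds (H.mem z hz))

theorem ev {V : Type} (f : X → V) : f ∘ c.symm =ᶠ[𝓝 z] (f ∘ e.symm) ∘ ps w := by
  filter_upwards [isOpen_ball.mem_nhds hz] with y hy
  simp only [comp_apply, H.eq y hy]

theorem evu : (u ∘ e.symm) ∘ ps w =ᶠ[𝓝 z] fun y => t + y 0 := by
  filter_upwards [isOpen_ball.mem_nhds hz] with y hy
  simp only [comp_apply, ← H.eq y hy, H.ht y hy]

theorem src : c.symm z ∈ e.source := H.eq z hz ▸ e.map_target (H.mem z hz)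

theorem e_eq : e (c.symm z) = ps w z := by rw [H.eq z hz, e.right_inv (H.mem z hz)]

theorem fd {V : Type} [NormedAddCommGroup V] [NormedSpace ℝ V] {f : X → V} (hf : M.Sm f) :
    fderiv ℝ (f ∘ c.symm) z = fderiv ℝ (f ∘ e.symm) (ps w z) ∘L jT (gradient w z) := by
  rw [(H.ev hz f).fderiv_eq]
  exact (((H.fAt hz hf).differentiableAt (by simp)).hasFDerivAt.comp z
    (hasFDerivAt_ps ((H.wAt hz).differentiableAt (by simp)))).fderiv

theorem k1 (v : E (Fin (m + 1))) : fderiv ℝ (u ∘ e.symm) (ps w z) (jT (gradient w z) v) = v 0 := by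
  have h1 := (((H.fAt hz H.hu).differentiableAt (by simp)).hasFDerivAt.comp z
    (hasFDerivAt_ps ((H.wAt hz).differentiableAt (by simp)))).congr_of_eventuallyEq (H.evu hz).symm
  have h2 := h1.unique ((EuclideanSpace.proj (𝕜 := ℝ) (0 : Fin (m + 1))).hasFDerivAt.const_add t)
  exact congrArg (fun T : E (Fin (m + 1)) →L[ℝ] ℝ => T v) h2

theorem k2 : gradient w z 0 * fderiv ℝ (u ∘ e.symm) (ps w z) (ee 0) = 1 := by
  have := H.k1 hz (ee 0)
  rw [jT_apply, cons0_eq, tail0_ee, map_add, map_smul] at this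
  have h0 : cons0 0 (0 : E (Fin m)) = 0 := by ext i; exact Fin.cases rfl (fun _ => rfl) i
  have h1 : ⟪gradient w z, ee 0⟫ = gradient w z 0 := by
    rw [ee, EuclideanSpace.inner_single_right]; simp
  rwa [h0, map_zero, add_zero, h1] at this

theorem one_le : 1 ≤ fderiv ℝ (u ∘ e.symm) (ps w z) (ee 0) := by
  simpa [ee] using H.cone z hz (ee 0) (by rw [tail0_ee]; simp [ee])

theorem P0_pos : 0 < gradient w z 0 := by
  have := H.k2 hz
  have := H.one_le hz
  by_contra h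
  nlinarith

theorem k3' (a : E (Fin (m + 1))) : gradient w z 0 * fderiv ℝ (u ∘ e.symm) (ps w z) a =
    a 0 - ⟪tail0 (gradient w z), tail0 a⟫ := by
  have h1 := H.k1 hz (cons0 0 (tail0 a))
  rw [jT_apply, inner_split, cons0_eq _ (tail0 _), map_add, map_smul] at h1
  simp only [cons0_zero, tail0_cons0, mul_zero, zero_add, smul_eq_mul] at h1
  have h2 := H.k2 hz
  conv_lhs => rw [← cons0_tail0 a, cons0_eq, map_add, map_smul, smul_eq_mul]
  linear_combination (a 0 - ⟪tail0 (gradient w z), tail0 a⟫) * h2 + gradient w z 0 * h1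

theorem norm_P : ‖gradient w z‖ ≤ 2 := by
  have h0 := H.P0_pos hz
  have h1 : gradient w z 0 ≤ 1 := by nlinarith [H.k2 hz, H.one_le hz]
  have h2 := H.cone z hz (cons0 ‖tail0 (gradient w z)‖ (tail0 (gradient w z))) (by simp)
  have h3 := H.k3' hz (cons0 ‖tail0 (gradient w z)‖ (tail0 (gradient w z)))
  simp only [cons0_zero, tail0_cons0, real_inner_self_eq_norm_sq] at h2 h3
  have h4 : ‖tail0 (gradient w z)‖ ≤ 1 := by
    have h5 := norm_nonneg (tail0 (gradient w z))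
    by_contra h
    nlinarith [mul_le_mul_of_nonneg_left (h5.trans h2) h0.le]
  have := norm_cons0_le (gradient w z 0) (tail0 (gradient w z))
  rw [cons0_tail0, abs_of_pos h0] at this
  linarith

variable (l : ℝ × ℝ)

theorem inj : Injective (fderiv ℝ (M.x ∘ e.symm) (jy (z, w z, gradient w z, l))) :=
  H.he.inj _ (H.mem z hz)

theorem k3 : gradient w z 0 • M.grad u (c.symm z) = jxi (M.x ∘ e.symm) (z, w z, gradient w z, l) := by
  refine ext_inner_right ℝ fun y => ?_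
  rw [real_inner_smul_left, ← Imm.td_eq_inner, Imm.td_chart u H.he (H.src hz), H.e_eq hz,
    ContinuousLinearMap.comp_apply, H.k3' hz, jxi, ← ContinuousLinearMap.adjoint_inner_right,
    inner_split]
  simp only [cons0_zero, tail0_cons0, one_mul, inner_neg_left]
  rfl

theorem k4 : M.vv u (c.symm z) * jN (M.x ∘ e.symm) (z, w z, gradient w z, l) = gradient w z 0 := by
  have h0 := H.P0_pos hz
  have h1 : jN (M.x ∘ e.symm) (z, w z, gradient w z, l) =
      gradient w z 0 * √(1 + M.pre.gam u u (c.symm z)) := by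
    rw [jN, ← H.k3 hz l, norm_smul, Imm.gam_self_eq, Real.norm_eq_abs, mul_pow, sq_abs,
      ← mul_one_add, Real.sqrt_mul (sq_nonneg _), Real.sqrt_sq h0.le]
  have h2 : 0 < √(1 + M.pre.gam u u (c.symm z)) :=
    Real.sqrt_pos.2 (by have := Imm.gam_self_nonneg (M := M) u (c.symm z); positivity)
  rw [h1, Imm.vv]
  field_simp

theorem k5 : fderiv ℝ (M.gx u ∘ c.symm) z = jJ (M.x ∘ e.symm) (z, w z, gradient w z, l) := by
  ext1 v
  have h1 := Imm.fderiv_gx H.hu H.he (H.src hz) (jT (gradient w z) v)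
  have h2 := Imm.fderiv_chart u H.he (H.src hz)
  rw [H.e_eq hz] at h1 h2
  rw [H.fd hz (Imm.sm_gx H.hu), ContinuousLinearMap.comp_apply, h1, ← Imm.td_eq_inner,
    ← ContinuousLinearMap.comp_apply (M.td u _), ← h2, H.k1 hz]
  rfl

theorem csrc : c.symm z ∈ c.source := c.map_target (H.tg ▸ hz)

theorem c_eq : c (c.symm z) = z := c.right_inv (H.tg ▸ hz)

theorem P_eq (a b : Option ι) : (M.gS u).P a b (c.symm z) =
    jJ (M.x ∘ e.symm) (z, w z, gradient w z, l) (ContinuousLinearMap.adjoint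
      (Lam (jJ (M.x ∘ e.symm) (z, w z, gradient w z, l))) (ee a)) b := by
  have := Imm.td_chart (M := M.graph u H.hu) (M.gx u) (Imm.isChart_graph H.hu H.hc) (H.csrc hz)
  rw [H.c_eq hz, Imm.graph_x, H.k5 hz l] at this
  rw [← Imm.graph_pre H.hu, Imm.P_apply, Imm.PL, Imm.graph_x, this]
  rfl

theorem P_J (v : E (Fin (m + 1))) (b : Option ι) :
    ∑ a, (M.gS u).P a b (c.symm z) * jJ (M.x ∘ e.symm) (z, w z, gradient w z, l) v a =
      jJ (M.x ∘ e.symm) (z, w z, gradient w z, l) v b := by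
  have := Imm.PL_chart (M := M.graph u H.hu) (Imm.isChart_graph H.hu H.hc) (H.csrc hz) v
  rw [H.c_eq hz, Imm.graph_x, H.k5 hz l] at this
  conv_rhs => rw [← this, Imm.PL_apply, Imm.graph_pre H.hu]
  exact Finset.sum_congr rfl fun a _ => by
    rw [← Imm.graph_pre H.hu, (M.graph u H.hu).P_symm]

/-- the second fundamental form in the chart -/
theorem k6 (a b : E (Fin (m + 1))) : jN (M.x ∘ e.symm) (z, w z, gradient w z, l) *
    ∑ p, ∑ q, M.A u p q (c.symm z) * (jJ (M.x ∘ e.symm) (z, w z, gradient w z, l) a p *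
      jJ (M.x ∘ e.symm) (z, w z, gradient w z, l) b q) =
    -(fderiv ℝ (fderiv ℝ w) z a b + jB (M.x ∘ e.symm) (z, w z, gradient w z, l) a b) := by
  set J := jJ (M.x ∘ e.symm) (z, w z, gradient w z, l) with hJ
  have h1 : ∑ p, ∑ q, M.A u p q (c.symm z) * (J a p * J b q) = M.vv u (c.symm z) *
      ∑ p, ∑ q, M.pre.hess u p q (c.symm z) * (J a (some p) * J b (some q)) := by
    have hP : ∀ v p, J v (some p) = ∑ q, (M.gS u).P q (some p) (c.symm z) * J v q :=
      fun v p => (H.P_J hz l v (some p)).symm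
    conv_rhs => simp only [hP a, hP b]
    simp only [Imm.A_eq H.hu, Finset.mul_sum, Finset.sum_mul]
    rw [Finset.sum_comm]
    conv_lhs => enter [2, q]; rw [Finset.sum_comm]
    conv_lhs => enter [2, q, 2, c']; rw [Finset.sum_comm]
    rw [Finset.sum_comm]
    conv_lhs => enter [2, c']; rw [Finset.sum_comm]
    refine Finset.sum_congr rfl fun _ _ => Finset.sum_congr rfl fun _ _ =>
      Finset.sum_congr rfl fun _ _ => Finset.sum_congr rfl fun _ _ => by ring
  have h2 := Imm.hess_chart H.hu H.he (H.src hz) (jT (gradient w z) a) (jT (gradient w z) b)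
  have h3 := fderiv2_comp ((H.wAt hz).of_le Imm.two_le_inf)
    ((H.fAt hz H.hu).of_le Imm.two_le_inf) a b
  have h4 : fderiv ℝ (fderiv ℝ ((u ∘ e.symm) ∘ ps w)) z = 0 := by
    rw [(H.evu hz).fderiv.fderiv_eq]
    have : fderiv ℝ (fun y : E (Fin (m + 1)) => t + y 0) =
        fun _ => EuclideanSpace.proj (𝕜 := ℝ) (0 : Fin (m + 1)) := funext fun y =>
      ((EuclideanSpace.proj (𝕜 := ℝ) (0 : Fin (m + 1))).hasFDerivAt.const_add t).fderiv
    rw [this, fderiv_fun_const]; rfl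
  rw [H.e_eq hz, Imm.td_eq_inner] at h2
  rw [h4, h2, smul_eq_mul] at h3
  have h5 : jB (M.x ∘ e.symm) (z, w z, gradient w z, l) a b = gradient w z 0 *
      ⟪M.grad u (c.symm z), fderiv ℝ (fderiv ℝ (M.x ∘ e.symm)) (ps w z) (jT (gradient w z) a)
        (jT (gradient w z) b)⟫ := by
    rw [jB, ← H.k3 hz l, real_inner_smul_left]; rfl
  have h6 : ∑ p, ∑ q, M.pre.hess u p q (c.symm z) * (J a (some p) * J b (some q)) =
      ∑ p, ∑ q, M.pre.hess u p q (c.symm z) *
        (fderiv ℝ (M.x ∘ e.symm) (ps w z) (jT (gradient w z) a) p *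
          fderiv ℝ (M.x ∘ e.symm) (ps w z) (jT (gradient w z) b) q) := rfl
  rw [h1, h5, h6, ← mul_assoc, mul_comm (jN _ _), H.k4 hz l]
  simp only [zero_apply] at h3
  linear_combination -gradient w z 0 * h3 - fderiv ℝ (fderiv ℝ w) z a b * H.k2 hz

theorem k7 : ∑ a, M.A u a a (c.symm z) =
    ∑ i, ∑ k, ginv (jJ (M.x ∘ e.symm) (z, w z, gradient w z, l)) i k *
      ∑ p, ∑ q, M.A u p q (c.symm z) * (jJ (M.x ∘ e.symm) (z, w z, gradient w z, l) (ee i) p *
        jJ (M.x ∘ e.symm) (z, w z, gradient w z, l) (ee k) q) := by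
  have h1 : ∀ a, M.A u a a (c.symm z) = ∑ b, (M.gS u).P a b (c.symm z) * M.A u b a (c.symm z) :=
    fun a => by simpa using (congrFun (Imm.A_tan H.hu a a) (c.symm z)).symm
  rw [Finset.sum_congr rfl fun a _ => h1 a]
  simp only [H.P_eq hz l, proj_eq (jJ_inj (H.inj hz l)), Finset.sum_mul, Finset.mul_sum]
  rw [Finset.sum_comm]
  conv_lhs => enter [2, b]; rw [Finset.sum_comm]
  conv_lhs => enter [2, b, 2, i]; rw [Finset.sum_comm]
  rw [Finset.sum_comm]
  conv_lhs => enter [2, i]; rw [Finset.sum_comm]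
  refine Finset.sum_congr rfl fun _ _ => Finset.sum_congr rfl fun _ _ =>
    Finset.sum_congr rfl fun _ _ => Finset.sum_congr rfl fun _ _ => by ring

/-- the equation -/
theorem eqn {F h : X → ℝ} (hE : ∀ p, M.hF F u p = l.1 * u p + l.2 - h p) :
    ∑ i, ∑ k, ginv (jJ (M.x ∘ e.symm) (z, w z, gradient w z, l)) i k *
      fderiv ℝ (fderiv ℝ w) z (ee i) (ee k) =
    jc (M.x ∘ e.symm) (F ∘ e.symm) (h ∘ e.symm) t (z, w z, gradient w z, l) := by
  have h1 := congrArg (jN (M.x ∘ e.symm) (z, w z, gradient w z, l) * ·) (H.k7 hz l)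
  simp only [Finset.mul_sum (s := (Finset.univ : Finset (Fin (m + 1)))), mul_left_comm (jN _ _),
    H.k6 hz l, mul_neg, mul_add, Finset.sum_neg_distrib, Finset.sum_add_distrib] at h1
  have h2 := hE (c.symm z)
  rw [Imm.hF_apply, ← Imm.tr_A H.hu, H.ht z hz] at h2
  have h3 : jN (M.x ∘ e.symm) (z, w z, gradient w z, l) * M.pre.dir (M.Xf u) F (c.symm z) =
      fderiv ℝ (F ∘ e.symm) (ps w z) (ContinuousLinearMap.adjoint
        (Lam (fderiv ℝ (M.x ∘ e.symm) (ps w z))) (jxi (M.x ∘ e.symm) (z, w z, gradient w z, l))) := by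
    have := Imm.td_down_nuv M u F (c.symm z)
    rw [Imm.down_nuv, map_neg, neg_inj, Imm.td_chart F H.he (H.src hz), H.e_eq hz] at this
    rw [← this, ← H.k3 hz l, ← H.k4 hz l]
    simp only [ContinuousLinearMap.comp_apply, map_smul, smul_eq_mul]
    rw [H.k4 hz l]
    linear_combination (fderiv ℝ (F ∘ e.symm) (ps w z) (ContinuousLinearMap.adjoint
      (Lam (fderiv ℝ (M.x ∘ e.symm) (ps w z))) (M.grad u (c.symm z)))) * H.k4 hz l
  have h4 : h (c.symm z) = (h ∘ e.symm) (jy (z, w z, gradient w z, l)) := congrArg h (H.eq z hz)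
  rw [jc, ← h4]
  change _ = -(_ * (l.1 * (t + z 0) + l.2 - _)) + fderiv ℝ (F ∘ e.symm) (ps w z)
    (ContinuousLinearMap.adjoint (Lam (fderiv ℝ (M.x ∘ e.symm) (ps w z))) _) - _
  rw [← h2, ← h3]
  linear_combination h1

/-- the `C²` bound -/
theorem c2 {C : ℝ} (hC : M.a2 u (c.symm z) ≤ C) :
    ‖fderiv ℝ (fderiv ℝ w) z‖ ≤ jb (M.x ∘ e.symm) C (z, w z, gradient w z, l) := by
  have hN := jN_pos (H.inj hz l)
  refine ContinuousLinearMap.opNorm_le_bound₂ _ (by unfold jb; positivity) fun a b => ?_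
  have h1 := H.k6 hz l a b
  set s : Jet m := (z, w z, gradient w z, l)
  set J := jJ (M.x ∘ e.symm) s
  have h2 := abs_form_le (fun p q => M.A u p q (c.symm z)) (J a) (J b)
  rw [← Imm.a2_apply] at h2
  have h3 : √(M.a2 u (c.symm z)) * (‖J a‖ * ‖J b‖) ≤ √C * (‖J‖ * ‖a‖ * (‖J‖ * ‖b‖)) := by
    gcongr
    exacts [J.le_opNorm a, J.le_opNorm b]
  have h4 : |jB (M.x ∘ e.symm) s a b| ≤ ‖jxi (M.x ∘ e.symm) s‖ *
      (‖fderiv ℝ (fderiv ℝ (M.x ∘ e.symm)) (jy s)‖ * (‖jT s.2.2.1‖ * ‖a‖) * (‖jT s.2.2.1‖ * ‖b‖)) := by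
    refine (abs_real_inner_le_norm _ _).trans ?_
    gcongr
    refine (ContinuousLinearMap.le_opNorm₂ _ _ _).trans ?_
    gcongr
    exacts [(jT _).le_opNorm a, (jT _).le_opNorm b]
  have h5 : fderiv ℝ (fderiv ℝ w) z a b = -(jN (M.x ∘ e.symm) s *
      ∑ p, ∑ q, M.A u p q (c.symm z) * (J a p * J b q)) - jB (M.x ∘ e.symm) s a b := by
    linarith
  rw [h5, Real.norm_eq_abs]
  refine (abs_sub _ _).trans ?_
  rw [abs_neg, abs_mul, abs_of_pos hN, jb]
  have := mul_le_mul_of_nonneg_left (h2.trans h3) hN.le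
  linarith

end GC

end Crest.Agent.N222.Bx

end
end

-- ▼ part N222/B/Box

/-!
# Row 222, part B, local graphs: assembly (helper10)
-/

set_option autoImplicit false
set_option linter.unusedSectionVars false
open MeasureTheory Set Filter Topology Function Metric
open scoped ContDiff InnerProductSpace RealInnerProductSpace

noncomputable section

namespace Crest.Agent.N222

namespace Bx

variable {m : ℕ} {ι : Type} [Fintype ι] [DecidableEq ι] {X : Type} [TopologicalSpace X]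
  [MeasurableSpace X] {M : Imm (m + 1) ι X} {e : OpenPartialHomeomorph X (E (Fin (m + 1)))}

theorem norm_cons0_lt {a R ρ : ℝ} {y : E (Fin m)} (ha : |a| ≤ R) (hy : ‖y‖ ≤ ρ) (h : ρ < R) :
    cons0 a y ∈ ball (0 : E (Fin (m + 1))) (2 * R) := by
  rw [mem_ball_zero_iff]; linarith [norm_cons0_le a y]

theorem norm_cons0_zero (y : E (Fin m)) : ‖cons0 0 y‖ = ‖y‖ := by
  have := norm_sq_cons0 0 y
  rw [zero_pow two_ne_zero, zero_add] at this
  exact (pow_left_inj₀ (norm_nonneg _) (norm_nonneg _) two_ne_zero).1 this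

/-- the charts of one graph -/
theorem exists_gc {u : X → ℝ} (hu : M.Sm u) (he : IsChart M.x e) {R δ ρ t : ℝ} (hρ : 0 < ρ)
    (hR : 8 * ρ ≤ R) (hδ : ρ < δ) (hsub : closedBall 0 (2 * R) ⊆ e.target)
    (hc : Cone (fun y => u (e.symm y) - t) R δ) {q : X} (hq : q ∈ e.source) (hqρ : ‖e q‖ ≤ ρ)
    (hqt : u q = t) : ∃ cw : OpenPartialHomeomorph X (E (Fin (m + 1))) × (E (Fin (m + 1)) → ℝ),
      GC M u e cw.1 cw.2 t ρ ∧ (∀ z ∈ ball 0 ρ, |cw.2 z| ≤ R / 2) ∧
      ∀ q ∈ e.source, |e q 0| < R → ‖cons0 (u q - t) (tail0 (e q))‖ < ρ →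
        q ∈ cw.1.source ∧ cw.1 q = cons0 (u q - t) (tail0 (e q)) ∧ e q 0 = cw.2 (cw.1 q) := by
  have hs : ball 0 (2 * R) ⊆ e.target := ball_subset_closedBall.trans hsub
  obtain ⟨g, hs1, hs2, hg, hsm, hsm', hb⟩ := exists_graph_chart hρ hR hδ
    (((hu.chart he).mono hs).sub contDiffOn_const) hc hqρ (by simp [e.left_inv hq, hqt])
  have h1 : ∀ z ∈ ball (0 : E (Fin (m + 1))) ρ, u (e.symm (g.symm z)) - t = z 0 ∧
      g.symm z = ps (fun z => g.symm z 0) z := fun z hz => by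
    have h := g.right_inv (hs2 ▸ hz)
    rw [hg] at h
    refine ⟨congrArg (fun y : E (Fin (m + 1)) => y 0) h, ?_⟩
    have h' : tail0 (g.symm z) = tail0 z := (tail0_cons0 _ _).symm.trans (congrArg tail0 h)
    rw [ps, ← h', cons0_tail0]
  have h2 : ∀ z ∈ ball (0 : E (Fin (m + 1))) ρ, g.symm z ∈ ball 0 (2 * R) := fun z hz => by
    rw [(h1 z hz).2]
    exact norm_cons0_lt ((hb z hz).trans (by linarith))
      ((norm_tail0_le z).trans (mem_ball_zero_iff.1 hz).le) (by linarith)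
  refine ⟨(e.trans g, fun z => g.symm z 0), ⟨hu, he, he.trans g hsm (hs2 ▸ hsm'), ?_,
    contDiffOn_euclidean.1 hsm' 0, fun z hz => (h1 z hz).2 ▸ hs (h2 z hz),
    fun z hz => congrArg e.symm (h1 z hz).2, fun z hz => ?_, fun z hz η hη => ?_⟩, hb,
    fun q hq h3 h4 => ?_⟩
  · rw [OpenPartialHomeomorph.trans_target, hs2]
    exact inter_eq_left.2 fun z hz => hs (h2 z hz)
  · exact (eq_add_of_sub_eq' (h1 z hz).1)
  · have := hc _ (h2 z hz) (by
      beta_reduce
      rw [(h1 z hz).1]; exact (abs_zero_le z).trans_lt ((mem_ball_zero_iff.1 hz).trans hδ)) η hη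
    rwa [fderiv_sub_const, (h1 z hz).2] at this
  · have h5 : e q ∈ g.source := by
      rw [hs1]
      refine ⟨h3, (norm_tail0_le (cons0 (u q - t) (tail0 (e q)))).trans_lt h4, ?_⟩
      simpa only [comp_apply, e.left_inv hq] using h4
    refine ⟨⟨hq, h5⟩, ?_, ?_⟩
    · change g (e q) = _
      simp only [hg, comp_apply, e.left_inv hq]
    · change _ = g.symm (g (e q)) 0
      rw [g.left_inv h5]

/-- estimates of all orders -/
theorem all_bounds (hQ : QRegStmt) (he : IsChart M.x e) {F h : X → ℝ} (hF : M.Sm F) (hh : M.Sm h)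
    {R ρ t C : ℝ} (hρ : 0 < ρ) (hR : 8 * ρ ≤ R) (hsub : closedBall 0 (2 * R) ⊆ e.target) (k : ℕ) :
    ∃ B : ℝ, ∀ (u : X → ℝ) c w (l : ℝ × ℝ), GC M u e c w t ρ → (∀ z ∈ ball 0 ρ, |w z| ≤ R / 2) →
      ‖l‖ ≤ 1 → (∀ p, M.hF F u p = l.1 * u p + l.2 - h p) →
      (∀ z ∈ ball 0 ρ, M.a2 u (c.symm z) ≤ C) →
      ∀ z ∈ ball (0 : E (Fin (m + 1))) (ρ / 2), ‖iteratedFDeriv ℝ k w z‖ ≤ B := by
  let K : Set (Jet m) := closedBall 0 ρ ×ˢ closedBall 0 (R / 2) ×ˢ closedBall 0 2 ×ˢ closedBall 0 1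
  have hK : IsCompact K := (isCompact_closedBall _ _).prod ((isCompact_closedBall _ _).prod
    ((isCompact_closedBall _ _).prod (isCompact_closedBall _ _)))
  have hKW : K ⊆ jy ⁻¹' e.target := fun s hs => hsub (ball_subset_closedBall (norm_cons0_lt
    ((mem_closedBall_zero_iff.1 hs.2.1).trans (by linarith))
    ((norm_tail0_le _).trans (mem_closedBall_zero_iff.1 hs.1)) (by linarith)))
  have hφ : ∀ s : Jet m, jy s ∈ e.target → ContDiffAt ℝ ∞ (M.x ∘ e.symm) (jy s) := fun s hs =>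
    he.sm.contDiffAt (e.open_target.mem_nhds hs)
  obtain ⟨B, hB⟩ := hK.exists_bound_of_continuousOn (f := jb (M.x ∘ e.symm) C) fun s hs =>
    (cont_b (hφ s (hKW hs)) (he.inj _ (hKW hs)) C).continuousWithinAt
  obtain ⟨B', hB'⟩ := hQ (m + 1) k (ℝ × ℝ) (fun s => ginv (jJ (M.x ∘ e.symm) s))
    (jc (M.x ∘ e.symm) (F ∘ e.symm) (h ∘ e.symm) t) (jy ⁻¹' e.target) K ρ B
    (e.open_target.preimage contDiff_jy.continuous) hK hKW
    (fun i k s hs => (cd_a (hφ s hs) (he.inj _ hs) i k).contDiffWithinAt)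
    (fun s hs => (cd_c (hφ s hs) (he.inj _ hs)
      ((hF.chart he).contDiffAt (e.open_target.mem_nhds hs))
      ((hh.chart he).contDiffAt (e.open_target.mem_nhds hs)) t).contDiffWithinAt)
    (fun s hs => ginv_posDef (jJ_inj (he.inj _ (hKW hs)))) hρ
  refine ⟨B', fun u c w l H hw hl hE ha => hB' 0 w l H.sm fun z hz => ?_⟩
  have hm : (z, w z, gradient w z, l) ∈ K := ⟨ball_subset_closedBall hz,
    mem_closedBall_zero_iff.2 (hw z hz), mem_closedBall_zero_iff.2 (H.norm_P hz),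
    mem_closedBall_zero_iff.2 hl⟩
  exact ⟨hm, (H.c2 hz l (ha z hz)).trans ((le_abs_self _).trans (hB _ hm)), H.eqn hz l hE⟩

theorem ps_bound {r : ℝ} (k : ℕ) : ∃ C : ℝ, ∀ (w : E (Fin (m + 1)) → ℝ) (B : ℝ),
    ContDiffOn ℝ ∞ w (ball 0 r) → ∀ z ∈ ball (0 : E (Fin (m + 1))) r,
      ‖iteratedFDeriv ℝ k w z‖ ≤ B → ‖iteratedFDeriv ℝ k (ps w) z‖ ≤ B + C := by
  have h0 : ContDiff ℝ ∞ fun z : E (Fin (m + 1)) => cons0 0 (tail0 z) :=
    (contDiff_cons0_right 0).comp contDiff_tail0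
  obtain ⟨C, hC⟩ := (isCompact_closedBall (0 : E (Fin (m + 1))) r).exists_bound_of_continuousOn
    (h0.continuous_iteratedFDeriv (m := k) (by exact_mod_cast le_top)).continuousOn
  refine ⟨C, fun w B hw z hz hB => ?_⟩
  have hwz : ContDiffAt ℝ k w z :=
    (hw.contDiffAt (isOpen_ball.mem_nhds hz)).of_le (by exact_mod_cast le_top)
  have h1 : ps w = (fun z => w z • ee 0) + fun z => cons0 0 (tail0 z) := funext fun z =>
    cons0_eq _ _
  rw [h1, iteratedFDeriv_add_apply (f := fun z => w z • ee 0) (hwz.smul contDiffAt_const)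
    (h0.of_le (by exact_mod_cast le_top)).contDiffAt]
  refine (norm_add_le _ _).trans (add_le_add ?_ (hC z (ball_subset_closedBall hz)))
  have h2 := (ContinuousLinearMap.toSpanSingleton ℝ (ee 0 : E (Fin (m + 1)))).iteratedFDeriv_comp_left
    hwz (i := k) le_rfl
  refine (congrArg norm h2).trans_le ((ContinuousLinearMap.norm_compContinuousMultilinearMap_le
    _ _).trans ?_)
  simpa [ee] using hB

end Bx

open Bx in
theorem box (hCyl : CylStmt) (hMon2 : Mon2Stmt) (hSh : SheetStmt) (hQ : QRegStmt) : BoxStmt := by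
  intro m ι _ _ X _ _ _ _ _ _ M F h Λ 𝒰 u τ s hM hF hu p hp t hr
  obtain ⟨e, R, δ, C, he, hpe, he0, hR, hδ, hsub, hev⟩ := exists_cone hCyl hMon2 hSh hM hF hu hp hr
  obtain ⟨hC1, hC2⟩ := hCyl m ι X M F h Λ 𝒰 u τ s hM hF hu
  set ρ := min (R / 8) (δ / 2) with hρdef
  have hρ : 0 < ρ := by positivity
  have hρR : 8 * ρ ≤ R := by have := min_le_left (R / 8) (δ / 2); linarith
  have hρδ : ρ < δ := by have := min_le_right (R / 8) (δ / 2); linarith
  have hnb : ∀ r > 0, {q | q ∈ e.source ∧ ‖e q‖ < r} ∈ 𝓝 p := fun r hr =>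
    inter_mem (e.open_source.mem_nhds hpe)
      ((e.continuousAt hpe).norm.eventually (gt_mem_nhds (by simpa [he0] using hr)))
  have h1 : ∀ᶠ j in (𝒰 : Filter ℕ), ∃ cw : OpenPartialHomeomorph X (E (Fin (m + 1))) ×
      (E (Fin (m + 1)) → ℝ), GC M (u j) e cw.1 cw.2 t ρ ∧ (∀ z ∈ ball 0 ρ, |cw.2 z| ≤ R / 2) ∧
      ∀ q ∈ e.source, |e q 0| < R → ‖cons0 (u j q - t) (tail0 (e q))‖ < ρ →
        q ∈ cw.1.source ∧ cw.1 q = cons0 (u j q - t) (tail0 (e q)) ∧ e q 0 = cw.2 (cw.1 q) := by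
    filter_upwards [hev, hC1 p hp t _ (hnb ρ hρ)] with j hj ⟨q, hq, hqt⟩
    exact exists_gc (hu.adm j).sm he hρ hρR hρδ hsub hj.1 hq.1 hq.2.le hqt
  obtain ⟨cw, hcw⟩ := h1.choice
  have hball : ∀ {a : ℝ} {z : E (Fin (m + 1))}, |a| ≤ R / 2 → z ∈ ball 0 ρ →
      cons0 a (tail0 z) ∈ ball 0 (2 * R) := fun ha hz => norm_cons0_lt (ha.trans (by linarith))
    ((norm_tail0_le _).trans (mem_ball_zero_iff.1 hz).le) (by linarith)
  have hb2 : ball (0 : E (Fin (m + 1))) (ρ / 2) ⊆ ball 0 ρ := ball_subset_ball (by linarith)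
  have hbd : ∀ k : ℕ, ∃ B : ℝ, ∀ᶠ j in (𝒰 : Filter ℕ), ∀ z ∈ ball 0 (ρ / 2),
      ‖iteratedFDeriv ℝ k (cw j).2 z‖ ≤ B := fun k => by
    obtain ⟨B, hB⟩ := all_bounds hQ he hF hu.smh (t := t) (C := C) hρ hρR hsub k
    have hl := (hu.tau.prodMk_nhds hu.sh).norm.eventually (gt_mem_nhds (a := 1) (by simp))
    refine ⟨B, ?_⟩
    filter_upwards [hcw, hev, hl] with j ⟨H, hw, _⟩ hj hl
    refine hB (u j) _ _ (τ j, s j) H hw hl.le (hu.eq j) fun z hz => ?_
    rw [H.eq z hz]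
    refine hj.2 _ (hball (hw z hz) hz) ?_
    rw [← H.eq z hz, H.ht z hz, add_sub_cancel_left]
    exact (abs_zero_le z).trans_lt ((mem_ball_zero_iff.1 hz).trans hρδ)
  obtain ⟨v, hv, hlim⟩ := UL.sm_lim 𝒰 (fun j => (cw j).2) 0 (ρ / 2)
    (hcw.mono fun j hj => hj.1.sm.mono hb2) hbd
  have hvb : ∀ z ∈ ball (0 : E (Fin (m + 1))) (ρ / 2), |v z| ≤ R / 2 := fun z hz =>
    le_of_tendsto (hlim.tendsto_at hz).abs (hcw.mono fun j hj => hj.2.1 z (hb2 hz))
  have hvt : ∀ z ∈ ball (0 : E (Fin (m + 1))) (ρ / 2), ps v z ∈ e.target := fun z hz =>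
    hsub (ball_subset_closedBall (hball (hvb z hz) (hb2 hz)))
  have hconv : ∀ z ∈ ball (0 : E (Fin (m + 1))) (ρ / 2),
      Tendsto (fun j => (cw j).1.symm z) 𝒰 (𝓝 (e.symm (ps v z))) := fun z hz => by
    have h2 : Tendsto (fun j => ps (cw j).2 z) 𝒰 (𝓝 (ps v z)) :=
      (contDiff_cons0.continuous.tendsto (v z, tail0 z)).comp
        ((hlim.tendsto_at hz).prodMk_nhds tendsto_const_nhds)
    exact ((e.continuousAt_symm (hvt z hz)).tendsto.comp h2).congr'
      (hcw.mono fun j hj => (hj.1.eq z (hb2 hz)).symm)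
  have ha : ∀ z ∈ ball (0 : E (Fin (m + 1))) (ρ / 2), e.symm (ps v z) ∈ Sb 𝒰 u := fun z hz => by
    by_contra hn
    obtain ⟨N, hN, hNj⟩ := hC2 _ hn |t + z 0|
    obtain ⟨j, j1, j2, j3⟩ := (hNj.and (hcw.and (hconv z hz hN))).exists
    have := j1 _ j3
    rw [j2.1.ht z (hb2 hz)] at this
    exact lt_irrefl _ this
  have hb : ∀ q ∈ Sb 𝒰 u, q ∈ e.source → |e q 0| < R → ‖tail0 (e q)‖ < ρ / 2 →
      e q 0 = v (cons0 0 (tail0 (e q))) := fun q hq hqe h2 h3 => by
    refine eq_of_forall_dist_le fun ε hε => ?_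
    have c0 : ContinuousAt (fun q => e q 0) q :=
      (EuclideanSpace.proj (𝕜 := ℝ) (0 : Fin (m + 1))).continuous.continuousAt.comp
        (e.continuousAt hqe)
    have c1 : ContinuousAt (fun q => cons0 0 (tail0 (e q))) q :=
      ((contDiff_cons0_right 0).comp contDiff_tail0).continuous.continuousAt.comp
        (e.continuousAt hqe)
    have hmem : cons0 0 (tail0 (e q)) ∈ ball (0 : E (Fin (m + 1))) (ρ / 2) := by
      rwa [mem_ball_zero_iff, norm_cons0_zero]
    have c2 : ContinuousAt (fun q => v (cons0 0 (tail0 (e q)))) q :=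
      ContinuousAt.comp (f := fun q => cons0 0 (tail0 (e q)))
        (hv.continuousOn.continuousAt (isOpen_ball.mem_nhds hmem)) c1
    have hN : ∀ᶠ q' in 𝓝 q, q' ∈ e.source ∧ |e q' 0| < R ∧
        cons0 0 (tail0 (e q')) ∈ ball (0 : E (Fin (m + 1))) (ρ / 2) ∧
        dist (e q' 0) (e q 0) < ε / 3 ∧
        dist (v (cons0 0 (tail0 (e q')))) (v (cons0 0 (tail0 (e q)))) < ε / 3 := by
      filter_upwards [e.open_source.mem_nhds hqe, c0.abs.eventually (gt_mem_nhds h2),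
        c1 (isOpen_ball.mem_nhds hmem), Metric.tendsto_nhds.1 c0 (ε / 3) (by positivity),
        Metric.tendsto_nhds.1 c2 (ε / 3) (by positivity)] with q' a1 a2 a3 a4 a5
      exact ⟨a1, a2, a3, a4, a5⟩
    obtain ⟨j, ⟨q', ⟨a1, a2, a3, a4, a5⟩, a6⟩, j2, j3⟩ := ((hC1 q hq t _ hN).and (hcw.and
      (Metric.tendstoUniformlyOn_iff.1 hlim (ε / 3) (by positivity)))).exists
    obtain ⟨-, b2, b3⟩ := j2.2.2 q' a1 a2 (by
      rw [a6, sub_self]; exact mem_ball_zero_iff.1 (hb2 a3))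
    rw [b2, a6, sub_self] at b3
    have b4 := j3 _ a3
    rw [← b3, dist_comm] at b4
    rw [dist_comm] at a4
    linarith [dist_triangle4 (e q 0) (e q' 0) (v (cons0 0 (tail0 (e q'))))
      (v (cons0 0 (tail0 (e q))))]
  have hc : ∀ z ∈ ball (0 : E (Fin (m + 1))) (ρ / 2), v z = v (cons0 0 (tail0 z)) := fun z hz => by
    have := hb _ (ha z hz) (e.map_target (hvt z hz))
    rw [e.right_inv (hvt z hz)] at this
    exact this ((hvb z hz).trans_lt (by linarith))
      ((norm_tail0_le z).trans_lt (mem_ball_zero_iff.1 hz))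
  obtain ⟨g, g1, g2, g3, g4, g5, g6⟩ := exists_flatten (σ := fun y => v (cons0 0 y)) (ρ := ρ / 2)
    (hv.comp (contDiff_cons0_right 0).contDiffOn fun y hy => by
      rwa [mem_ball_zero_iff, norm_cons0_zero, ← mem_ball_zero_iff])
  have hO : IsOpen {y : E (Fin (m + 1)) | |y 0| < R} := isOpen_lt (by fun_prop) continuous_const
  let e' := e.trans (g.restrOpen _ hO)
  have he' : IsChart M.x e' := he.trans _ (g5.mono inter_subset_left) (g6.mono inter_subset_left)
  have hs' : ∀ q, q ∈ e'.source ↔ q ∈ e.source ∧ ‖tail0 (e q)‖ < ρ / 2 ∧ |e q 0| < R := fun q => by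
    change q ∈ e.source ∧ e q ∈ g.source ∧ _ ↔ _
    rw [g1]; rfl
  have hsl : ∀ q ∈ e'.source, q ∈ Sb 𝒰 u ↔ e' q 0 = 0 := fun q hq => by
    obtain ⟨a1, a2, a3⟩ := (hs' q).1 hq
    change _ ↔ g (e q) 0 = 0
    rw [g3, cons0_zero, sub_eq_zero]
    refine ⟨fun hq => hb q hq a1 a3 a2, fun hq => ?_⟩
    have := ha (cons0 0 (tail0 (e q))) (by rwa [mem_ball_zero_iff, norm_cons0_zero])
    rwa [ps, ← hq, tail0_cons0, cons0_tail0, e.left_inv a1] at this
  have hpe' : p ∈ e'.source := (hs' p).2 ⟨hpe, by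
    rw [he0]; exact (norm_tail0_le _).trans_lt (by simpa using hρ), by simpa [he0] using hR⟩
  have he0' : e' p = 0 := by
    have a1 : tail0 (e' p) = tail0 0 := by
      change tail0 (g (e p)) = _
      rw [g3, tail0_cons0, he0]
    rw [← cons0_tail0 (e' p), (hsl p hpe').1 hp, a1]
    exact cons0_tail0 0
  obtain ⟨r0, hr0, hr1⟩ := nhds_basis_closedBall.mem_iff.1
    (he0' ▸ e'.open_target.mem_nhds (e'.map_source hpe'))
  set r := min r0 (ρ / 2) with hrdef
  have hr : 0 < r := by positivity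
  have hrρ : r ≤ ρ / 2 := min_le_right _ _
  have hb3 : ball (0 : E (Fin (m + 1))) r ⊆ ball 0 (ρ / 2) := ball_subset_ball hrρ
  refine ⟨e', r, fun j => ((cw j).1.symm.restrOpen (ball 0 r) isOpen_ball).symm, he', hpe', he0',
    hr, (closedBall_subset_closedBall (min_le_left _ _)).trans hr1, hsl, ?_,
    ⟨_, hnb (r / 4) (by positivity), r / 4, by positivity, ?_⟩, fun k _ => ?_⟩
  · filter_upwards [hcw] with j ⟨H, _, _⟩
    refine ⟨⟨H.hc.sm.mono inter_subset_left, fun z hz => H.hc.inj z hz.1⟩, ?_,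
      fun z hz => H.ht z (hb2 (hb3 hz))⟩
    change (cw j).1.target ∩ ball 0 r = _
    rw [H.tg]; exact inter_eq_right.2 (hb3.trans hb2)
  · filter_upwards [hcw] with j ⟨_, _, H⟩ q hq hqt
    have a1 : ‖cons0 (u j q - t) (tail0 (e q))‖ < r / 2 := by
      linarith [norm_cons0_le (u j q - t) (tail0 (e q)), norm_tail0_le (e q), hq.2]
    obtain ⟨a2, a3, -⟩ := H q hq.1 (by linarith [abs_zero_le (e q), hq.2]) (by linarith)
    have a4 : ‖(cw j).1 q‖ < r / 2 := a3 ▸ a1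
    exact ⟨⟨a2, mem_ball_zero_iff.2 (by change ‖(cw j).1 q‖ < r; linarith)⟩, a4⟩
  · refine jets_lim 𝒰 (fun j => M.x ∘ (cw j).1.symm) _ 0 r
      (hcw.mono fun j hj => hj.1.hc.sm.mono (hj.1.tg ▸ hb3.trans hb2)) (fun k => ?_)
      (fun z hz => ?_) k
    · obtain ⟨B, hB⟩ := comp_bound e.open_target (isCompact_closedBall _ _) hsub he.sm 𝒰
        (fun j => ps (cw j).2) 0 r (hcw.mono fun j hj => ⟨fun z hz =>
          (contDiffAt_ps (hj.1.wAt (hb2 (hb3 hz)))).contDiffWithinAt, fun z hz =>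
          ball_subset_closedBall (hball (hj.2.1 z (hb2 (hb3 hz))) (hb2 (hb3 hz)))⟩) (fun k => by
          obtain ⟨B, hB⟩ := hbd k
          obtain ⟨C', hC'⟩ := ps_bound (m := m) (r := ρ) k
          refine ⟨B + C', ?_⟩
          filter_upwards [hB, hcw] with j j1 j2 z hz
          exact hC' _ B j2.1.sm z (hb2 (hb3 hz)) (j1 z (hb3 hz))) k
      refine ⟨B, ?_⟩
      filter_upwards [hB, hcw] with j j1 j2 z hz
      rw [((j2.1.ev (hb2 (hb3 hz)) M.x).iteratedFDeriv ℝ k).self_of_nhds]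
      exact j1 z hz
    · have a1 : e'.symm (z - z 0 • ee 0) = e.symm (ps v z) := by
        change e.symm (g.symm _) = _
        have a2 : tail0 (z - z 0 • ee 0) = tail0 z := by ext i; simp [ee]
        have a3 : (z - z 0 • ee 0 : E (Fin (m + 1))) 0 = 0 := by simp [ee]
        rw [g4, a2, a3, zero_add, ← hc z (hb3 hz), ps]
      rw [a1]
      exact (M.continuous_x.tendsto _).comp (hconv z (hb3 hz))

end Crest.Agent.N222

end
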