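import Crest.Agent.N222.B.Defs2
import Crest.Agent.N222.F.Lip
import Crest.Agent.N222.F.Hess

-- ▼ part N222/B/Ess
section

/-! # Row 222, part B: essential maps (E1-E4) -/

set_option autoImplicit false
open Set Filter Topology Function Metric

noncomputable section

namespace Crest.Agent.N222

theorem ess1 : Ess1Stmt := by
  intro X _ k om a a' hom hK ha ha' hs hE b hb hba
  by_contra hne
  push Not at hne
  have hC : IsCompact ((tsupport om ×ˢ Icc (0 : ℝ) 1) ∩
      {q : X × ℝ | ∀ i, b i q.1 + q.2 * (a i q.1 - a' i q.1) = 0}) := by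
    refine (hK.isCompact.prod isCompact_Icc).inter_right ?_
    simp only [ofPred_forall]
    exact isClosed_iInter fun i => isClosed_eq (by fun_prop) continuous_const
  obtain ⟨δ, hδ, hle⟩ := hC.exists_forall_le' (f := fun q => |om q.1|) (a := 0) (by fun_prop) (by
    rintro ⟨p, s⟩ ⟨⟨hp, hs0, hs1⟩, h0⟩
    refine abs_pos.2 fun hz => ?_
    obtain ⟨i, hi⟩ := hs p hp hz (1 - s) ⟨by linarith, by linarith⟩
    have := h0 i
    simp only [hba p hz i] at this
    exact hi (by linarith))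
  obtain ⟨p, hp, h0⟩ := hE (fun i p => b i p + max 0 (1 - |om p| / δ) * (a i p - a' i p))
    (fun i => by fun_prop) (fun p hp i => by simp [hp, hba p hp i])
  have h1 : δ ≤ |om p| := hle (p, max 0 (1 - |om p| / δ))
    ⟨⟨subset_tsupport _ hp, le_max_left _ _, max_le zero_le_one (sub_le_self _ (by positivity))⟩, h0⟩
  have h2 : max 0 (1 - |om p| / δ) = 0 := max_eq_left (sub_nonpos.2 ((one_le_div hδ).2 h1))
  obtain ⟨i, hi⟩ := hne p hp
  exact hi (by simpa [h2] using h0 i)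

theorem Ess.exists_pos {X : Type} [TopologicalSpace X] [T2Space X] [SecondCountableTopology X]
    [CompactSpace X] {U : Set X} (hU : IsOpen U) :
    ∃ f : X → ℝ, Continuous f ∧ (∀ p ∈ U, 0 < f p) ∧ ∀ p, p ∉ U → f p = 0 := by
  let _ := TopologicalSpace.metrizableSpaceMetric X
  rcases eq_empty_or_nonempty Uᶜ with h | h
  · exact ⟨fun _ => 1, continuous_const, fun _ _ => one_pos, fun p hp => (h ▸ hp : p ∈ (∅ : Set X)).elim⟩
  · exact ⟨fun p => infDist p Uᶜ, continuous_infDist_pt _,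
      fun p hp => (hU.isClosed_compl.notMem_iff_infDist_pos h).1 fun h' => h' hp,
      fun p hp => infDist_zero_of_mem hp⟩

theorem ess2 : Ess2Stmt := by
  classical
  intro X _ _ _ _ k om a U U' hom ha hU hU' hd hs hE b hb hba
  have hS : IsClosed (U ∪ U')ᶜ := (hU.union hU').isClosed_compl
  have hZ : IsClosed {p | om p = 0} := isClosed_eq hom continuous_const
  obtain ⟨f, hf, hf1, hf0⟩ := Ess.exists_pos hU
  obtain ⟨f', hf', hf1', hf0'⟩ := Ess.exists_pos hU'
  let G : X → Fin k → ℝ := fun p i => if h : p ∈ (U ∪ U')ᶜ then b i ⟨p, h⟩ else a i.succ p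
  have hG0 : ∀ p, om p = 0 → ∀ i, G p i = a i.succ p := fun p hp i => by
    by_cases h : p ∈ (U ∪ U')ᶜ
    · simp only [G, dif_pos h]; exact hba ⟨p, h⟩ hp i
    · simp only [G, dif_neg h]
  have hG : ContinuousOn G ((U ∪ U')ᶜ ∪ {p | om p = 0}) := by
    refine ContinuousOn.union_of_isClosed ?_ ?_ hS hZ
    · rw [continuousOn_iff_continuous_domRestrict]
      refine (continuous_pi hb).congr fun q => ?_
      funext i
      simp only [G, domRestrict_apply, dif_pos q.2]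
    · exact (continuous_pi fun i => ha (Fin.succ i)).continuousOn.congr fun p hp =>
        funext (hG0 p hp)
  obtain ⟨g, hg⟩ := ContinuousMap.exists_restrict_eq (hS.union hZ)
    ⟨_, continuousOn_iff_continuous_domRestrict.1 hG⟩
  have hg' : ∀ p ∈ (U ∪ U')ᶜ ∪ {p | om p = 0}, g p = G p := fun p hp =>
    DFunLike.congr_fun hg ⟨p, hp⟩
  let c : Fin (k + 1) → X → ℝ := Fin.cons (fun p => f p - f' p) fun i p => g p i
  have hc : ∀ i, Continuous (c i) := fun i => by
    refine Fin.cases ?_ (fun i => ?_) i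
    · exact hf.sub hf'
    · exact (continuous_apply i).comp g.continuous
  have hEc : Ess om c := by
    refine ess1 X _ om a c hom (HasCompactSupport.of_compactSpace _) ha hc (fun p hp h0 s hs' => ?_) hE
    by_cases hz : ∀ i : Fin k, a i.succ p = 0
    · refine ⟨0, ?_⟩
      change (1 - s) * a 0 p + s * (f p - f' p) ≠ 0
      obtain ⟨hs0, hs1⟩ := hs'
      rcases hs p hp h0 hz with ⟨h1, h2⟩ | ⟨h1, h2⟩
      · have h3 := hf1 p h2
        rw [hf0' p (disjoint_left.1 hd h2), sub_zero]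
        rcases eq_or_lt_of_le hs0 with rfl | h4
        · simpa using h1.ne'
        · exact (add_pos_of_nonneg_of_pos (mul_nonneg (by linarith) h1.le) (mul_pos h4 h3)).ne'
      · have h3 := hf1' p h2
        rw [hf0 p (disjoint_right.1 hd h2), zero_sub]
        rcases eq_or_lt_of_le hs0 with rfl | h4
        · simpa using h1.ne
        · exact (add_neg_of_nonpos_of_neg (mul_nonpos_of_nonneg_of_nonpos (by linarith) h1.le)
            (mul_neg_of_pos_of_neg h4 (by linarith))).ne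
    · push Not at hz
      obtain ⟨i, hi⟩ := hz
      refine ⟨i.succ, ?_⟩
      change (1 - s) * a i.succ p + s * g p i ≠ 0
      rw [hg' p (Or.inr h0), hG0 p h0]
      intro h
      exact hi (by linarith)
  obtain ⟨p, hp, h0⟩ := hEc c hc fun _ _ _ => rfl
  have h1 : f p - f' p = 0 := h0 0
  have hpS : p ∈ (U ∪ U')ᶜ := by
    rintro (h | h)
    · have := hf1 p h
      rw [hf0' p (disjoint_left.1 hd h)] at h1
      linarith
    · have := hf1' p h
      rw [hf0 p (disjoint_right.1 hd h)] at h1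
      linarith
  refine ⟨⟨p, hpS⟩, hp, fun i => ?_⟩
  have h2 : g p i = 0 := h0 i.succ
  rw [hg' p (Or.inl hpS)] at h2
  simpa only [G, dif_pos hpS] using h2

theorem ess3 : Ess3Stmt := by
  classical
  intro X _ _ k om χ a S B hom hχ ha hd hne hE b hb hba
  let c : Fin k → S → ℝ := fun i q => if h : (q : X) ∉ B then b i ⟨q, q.2, h⟩ else a i q
  have hc0 : ∀ q : S, om q * χ q = 0 → ∀ i, c i q = a i q := fun q hq i => by
    by_cases h : (q : X) ∉ B
    · simp only [c, dif_pos h]; exact hba ⟨q, q.2, h⟩ hq i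
    · simp only [c, dif_neg h]
  have hc : ∀ i, Continuous (c i) := fun i => by
    rw [← continuousOn_univ]
    have hu : (univ : Set S) = Subtype.val ⁻¹' tsupport χ ∪ {q : S | χ q = 0} := by
      refine (eq_univ_of_forall fun q => ?_).symm
      by_cases h : χ q = 0
      · exact Or.inr h
      · exact Or.inl (subset_tsupport _ h)
    rw [hu]
    refine ContinuousOn.union_of_isClosed ?_ ?_
      ((isClosed_tsupport χ).preimage continuous_subtype_val)
      (isClosed_eq (hχ.comp continuous_subtype_val) continuous_const)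
    · rw [continuousOn_iff_continuous_domRestrict]
      have h1 : Continuous fun q : ↥(Subtype.val ⁻¹' tsupport χ : Set S) =>
          (⟨q.1.1, q.1.2, disjoint_left.1 hd q.2⟩ : ↥(S \ B)) :=
        (continuous_subtype_val.comp continuous_subtype_val).subtype_mk _
      refine ((hb i).comp h1).congr fun q => ?_
      simp only [c, domRestrict_apply, dif_pos (disjoint_left.1 hd q.2), comp_apply]
    · exact ((ha i).comp continuous_subtype_val).continuousOn.congr fun q hq =>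
        hc0 q (by rw [show χ q = 0 from hq, mul_zero]) i
  obtain ⟨q, hq, h0⟩ := hE c hc fun q hq i => hc0 q (by rw [show om q = 0 from hq, zero_mul]) i
  have h1 : χ q ≠ 0 := fun h => by
    obtain ⟨i, hi⟩ := hne q q.2 hq h
    exact hi (by rw [← hc0 q (by rw [h, mul_zero]) i]; exact h0 i)
  have h2 : (q : X) ∉ B := disjoint_left.1 hd (subset_tsupport _ h1)
  refine ⟨⟨q, q.2, h2⟩, mul_ne_zero hq h1, fun i => ?_⟩
  simpa only [c, dif_pos h2] using h0 i

theorem ess4 : Ess4Stmt := by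
  classical
  intro X Y _ _ _ k e om a om' a' _ hs ha he hE b hb hba
  let c : Fin k → X → ℝ := fun i p => if p ∈ e.source then b i (e p) else a i p
  have hc0 : ∀ p, om p = 0 → ∀ i, c i p = a i p := fun p hp i => by
    by_cases h : p ∈ e.source
    · simp only [c, if_pos h]
      rw [hba _ ((he p h).1.trans hp), (he p h).2]
    · simp only [c, if_neg h]
  have hc : ∀ i, Continuous (c i) := fun i => continuous_iff_continuousAt.2 fun p => by
    by_cases h : p ∈ e.source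
    · refine (((hb i).continuousAt).comp (e.continuousAt h)).congr ?_
      filter_upwards [e.open_source.mem_nhds h] with q hq
      simp only [c, if_pos hq, comp_apply]
    · refine (ha i).continuousAt.congr ?_
      filter_upwards [(isClosed_tsupport om).isOpen_compl.mem_nhds fun h' => h (hs h')] with q hq
      exact (hc0 q (image_eq_zero_of_notMem_tsupport hq) i).symm
  obtain ⟨p, hp, h0⟩ := hE c hc hc0
  have h1 : p ∈ e.source := hs (subset_tsupport _ hp)
  refine ⟨e p, by rw [(he p h1).1]; exact hp, fun i => ?_⟩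
  simpa only [c, if_pos h1] using h0 i

end Crest.Agent.N222

end
end

-- ▼ part N222/B/Step0
section

/-!
# Row 222, part B: STEP 0 (the truncated coordinate); GEN is in `B/Gen.lean`
-/

set_option autoImplicit false
set_option linter.unusedSectionVars false
open MeasureTheory Set Filter Topology Function Metric
open scoped ContDiff InnerProductSpace RealInnerProductSpace

noncomputable section

namespace Crest.Agent.N222

namespace St0

/-- the real inequality -/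
theorem alg {s0 K t w a0 c0 B S k : ℝ} (ht : 0 < t) (hs : 0 < s0) (hK : 0 ≤ K) (hS : 0 ≤ S)
    (hB : S - K * |w| ≤ B) (h0 : s0 ≤ B + a0 ^ 2 - c0)
    (hk : 2 * k * w ^ 4 ≤ (w ^ 2 / (w ^ 2 + t ^ 2)) ^ 2 * c0 + K * t ^ 2)
    (hc : t ≤ |w| ∨ s0 / 4 ≤ S) :
    s0 / 4 - K * t - K * t ^ 2 ≤ B + ((a0 / (w ^ 2 + t ^ 2)) ^ 2 - 2 * k) * w ^ 4 := by
  have hd : 0 < w ^ 2 + t ^ 2 := by positivity
  set l := w ^ 2 / (w ^ 2 + t ^ 2) with hl
  have l0 : 0 ≤ l := by positivity
  have l1 : l ≤ 1 := (div_le_one hd).2 (by nlinarith)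
  have e1 : (a0 / (w ^ 2 + t ^ 2)) ^ 2 * w ^ 4 = l ^ 2 * a0 ^ 2 := by rw [hl]; field_simp
  have e2 : (1 - l) * (2 * |w|) ≤ t := by
    have : 1 - l = t ^ 2 / (w ^ 2 + t ^ 2) := by rw [hl]; field_simp; ring
    rw [this, div_mul_eq_mul_div, div_le_iff₀ hd]
    nlinarith [mul_nonneg ht.le (sq_nonneg (|w| - t)), sq_abs w]
  have e3 : (1 - l ^ 2) * |w| ≤ t := by
    nlinarith [mul_nonneg (mul_nonneg (sub_nonneg.2 l1) (sub_nonneg.2 l1)) (abs_nonneg w)]
  have l2 : 0 ≤ 1 - l ^ 2 := by nlinarith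
  have e4 : (1 - l ^ 2) * S - K * t ≤ (1 - l ^ 2) * B := by
    nlinarith [mul_le_mul_of_nonneg_left hB l2, mul_le_mul_of_nonneg_left e3 hK]
  have e5 : s0 / 4 ≤ l ^ 2 * s0 + (1 - l ^ 2) * S := by
    rcases hc with h | h
    · have h1 : 1 / 2 ≤ l := by
        rw [hl, le_div_iff₀ hd]
        nlinarith [sq_abs w, abs_nonneg w]
      nlinarith [mul_nonneg l2 hS, mul_nonneg (sub_nonneg.2 h1) hs.le,
        mul_nonneg (mul_nonneg (sub_nonneg.2 h1) (sub_nonneg.2 h1)) hs.le]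
    · nlinarith [mul_le_mul_of_nonneg_left h l2, mul_nonneg (sq_nonneg l) hs.le]
  rw [sub_mul, e1]
  nlinarith [mul_le_mul_of_nonneg_left h0 (sq_nonneg l)]

variable {d : ℕ} {ι : Type} [Fintype ι] [DecidableEq ι] {X : Type} [TopologicalSpace X]
  [MeasurableSpace X] {M : Imm d ι X} {om a : X → ℝ}

theorem cost_eq (om a : X → ℝ) (p : X) : M.cost om a p =
    2 * ‖om p ^ 2 • M.grad a p - a p • M.grad (fun q => om q ^ 2) p‖ := by
  rw [Imm.cost, EuclideanSpace.norm_eq]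
  simp [Imm.grad]

theorem grad_sq (ho : M.Sm om) (p : X) :
    M.grad (fun q => om q ^ 2) p = (2 * om p) • M.grad om p := by
  ext c
  have := Imm.D_comp (ho.diffAt p) (hasDerivAt_pow 2 (om p)) c
  simpa [Imm.grad] using this

theorem continuous_cost (ho : M.Sm om) (ha : M.Sm a) : Continuous (M.cost om a) := by
  rw [funext (cost_eq (M := M) om a)]
  exact continuous_const.mul (((ho.continuous.pow 2).smul ha.grad.continuous).sub
    (ha.continuous.smul (ho.pow 2).grad.continuous)).norm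

theorem cost_le (ho : M.Sm om) (a : X → ℝ) (p : X) : M.cost om a p ≤
    2 * (|om p| * ‖M.grad a p‖ + 2 * |a p| * ‖M.grad om p‖) * |om p| := by
  rw [cost_eq, grad_sq ho]
  have := norm_sub_le (om p ^ 2 • M.grad a p) (a p • (2 * om p) • M.grad om p)
  simp only [norm_smul, Real.norm_eq_abs, abs_pow, abs_mul, abs_two] at this
  nlinarith

theorem grad_div (ho : M.Sm om) (ha : M.Sm a) {t : ℝ} (ht : 0 < t) (p : X) :
    (om p ^ 2 + t ^ 2) ^ 2 • M.grad (fun q => a q / (om q ^ 2 + t ^ 2)) p =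
      om p ^ 2 • M.grad a p - a p • M.grad (fun q => om q ^ 2) p + t ^ 2 • M.grad a p := by
  have hd : ∀ q, om q ^ 2 + t ^ 2 ≠ 0 := fun q => by positivity
  have h1 : M.Sm fun q => om q ^ 2 + t ^ 2 := (ho.pow 2).add (Imm.sm_const _)
  ext c
  have h2 := Imm.D_mul ((ha.div h1 hd).diffAt p) (h1.diffAt p) c
  rw [show (fun q => a q / (om q ^ 2 + t ^ 2) * (om q ^ 2 + t ^ 2)) = a from
    funext fun q => div_mul_cancel₀ _ (hd q),
    Imm.D_add ((ho.pow 2).diffAt p) ((Imm.sm_const _).diffAt p), Imm.D_const, add_zero] at h2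
  simp only [Imm.grad, PiLp.add_apply, PiLp.sub_apply, PiLp.smul_apply, smul_eq_mul]
  have h3 := hd p
  rw [h2]
  field_simp
  ring

/-- the gradient bound for the truncated function -/
theorem k_le (ho : M.Sm om) (ha : M.Sm a) {t K : ℝ} (ht : 0 < t) (p : X)
    (hK : 2 * ‖M.grad a p‖ + 2 * om p ^ 4 ≤ K) :
    2 * √(M.pre.gam (fun q => a q / (om q ^ 2 + t ^ 2)) (fun q => a q / (om q ^ 2 + t ^ 2)) p +
      t ^ 4) * om p ^ 4 ≤
      (om p ^ 2 / (om p ^ 2 + t ^ 2)) ^ 2 * M.cost om a p + K * t ^ 2 := by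
  have hd : 0 < om p ^ 2 + t ^ 2 := by positivity
  set g := ‖M.grad (fun q => a q / (om q ^ 2 + t ^ 2)) p‖ with hg
  have g0 : 0 ≤ g := norm_nonneg _
  have h1 : √(M.pre.gam (fun q => a q / (om q ^ 2 + t ^ 2))
      (fun q => a q / (om q ^ 2 + t ^ 2)) p + t ^ 4) ≤ g + t ^ 2 := by
    rw [Imm.gam_self_eq, ← hg]
    exact Real.sqrt_le_iff.2 ⟨by positivity, by nlinarith [mul_nonneg g0 (sq_nonneg t)]⟩
  have h2 : (om p ^ 2 + t ^ 2) ^ 2 * g ≤ M.cost om a p / 2 + t ^ 2 * ‖M.grad a p‖ := by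
    have := (congrArg norm (grad_div ho ha ht p)).trans_le (norm_add_le _ _)
    rw [norm_smul, norm_smul, Real.norm_of_nonneg (sq_nonneg _),
      Real.norm_of_nonneg (sq_nonneg _)] at this
    rw [cost_eq]
    linarith
  set l := om p ^ 2 / (om p ^ 2 + t ^ 2) with hl
  have l0 : 0 ≤ l := by positivity
  have l1 : l ≤ 1 := (div_le_one hd).2 (by nlinarith)
  have l2 : l ^ 2 ≤ 1 := by nlinarith
  have e1 : om p ^ 4 * g = l ^ 2 * ((om p ^ 2 + t ^ 2) ^ 2 * g) := by rw [hl]; field_simp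
  have h3 := mul_le_mul_of_nonneg_left h2 (sq_nonneg l)
  have h4 : l ^ 2 * (t ^ 2 * ‖M.grad a p‖) ≤ t ^ 2 * ‖M.grad a p‖ :=
    mul_le_of_le_one_left (by positivity) l2
  have h5 := mul_le_mul_of_nonneg_right h1 (show 0 ≤ om p ^ 4 by positivity)
  have h6 := mul_le_mul_of_nonneg_right hK (sq_nonneg t)
  nlinarith

end St0

open St0 in
theorem step0 : Step0Stmt := by
  intro m ι _ _ X _ _ _ _ _ _ M F om a hM hd r0 C hr0 hC
  obtain ⟨s0, hs, hI⟩ := hd.ineq
  have cV := hd.smF.EF.continuous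
  have co := hd.smo.continuous
  have ca := fun i => (hd.sma i).continuous
  have cg := fun i => (hd.sma i).grad.continuous
  have cg' := hd.smo.grad.continuous
  have hI' : ∀ p ∈ tsupport om, s0 + ∑ i, M.cost om (a i) p ≤
      M.pre.EF F p * om p ^ 4 + ∑ i, a i p ^ 2 := fun p hp =>
    closure_minimal (s := support om) hI (isClosed_le
      (continuous_const.add (continuous_finsetSum _ fun i _ => continuous_cost hd.smo (hd.sma i)))
      ((cV.mul (co.pow 4)).add (continuous_finsetSum _ fun i _ => (ca i).pow 2))) hp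
  obtain ⟨K, K0, hK⟩ := Imm.exists_bound (f := fun p => |M.pre.EF F p| * |om p| ^ 3 +
    ∑ i : Fin m, 2 * (|om p| * ‖M.grad (a i.succ) p‖ + 2 * |a i.succ p| * ‖M.grad om p‖) +
    (2 * ‖M.grad (a 0) p‖ + 2 * om p ^ 4))
    (((cV.abs.mul (co.abs.pow 3)).add (continuous_finsetSum _ fun i _ => continuous_const.mul
      ((co.abs.mul (cg _).norm).add ((continuous_const.mul (ca _).abs).mul cg'.norm)))).add
      ((continuous_const.mul (cg 0).norm).add (continuous_const.mul (co.pow 4))))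
  obtain ⟨L, L0, hL⟩ := (hd.smo.prodMk (hd.sma 0)).exists_lip hM
  set σ := √(s0 / 2) with hσ
  have σ0 : 0 < σ := Real.sqrt_pos.2 (by positivity)
  have σ2 : σ ^ 2 = s0 / 2 := Real.sq_sqrt (by positivity)
  obtain ⟨t, ht, t1, t2, t3, t4, t5⟩ : ∃ t : ℝ, 0 < t ∧ t ≤ 1 ∧ t ≤ s0 / (16 * K) ∧ t ≤ σ / 2 ∧
      t ≤ σ / (10 * C * L) ∧ t ≤ L * r0 :=
    ⟨min 1 (min (s0 / (16 * K)) (min (σ / 2) (min (σ / (10 * C * L)) (L * r0)))), by positivity,
      min_le_left _ _, by simp, by simp, by simp, by simp⟩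
  have hKt : K * t ≤ s0 / 16 := by
    rw [le_div_iff₀ (by positivity)] at t2
    linarith
  have hKt2 : K * t ^ 2 ≤ s0 / 16 := by nlinarith [mul_nonneg K0.le ht.le]
  have hden : ∀ q, 0 < om q ^ 2 + t ^ 2 := fun q => by positivity
  have sh : M.Sm fun q => a 0 q / (om q ^ 2 + t ^ 2) :=
    (hd.sma 0).div ((hd.smo.pow 2).add (Imm.sm_const _)) fun q => (hden q).ne'
  refine ⟨fun q => a 0 q / (om q ^ 2 + t ^ 2), fun p => √(M.pre.gam
    (fun q => a 0 q / (om q ^ 2 + t ^ 2)) (fun q => a 0 q / (om q ^ 2 + t ^ 2)) p + t ^ 4),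
    s0 / 8, sh, ((sh.gam sh).add (Imm.sm_const _)).sqrt fun p =>
      (add_pos_of_nonneg_of_pos (Imm.gam_self_nonneg _ p) (by positivity)).ne',
    fun p => Real.sqrt_le_sqrt (le_add_of_nonneg_right (by positivity)), by positivity,
    fun p hp => ?_⟩
  have h1 := hI' p hp
  rw [Fin.sum_univ_succ, Fin.sum_univ_succ] at h1
  have h2 := (le_abs_self _).trans (hK p)
  have n1 : 0 ≤ |M.pre.EF F p| * |om p| ^ 3 := by positivity
  have n2 : 0 ≤ ∑ i : Fin m,
      2 * (|om p| * ‖M.grad (a i.succ) p‖ + 2 * |a i.succ p| * ‖M.grad om p‖) :=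
    Finset.sum_nonneg fun i _ => by positivity
  have n3 : 0 ≤ 2 * ‖M.grad (a 0) p‖ + 2 * om p ^ 4 := by positivity
  have n4 : 0 ≤ ∑ i : Fin m, a i.succ p ^ 2 := Finset.sum_nonneg fun i _ => sq_nonneg _
  have n5 : 0 ≤ ∑ i : Fin m, M.cost om (a i.succ) p :=
    Finset.sum_nonneg fun i _ => by rw [cost_eq]; positivity
  have n6 : 0 ≤ M.cost om (a 0) p := by rw [cost_eq]; positivity
  have h3 : ∑ i : Fin m, M.cost om (a i.succ) p ≤ (∑ i : Fin m,
      2 * (|om p| * ‖M.grad (a i.succ) p‖ + 2 * |a i.succ p| * ‖M.grad om p‖)) * |om p| := by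
    rw [Finset.sum_mul]
    exact Finset.sum_le_sum fun i _ => cost_le hd.smo _ p
  have h4 : |M.pre.EF F p * om p ^ 4| = |M.pre.EF F p| * |om p| ^ 3 * |om p| := by
    rw [abs_mul, abs_pow]; ring
  have h5 : |M.pre.EF F p * om p ^ 4| + ∑ i : Fin m, M.cost om (a i.succ) p ≤ K * |om p| := by
    nlinarith [mul_le_mul_of_nonneg_right h2 (abs_nonneg (om p)),
      mul_nonneg n3 (abs_nonneg (om p))]
  by_cases hc : t ≤ |om p| ∨ s0 / 4 ≤ ∑ i : Fin m, a i.succ p ^ 2
  · left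
    have := alg (a0 := a 0 p) (B := M.pre.EF F p * om p ^ 4 + ∑ i : Fin m, a i.succ p ^ 2 -
      ∑ i : Fin m, M.cost om (a i.succ) p) ht hs K0.le n4
      (by linarith [neg_abs_le (M.pre.EF F p * om p ^ 4)]) (by linarith)
      (k_le hd.smo (hd.sma 0) ht p (K := K) (by linarith)) hc
    linarith
  · right
    rw [not_or, not_le, not_le] at hc
    have h6 : σ ≤ |a 0 p| := by
      refine Real.sqrt_le_iff.2 ⟨abs_nonneg _, ?_⟩
      rw [sq_abs]
      nlinarith [le_abs_self (M.pre.EF F p * om p ^ 4), mul_le_mul_of_nonneg_left hc.1.le K0.le]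
    have hr : 0 < t / L := by positivity
    have h7 : ∀ q, ‖M.x q - M.x p‖ < t / L →
        |a 0 q - a 0 p| ≤ t ∧ C / (t / L) * (om q ^ 2 + t ^ 2) ≤ σ / 2 := fun q hq => by
      have h8 : ‖(om q, a 0 q) - (om p, a 0 p)‖ ≤ t := (hL q p).trans (by
        rw [lt_div_iff₀ L0] at hq
        linarith)
      have h9 : |om q - om p| ≤ t := (norm_fst_le ((om q, a 0 q) - (om p, a 0 p))).trans h8
      refine ⟨(norm_snd_le ((om q, a 0 q) - (om p, a 0 p))).trans h8, ?_⟩
      have h10 : |om q| ≤ 2 * t := by linarith [abs_sub_abs_le_abs_sub (om q) (om p), hc.1]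
      have h11 : om q ^ 2 + t ^ 2 ≤ 5 * t ^ 2 := by
        nlinarith [sq_abs (om q), abs_nonneg (om q)]
      rw [le_div_iff₀ (by positivity)] at t4
      calc C / (t / L) * (om q ^ 2 + t ^ 2) ≤ C / (t / L) * (5 * t ^ 2) :=
            mul_le_mul_of_nonneg_left h11 (by positivity)
        _ = t * (10 * C * L) / 2 := by field_simp; ring
        _ ≤ σ / 2 := by linarith
    refine ⟨t / L, hr, by rw [div_le_iff₀' L0]; exact t5, ?_⟩
    rcases le_abs.1 h6 with h | h
    · refine Or.inl ⟨σ0.trans_le h, fun q hq => ?_⟩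
      rw [le_div_iff₀ (hden q)]
      linarith [(h7 q hq).2, (abs_le.1 (h7 q hq).1).1]
    · refine Or.inr ⟨by linarith, fun q hq => ?_⟩
      rw [div_le_iff₀ (hden q)]
      linarith [(h7 q hq).2, (abs_le.1 (h7 q hq).1).2]

end Crest.Agent.N222

end
end

-- ▼ part N222/B/Shield1
section

/-!
# Row 222, part B: the shield, real inequalities and the cost function (helper51)
-/

set_option autoImplicit false
set_option linter.unusedSectionVars false
open MeasureTheory Set Filter Topology Function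
open scoped ContDiff InnerProductSpace RealInnerProductSpace

noncomputable section

namespace Crest.Agent.N222.Sh

/-! ### the profile -/

theorem exists_sig : ∃ σ σ' : ℝ → ℝ, ContDiff ℝ ∞ σ ∧ (∀ l, HasDerivAt σ (σ' l) l) ∧
    (∀ l, 0 ≤ σ l ∧ 0 ≤ σ' l ∧ σ' l ≤ 1 ∧ l - 2 ≤ σ l) ∧ ∀ l ≤ 1, σ l = 0 ∧ σ' l = 0 := by
  refine ⟨fun l => (l - 1) * expNegInvGlue (l - 1),
    fun l => expNegInvGlue (l - 1) * (1 + (l - 1)⁻¹), ?_, fun l => ?_, fun l => ?_, fun l hl => ?_⟩
  · exact (contDiff_id.sub contDiff_const).mul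
      ((expNegInvGlue.contDiff (n := ⊤)).comp (contDiff_id.sub contDiff_const))
  · have h1 : HasDerivAt expNegInvGlue (((l - 1)⁻¹) ^ 2 * expNegInvGlue (l - 1)) (l - 1) := by
      simpa using expNegInvGlue.hasDerivAt_polynomial_eval_inv_mul 1 (l - 1)
    have h2 : HasDerivAt (fun l : ℝ => l - 1) 1 l := (hasDerivAt_id l).sub_const 1
    have h3 : HasDerivAt (fun l : ℝ => expNegInvGlue (l - 1))
        (((l - 1)⁻¹) ^ 2 * expNegInvGlue (l - 1)) l := HasDerivAt.comp_sub_const l 1 h1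
    refine (h2.mul h3).congr_deriv ?_
    by_cases h : l - 1 = 0
    · simp [h]
    · field_simp
  · by_cases h : l - 1 ≤ 0
    · simp only [expNegInvGlue.zero_of_nonpos h, mul_zero, zero_mul]
      exact ⟨le_rfl, le_rfl, zero_le_one, by linarith⟩
    · have ht : 0 < l - 1 := not_le.1 h
      have hg : expNegInvGlue (l - 1) = Real.exp (-(l - 1)⁻¹) := by simp only [expNegInvGlue, if_neg h]
      have hi : 0 < (l - 1)⁻¹ := inv_pos.2 ht
      have h1 := Real.add_one_le_exp (l - 1)⁻¹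
      have h2 := Real.add_one_le_exp (-(l - 1)⁻¹)
      have h3 : Real.exp (-(l - 1)⁻¹) * Real.exp (l - 1)⁻¹ = 1 := by rw [← Real.exp_add]; simp
      have h4 := Real.exp_pos (-(l - 1)⁻¹)
      have h5 : (l - 1) * (l - 1)⁻¹ = 1 := mul_inv_cancel₀ ht.ne'
      simp only [hg]
      refine ⟨by positivity, by positivity, by nlinarith, by nlinarith⟩
  · simp only [expNegInvGlue.zero_of_nonpos (sub_nonpos.2 hl), mul_zero, zero_mul, and_self]

theorem exists_lam (α C1 : ℝ) (hα : 0 < α) : ∃ (lam lam' : ℝ → ℝ) (Λ κ : ℝ), 0 < κ ∧ 0 ≤ Λ ∧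
    ContDiff ℝ ∞ lam ∧ (∀ l, HasDerivAt lam (lam' l) l) ∧ (∀ l, 0 ≤ lam l ∧ 0 ≤ lam' l) ∧
    (∀ l ≤ 1, lam l = 0 ∧ lam' l = 0) ∧
    (∀ l, (lam' l ≤ 2 * α ∧ lam l ≤ Λ) ∨ (C1 ≤ lam l ∧ lam' l ≤ 2 / 3 * lam l)) ∧
    ∀ l, κ * (Real.exp (3 / 5 * (l - 2)) - 1) ≤ lam l := by
  obtain ⟨σ, σ', hs, hd, hb, h0⟩ := exists_sig
  set s1 := max (5 / 2) (C1 / α) with hs1
  have hs1a : 5 / 2 ≤ s1 := le_max_left _ _
  have hs1b : C1 ≤ α * s1 := by
    rw [mul_comm]; exact (div_le_iff₀ hα).1 (le_max_right _ _)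
  set κ := α * Real.exp (-(3 / 5 * s1)) with hκ
  have hκ0 : 0 < κ := by positivity
  have hκα : κ ≤ α := by
    have : Real.exp (-(3 / 5 * s1)) ≤ 1 := Real.exp_le_one_iff.2 (by linarith)
    nlinarith
  refine ⟨fun l => α * σ l + κ * (Real.exp (3 / 5 * σ l) - 1),
    fun l => σ' l * (α + 3 / 5 * (κ * Real.exp (3 / 5 * σ l))), α * s1 + α, κ, hκ0, by positivity,
    ?_, fun l => ?_, fun l => ?_, fun l hl => ?_, fun l => ?_, fun l => ?_⟩
  · exact (contDiff_const.mul hs).add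
      (contDiff_const.mul ((contDiff_const.mul hs).exp.sub contDiff_const))
  · refine (((hd l).const_mul α).add
      (((((hd l).const_mul (3 / 5)).exp).sub_const 1).const_mul κ)).congr_deriv ?_
    ring
  · obtain ⟨h1, h2, -, -⟩ := hb l
    have : 1 ≤ Real.exp (3 / 5 * σ l) := Real.one_le_exp (by linarith)
    exact ⟨add_nonneg (by positivity) (mul_nonneg hκ0.le (by linarith)), by positivity⟩
  · simp [(h0 l hl).1, (h0 l hl).2]
  · obtain ⟨h1, h2, h3, -⟩ := hb l
    have hE : 1 ≤ Real.exp (3 / 5 * σ l) := Real.one_le_exp (by linarith)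
    have hκE : 0 < κ * Real.exp (3 / 5 * σ l) := by positivity
    have hl' : σ' l * (α + 3 / 5 * (κ * Real.exp (3 / 5 * σ l))) ≤
        α + 3 / 5 * (κ * Real.exp (3 / 5 * σ l)) := mul_le_of_le_one_left (by positivity) h3
    rcases le_total (σ l) s1 with h | h
    · left
      have h4 : κ * Real.exp (3 / 5 * σ l) ≤ α := by
        rw [hκ, mul_assoc, ← Real.exp_add]
        exact mul_le_of_le_one_right hα.le (Real.exp_le_one_iff.2 (by linarith))
      have h5 : α * σ l ≤ α * s1 := mul_le_mul_of_nonneg_left h hα.le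
      exact ⟨by linarith, by nlinarith⟩
    · right
      have h5 : α * s1 ≤ α * σ l := mul_le_mul_of_nonneg_left h hα.le
      have h6 : α * (5 / 2) ≤ α * s1 := mul_le_mul_of_nonneg_left hs1a hα.le
      exact ⟨by nlinarith, by nlinarith⟩
  · obtain ⟨h1, -, -, h4⟩ := hb l
    have h5 : Real.exp (3 / 5 * (l - 2)) ≤ Real.exp (3 / 5 * σ l) :=
      Real.exp_le_exp.2 (by linarith)
    have h6 : 0 ≤ α * σ l := by positivity
    nlinarith

theorem exists_t2 {c κ : ℝ} (hc : 0 < c) (hκ : 0 < κ) {D : ℝ} (hD : 0 < D) :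
    ∃ t2 : ℝ, 0 < t2 ∧ t2 ≤ 1 ∧ ∀ t1 w : ℝ, 0 < t1 → t1 ≤ t2 → c / t1 ^ (7 / 4 : ℝ) ≤ w →
      D / t1 ≤ κ * Real.exp (3 / 5 * (Real.log w - 2)) := by
  set T := max 0 (20 * (Real.log D - Real.log κ - 3 / 5 * Real.log c + 6 / 5)) with hT
  have hT0 : 0 ≤ T := le_max_left _ _
  have hT1 := le_max_right 0 (20 * (Real.log D - Real.log κ - 3 / 5 * Real.log c + 6 / 5))
  refine ⟨Real.exp (-T), Real.exp_pos _, Real.exp_le_one_iff.2 (by linarith), fun t w ht h hw => ?_⟩
  have h1 : Real.log t ≤ -T := (Real.log_le_iff_le_exp ht).2 h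
  have h2 := Real.log_le_log (by positivity) hw
  rw [Real.log_div hc.ne' (by positivity), Real.log_rpow ht] at h2
  rw [← Real.exp_log (div_pos hD ht), ← Real.exp_log hκ, ← Real.exp_add, Real.log_div hD.ne' ht.ne',
    Real.exp_le_exp]
  linarith

theorem exists_young (A : ℝ) {η : ℝ} (hη : 0 < η) :
    ∃ V : ℝ, 0 ≤ V ∧ ∀ o : ℝ, A * |o| ≤ η / 4 + V * o ^ 4 := by
  refine ⟨η / 4 * (4 * A / η) ^ 4, by positivity, fun o => ?_⟩
  have h1 : ∀ x : ℝ, x ≤ 1 + x ^ 4 := fun x => by nlinarith [sq_nonneg (x ^ 2 - 1), sq_nonneg (x - 1)]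
  have h2 := mul_le_mul_of_nonneg_left (h1 (4 * A / η * |o|)) (by positivity : 0 ≤ η / 4)
  have h3 : |o| ^ 4 = o ^ 4 := Even.pow_abs (by decide) o
  have h4 : η / 4 * (4 * A / η * |o|) = A * |o| := by field_simp
  rw [mul_pow, h3, h4] at h2
  linarith

/-! ### the three regions -/

theorem regA {o G Z u cs Q T s s' δ : ℝ} (hT : T ≤ cs) (hI : s + cs ≤ G * o ^ 4 + Q) (hZ : -δ ≤ Z)
    (hδ : δ * o ^ 4 ≤ s / 2) (hs : s' ≤ s / 2) : s' + T ≤ (G + Z + u ^ 2 / 2) * o ^ 4 + Q := by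
  have h4 : 0 ≤ o ^ 4 := by positivity
  nlinarith [mul_le_mul_of_nonneg_right hZ h4, mul_nonneg (sq_nonneg u) h4]

theorem regB {o G Z u cs gp lam lam' b0 B T K s' η Λ V : ℝ}
    (hT : T ≤ cs + 2 * o ^ 2 * (lam' * u) + 2 * lam * gp) (hZ : K + V ≤ Z) (hB : η ≤ B)
    (hl' : 2 * lam' ^ 2 ≤ η / 2) (hl0 : 0 ≤ lam) (hl : lam ≤ Λ) (hcs : cs ≤ K * |o|)
    (hgp : gp ≤ K * |o|) (hK : 0 ≤ K) (hG : |G| ≤ K)
    (hV : K * (1 + 2 * Λ) * |o| ≤ η / 4 + V * o ^ 4) (hs : s' ≤ η / 4) :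
    s' + T ≤ (G + Z + u ^ 2 / 2) * o ^ 4 + ((b0 + lam) ^ 2 + B) := by
  have h4 : 0 ≤ o ^ 4 := by positivity
  have h1 : 2 * o ^ 2 * (lam' * u) ≤ u ^ 2 / 2 * o ^ 4 + 2 * lam' ^ 2 := by
    nlinarith [sq_nonneg (u * o ^ 2 - 2 * lam')]
  have h2 : lam * gp ≤ Λ * (K * |o|) :=
    (mul_le_mul_of_nonneg_left hgp hl0).trans (mul_le_mul_of_nonneg_right hl (by positivity))
  have h3 : V * o ^ 4 ≤ (G + Z) * o ^ 4 :=
    mul_le_mul_of_nonneg_right (by linarith [neg_abs_le G]) h4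
  nlinarith [sq_nonneg (b0 + lam)]

theorem regC {o χ G Z u cs gp gc lam lam' b0 B T K s' : ℝ}
    (hT : T ≤ χ ^ 2 * (cs + 2 * o ^ 2 * (lam' * u) + 2 * lam * gp) + 4 * o ^ 2 * χ * gc * (K + lam))
    (hZ : 0 ≤ Z) (hB : 0 ≤ B) (hl0 : 0 ≤ lam') (hl' : lam' ≤ 2 / 3 * lam)
    (hl : 54 * K + 9 + 72 * K * gc ≤ lam) (hgc : 0 ≤ gc) (hχ0 : 0 ≤ χ) (hχ : χ ≤ 1)
    (hcs : cs ≤ K) (hgp : gp ≤ K) (hK : 1 ≤ K) (ho : o ^ 2 ≤ K) (hG : |G| * o ^ 4 ≤ K)
    (hb : |b0| ≤ K) (hs : s' ≤ 1) :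
    s' + T ≤ (G + Z + u ^ 2 / 2) * (o * χ) ^ 4 + ((b0 + lam) ^ 2 + B) := by
  have hKg : 0 ≤ K * gc := by positivity
  have hl1 : K ≤ lam := by linarith
  have hlam : 0 ≤ lam := by linarith
  have hχ2 : χ ^ 2 ≤ 1 := pow_le_one₀ hχ0 hχ
  have hχ4 : χ ^ 4 ≤ 1 := pow_le_one₀ hχ0 hχ
  have h1 : χ ^ 2 * (2 * o ^ 2 * (lam' * u)) ≤ u ^ 2 / 2 * (o * χ) ^ 4 + 2 * lam' ^ 2 := by
    nlinarith [sq_nonneg (u * (o * χ) ^ 2 - 2 * lam')]
  have h2 : χ ^ 2 * (cs + 2 * lam * gp) ≤ K + 2 * lam * K := by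
    have h21 : cs + 2 * lam * gp ≤ K + 2 * lam * K := by nlinarith
    have h22 : 0 ≤ K + 2 * lam * K := by positivity
    nlinarith [mul_le_mul_of_nonneg_left h21 (sq_nonneg χ)]
  have h3 : 4 * o ^ 2 * χ * gc * (K + lam) ≤ 8 * (K * gc) * lam := by
    have h31 : o ^ 2 * χ ≤ K := (mul_le_of_le_one_right (sq_nonneg o) hχ).trans ho
    have h32 : o ^ 2 * χ * gc ≤ K * gc := mul_le_mul_of_nonneg_right h31 hgc
    have h33 : o ^ 2 * χ * gc * (K + lam) ≤ K * gc * (2 * lam) :=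
      mul_le_mul h32 (by linarith) (by linarith) hKg
    linarith
  have h4 : -K ≤ G * (o * χ) ^ 4 := by
    have h41 : |G| * (o * χ) ^ 4 ≤ |G| * o ^ 4 := by
      rw [mul_pow]
      exact mul_le_mul_of_nonneg_left (mul_le_of_le_one_right (by positivity) hχ4) (abs_nonneg G)
    have h42 : -|G| * (o * χ) ^ 4 ≤ G * (o * χ) ^ 4 :=
      mul_le_mul_of_nonneg_right (neg_abs_le G) (by positivity)
    linarith
  have h5 : 0 ≤ Z * (o * χ) ^ 4 := by positivity
  have h6 : lam ^ 2 - 2 * K * lam ≤ (b0 + lam) ^ 2 := by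
    nlinarith [mul_le_mul_of_nonneg_right (neg_le_of_abs_le hb) hlam, sq_nonneg b0]
  have h7 : lam' ^ 2 ≤ (2 / 3 * lam) ^ 2 := pow_le_pow_left₀ hl0 hl' 2
  have h8 : (54 * K + 9 + 72 * K * gc) * lam ≤ lam * lam := mul_le_mul_of_nonneg_right hl hlam
  have h9 : (2 * K + 1) * 1 ≤ (2 * K + 1) * lam :=
    mul_le_mul_of_nonneg_left (by linarith) (by linarith)
  nlinarith

/-! ### the cost function -/

variable {d : ℕ} {ι : Type} [Fintype ι] [DecidableEq ι] {X : Type} [TopologicalSpace X]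
  [MeasurableSpace X] {M : Imm d ι X} {p : X}

theorem cost_eq (om a : X → ℝ) (p : X) : M.cost om a p =
    2 * ‖om p ^ 2 • M.grad a p - a p • M.grad (fun q => om q ^ 2) p‖ := by
  rw [Imm.cost, EuclideanSpace.norm_eq]
  simp [Imm.grad]

theorem cost_nonneg (om a : X → ℝ) (p : X) : 0 ≤ M.cost om a p := by
  rw [cost_eq]; positivity

theorem grad_add {f g : X → ℝ} (hf : M.DiffAt f p) (hg : M.DiffAt g p) :
    M.grad (fun q => f q + g q) p = M.grad f p + M.grad g p := by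
  ext c; simp [Imm.grad, Imm.D_add hf hg]

theorem grad_mul {f g : X → ℝ} (hf : M.DiffAt f p) (hg : M.DiffAt g p) :
    M.grad (fun q => f q * g q) p = f p • M.grad g p + g p • M.grad f p := by
  ext c; simp [Imm.grad, Imm.D_mul hf hg, mul_comm]

theorem grad_comp {f : X → ℝ} (hf : M.DiffAt f p) {g : ℝ → ℝ} {g' : ℝ} (hg : HasDerivAt g g' (f p)) :
    M.grad (fun q => g (f q)) p = g' • M.grad f p := by
  ext c; simp [Imm.grad, Imm.D_comp hf hg]

theorem grad_const (c : ℝ) (p : X) : M.grad (fun _ => c) p = 0 := by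
  ext a; simp [Imm.grad, Imm.D_const]

theorem grad_sq {f : X → ℝ} (hf : M.DiffAt f p) :
    M.grad (fun q => f q ^ 2) p = (2 * f p) • M.grad f p := by
  simpa using grad_comp hf (hasDerivAt_pow 2 (f p))

theorem norm_grad_sq {f : X → ℝ} (hf : M.DiffAt f p) :
    ‖M.grad (fun q => f q ^ 2) p‖ = 2 * ‖M.grad f p‖ * |f p| := by
  rw [grad_sq hf, norm_smul, Real.norm_eq_abs, abs_mul, abs_two]; ring

theorem cost_add_le (om : X → ℝ) {f g : X → ℝ} (hf : M.DiffAt f p) (hg : M.DiffAt g p) :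
    M.cost om (fun q => f q + g q) p ≤ M.cost om f p + 2 * om p ^ 2 * ‖M.grad g p‖ +
      2 * |g p| * ‖M.grad (fun q => om q ^ 2) p‖ := by
  rw [cost_eq, cost_eq, grad_add hf hg]
  have h : om p ^ 2 • (M.grad f p + M.grad g p) - (f p + g p) • M.grad (fun q => om q ^ 2) p =
      (om p ^ 2 • M.grad f p - f p • M.grad (fun q => om q ^ 2) p) + om p ^ 2 • M.grad g p -
        g p • M.grad (fun q => om q ^ 2) p := by module
  have h1 := norm_sub_le ((om p ^ 2 • M.grad f p - f p • M.grad (fun q => om q ^ 2) p) +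
    om p ^ 2 • M.grad g p) (g p • M.grad (fun q => om q ^ 2) p)
  have h2 := norm_add_le (om p ^ 2 • M.grad f p - f p • M.grad (fun q => om q ^ 2) p)
    (om p ^ 2 • M.grad g p)
  rw [norm_smul, Real.norm_eq_abs] at h1 h2
  rw [abs_of_nonneg (sq_nonneg _)] at h2
  rw [h]; linarith

theorem cost_mul_le {om χ : X → ℝ} (ho : M.DiffAt om p) (hχ : M.DiffAt χ p) (f : X → ℝ) :
    M.cost (fun q => om q * χ q) f p ≤ χ p ^ 2 * M.cost om f p +
      4 * om p ^ 2 * |χ p| * ‖M.grad χ p‖ * |f p| := by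
  have hd : M.DiffAt (fun q => om q * χ q) p := DifferentiableAt.mul ho hχ
  rw [cost_eq, cost_eq, grad_sq hd, grad_sq ho, grad_mul ho hχ]
  have h : (om p * χ p) ^ 2 • M.grad f p - f p • (2 * (om p * χ p)) •
      (om p • M.grad χ p + χ p • M.grad om p) =
      χ p ^ 2 • (om p ^ 2 • M.grad f p - f p • (2 * om p) • M.grad om p) -
        (2 * om p ^ 2 * χ p * f p) • M.grad χ p := by module
  have h1 := norm_sub_le (χ p ^ 2 • (om p ^ 2 • M.grad f p - f p • (2 * om p) • M.grad om p))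
    ((2 * om p ^ 2 * χ p * f p) • M.grad χ p)
  rw [norm_smul, norm_smul, Real.norm_eq_abs, Real.norm_eq_abs, abs_of_nonneg (sq_nonneg _),
    abs_mul, abs_mul, abs_of_nonneg (by positivity : 0 ≤ 2 * om p ^ 2)] at h1
  rw [h]; linarith

theorem cost_le {om : X → ℝ} (ho : M.DiffAt om p) (f : X → ℝ) :
    M.cost om f p ≤ 2 * (|om p| * ‖M.grad f p‖ + 2 * |f p| * ‖M.grad om p‖) * |om p| := by
  have h1 := norm_sub_le (om p ^ 2 • M.grad f p) (f p • M.grad (fun q => om q ^ 2) p)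
  rw [norm_smul, norm_smul, norm_grad_sq ho, Real.norm_eq_abs, Real.norm_eq_abs, abs_pow] at h1
  rw [cost_eq]; linarith

end Crest.Agent.N222.Sh

end
end

-- ▼ part N222/B/Shield
section

/-!
# Row 222, part B: the shield (helper51)
-/

set_option autoImplicit false
set_option linter.unusedSectionVars false
open MeasureTheory Set Filter Topology Function
open scoped ContDiff InnerProductSpace RealInnerProductSpace

noncomputable section

namespace Crest.Agent.N222.Sh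

variable {ι : Type} [Fintype ι] [DecidableEq ι] {X : Type} [TopologicalSpace X] [T2Space X]
  [SecondCountableTopology X] [MeasurableSpace X] [BorelSpace X] [CompactSpace X]

theorem mem_tsupport_val {S : Set X} {om : X → ℝ} {q : S} (h : q ∈ tsupport fun q : S => om q) :
    (q : X) ∈ tsupport om :=
  closure_minimal (s := support fun q : S => om q) (t := Subtype.val ⁻¹' tsupport om)
    (fun _ hq => subset_tsupport om hq) ((isClosed_tsupport om).preimage continuous_subtype_val) h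

theorem ess1_sub (h1 : Ess1Stmt) {k : ℕ} {S : Set X} (hS : IsClosed S) {om : X → ℝ}
    {a a' : Fin k → X → ℝ} (ho : Continuous om) (ha : ∀ i, Continuous (a i))
    (ha' : ∀ i, Continuous (a' i)) (h : ∀ p ∈ S, p ∈ tsupport om → om p = 0 →
      ∀ s ∈ Icc (0 : ℝ) 1, ∃ i, (1 - s) * a i p + s * a' i p ≠ 0)
    (he : Ess (fun q : S => om q) fun i q => a i q) : Ess (fun q : S => om q) fun i q => a' i q := by
  have : CompactSpace S := isCompact_iff_compactSpace.1 hS.isCompact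
  exact h1 S k _ _ _ (ho.comp continuous_subtype_val) (HasCompactSupport.of_compactSpace _)
    (fun i => (ha i).comp continuous_subtype_val) (fun i => (ha' i).comp continuous_subtype_val)
    (fun q hq h0 => h q q.2 (mem_tsupport_val hq) h0) he

theorem exists_ne_of_sum_sq {k : ℕ} {v : Fin k → ℝ} {η : ℝ} (hη : 0 < η) (h : η ≤ ∑ i, v i ^ 2) :
    ∃ i, v i ≠ 0 := by
  by_contra h'
  push Not at h'
  simp only [h', ne_eq, OfNat.ofNat_ne_zero, not_false_eq_true, zero_pow,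
    Finset.sum_const_zero] at h
  linarith

theorem tst_mul {d m : ℕ} {M : Imm d ι X} {S B : Set X} {N : Imm m ι ↥(S \ B)}
    (hx : ∀ q, N.x q = M.x q) (hS : IsClosed S) {om χ : X → ℝ} (ho : M.Sm om) (hχ : M.Sm χ)
    (hd : Disjoint (tsupport χ) B) : N.Tst fun q => om q * χ q := by
  refine ⟨(ho.mul hχ).res (Loc.of_cont continuous_subtype_val hx), ?_⟩
  have h1 : IsCompact (Subtype.val ⁻¹' tsupport χ : Set ↥(S \ B)) := by
    rw [Subtype.isCompact_iff, Subtype.image_preimage_coe]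
    have : (S \ B) ∩ tsupport χ = S ∩ tsupport χ := by
      ext p
      exact ⟨fun h => ⟨h.1.1, h.2⟩, fun h => ⟨⟨h.1, Set.disjoint_left.1 hd h.2⟩, h.2⟩⟩
    rw [this]
    exact (hS.inter (isClosed_tsupport χ)).isCompact
  refine h1.of_isClosed_subset (isClosed_tsupport _) fun q hq => ?_
  exact tsupport_mul_subset_right (f := om) (g := χ)
    (mem_tsupport_val (om := fun p => om p * χ p) hq)

theorem K_aux {o G g c cs b C : ℝ} (h : o ^ 2 + o ^ 4 + |G| + |G| * o ^ 4 + 2 * g + 2 * g * |o| +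
    c + c * |o| + b ≤ C) (h1 : 0 ≤ c) (h2 : 0 ≤ b) (h3 : cs ≤ c * |o|) (h8 : 0 ≤ g) :
    o ^ 2 ≤ C + 1 ∧ o ^ 4 ≤ C + 1 ∧ |G| ≤ C + 1 ∧ |G| * o ^ 4 ≤ C + 1 ∧
      2 * g * |o| ≤ (C + 1) * |o| ∧ 2 * g * |o| ≤ C + 1 ∧ cs ≤ (C + 1) * |o| ∧ cs ≤ C + 1 ∧
      b ≤ C + 1 := by
  have h4 : 0 ≤ o ^ 2 := by positivity
  have h5 : 0 ≤ o ^ 4 := by positivity
  have h6 := abs_nonneg G
  have h7 : 0 ≤ |G| * o ^ 4 := by positivity
  have h9 : 0 ≤ 2 * g * |o| := by positivity
  have h10 : 0 ≤ c * |o| := by positivity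
  exact ⟨by linarith, by linarith, by linarith, by linarith,
    mul_le_mul_of_nonneg_right (by linarith) (abs_nonneg _), by linarith,
    h3.trans (mul_le_mul_of_nonneg_right (by linarith) (abs_nonneg _)), by linarith, by linarith⟩

/-- common bounds -/
theorem exists_K {d k : ℕ} {M : Imm d ι X} {G om : X → ℝ} {b : Fin k → X → ℝ} (hG : M.Sm G)
    (ho : M.Sm om) (hb : ∀ i, M.Sm (b i)) : ∃ K : ℝ, 1 ≤ K ∧ ∀ p, om p ^ 2 ≤ K ∧ om p ^ 4 ≤ K ∧
      |G p| ≤ K ∧ |G p| * om p ^ 4 ≤ K ∧ ‖M.grad (fun q => om q ^ 2) p‖ ≤ K * |om p| ∧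
      ‖M.grad (fun q => om q ^ 2) p‖ ≤ K ∧ ∑ i, M.cost om (b i) p ≤ K * |om p| ∧
      ∑ i, M.cost om (b i) p ≤ K ∧ ∑ i, |b i p| ≤ K := by
  have hc := ho.continuous
  have hg := ho.grad.continuous
  have hbc := fun i => (hb i).continuous
  have hbg := fun i => (hb i).grad.continuous
  have hGc := hG.continuous
  let c : X → ℝ := fun p => ∑ i, 2 * (|om p| * ‖M.grad (b i) p‖ + 2 * |b i p| * ‖M.grad om p‖)
  have hcc : Continuous c := continuous_finsetSum _ fun i _ => by fun_prop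
  have hbs : Continuous fun p => ∑ i, |b i p| := continuous_finsetSum _ fun i _ => by fun_prop
  let f : X → ℝ := fun p => om p ^ 2 + om p ^ 4 + |G p| + |G p| * om p ^ 4 + 2 * ‖M.grad om p‖ +
    2 * ‖M.grad om p‖ * |om p| + c p + c p * |om p| + ∑ i, |b i p|
  have hf : Continuous f := by fun_prop
  obtain ⟨C, hC0, hC⟩ := Imm.exists_bound hf
  refine ⟨C + 1, by linarith, fun p => ?_⟩
  have h0 : f p ≤ C := (le_abs_self _).trans (hC p)
  have h1 : 0 ≤ c p := Finset.sum_nonneg fun i _ => by positivity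
  have h2 : 0 ≤ ∑ i, |b i p| := Finset.sum_nonneg fun i _ => abs_nonneg _
  have h3 : ∑ i, M.cost om (b i) p ≤ c p * |om p| := by
    rw [Finset.sum_mul]
    exact Finset.sum_le_sum fun i _ => cost_le (ho.diffAt p) _
  have h0' : om p ^ 2 + om p ^ 4 + |G p| + |G p| * om p ^ 4 + 2 * ‖M.grad om p‖ +
    2 * ‖M.grad om p‖ * |om p| + c p + c p * |om p| + ∑ i, |b i p| ≤ C := h0
  rw [norm_grad_sq (ho.diffAt p)]
  exact K_aux h0' h1 h2 h3 (norm_nonneg _)

/-- the generic translation -/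
theorem perturb (hG : GenStmt) (h1 : Ess1Stmt) {d k : ℕ} {M : Imm d ι X} {G om : X → ℝ}
    {a : Fin (k + 1) → X → ℝ} {S B : Set X} {s : ℝ} (hM : Injective M.x) (hGs : M.Sm G)
    (ho : M.Sm om) (ha : ∀ i, M.Sm (a i)) (hS : IsClosed S) (hB : IsClosed B)
    (hN : M.Nets (k + 1) B) (hs : 0 < s)
    (hI : ∀ p ∈ S, p ∈ tsupport om →
      s + ∑ i, M.cost om (a i) p ≤ G p * om p ^ 4 + ∑ i, a i p ^ 2)
    (he : Ess (fun q : S => om q) fun i q => a i q) :
    ∃ (b : Fin (k + 1) → X → ℝ) (η t : ℝ), (∀ i, M.Sm (b i)) ∧ 0 < η ∧ 0 < t ∧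
      (∀ p ∈ S, p ∈ tsupport om →
        s / 2 + ∑ i, M.cost om (b i) p ≤ G p * om p ^ 4 + ∑ i, b i p ^ 2) ∧
      Ess (fun q : S => om q) (fun i q => b i q) ∧
      ∀ p, ∀ q ∈ B, ‖M.x p - M.x q‖ ≤ t → η ≤ ∑ i : Fin k, b i.succ p ^ 2 := by
  obtain ⟨K, hK1, hK⟩ := exists_K hGs ho ha
  set ε := s / (4 * (k + 2) * K) with hε
  have hε0 : 0 < ε := by positivity
  have hεs : 2 * (k + 2) * K * ε = s / 2 := by rw [hε]; field_simp; ring
  -- the inequality persists
  have key : ∀ ξ : Fin (k + 1) → ℝ, (∀ i, |ξ i| ≤ ε) → ∀ p ∈ S, p ∈ tsupport om →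
      s / 2 + ∑ i, M.cost om (fun q => a i q + ξ i) p ≤
        G p * om p ^ 4 + ∑ i, (a i p + ξ i) ^ 2 := by
    intro ξ hξ p hp hp'
    obtain ⟨-, -, -, -, -, hg, -, -, hb⟩ := hK p
    have h2 : ∑ i, M.cost om (fun q => a i q + ξ i) p ≤
        ∑ i, (M.cost om (a i) p + 2 * ε * K) := Finset.sum_le_sum fun i _ => by
      have h3 := cost_add_le om ((ha i).diffAt p) ((Imm.sm_const (ξ i)).diffAt p)
      rw [grad_const, norm_zero] at h3
      have h4 : |ξ i| * ‖M.grad (fun q => om q ^ 2) p‖ ≤ ε * K :=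
        mul_le_mul (hξ i) hg (norm_nonneg _) hε0.le
      linarith
    have h3 : ∑ i, (a i p ^ 2 - 2 * ε * |a i p|) ≤ ∑ i, (a i p + ξ i) ^ 2 :=
      Finset.sum_le_sum fun i _ => by
        have h4 : |a i p * ξ i| ≤ |a i p| * ε := by
          rw [abs_mul]; exact mul_le_mul_of_nonneg_left (hξ i) (abs_nonneg _)
        nlinarith [neg_abs_le (a i p * ξ i), sq_nonneg (ξ i)]
    rw [Finset.sum_add_distrib, Finset.sum_const, Finset.card_univ, Fintype.card_fin,
      nsmul_eq_mul] at h2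
    rw [Finset.sum_sub_distrib, ← Finset.mul_sum] at h3
    have h4 : 2 * ε * ∑ i, |a i p| ≤ 2 * ε * K := mul_le_mul_of_nonneg_left hb (by positivity)
    have h5 := hI p hp hp'
    push_cast at h2
    nlinarith
  obtain ⟨ξ, hξ, η, t, hη, ht, hgen⟩ := hG _ _ _ M inferInstance hM k B a hB hN ha ε hε0
  refine ⟨fun i p => a i p + ξ i, η, t, fun i => (ha i).add (Imm.sm_const _), hη, ht, key ξ hξ,
    ess1_sub h1 hS ho.continuous (fun i => (ha i).continuous)
      (fun i => (ha i).continuous.add continuous_const) (fun p hp hp' h0 r hr => ?_) he, hgen⟩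
  have h2 := key (fun i => r * ξ i) (fun i => by
    rw [abs_mul, abs_of_nonneg hr.1]
    exact (mul_le_of_le_one_left (abs_nonneg _) hr.2).trans (hξ i)) p hp hp'
  have h3 : 0 ≤ ∑ i, M.cost om (fun q => a i q + r * ξ i) p :=
    Finset.sum_nonneg fun i _ => cost_nonneg _ _ _
  rw [h0] at h2
  obtain ⟨i, hi⟩ := exists_ne_of_sum_sq (η := s / 2) (v := fun i => a i p + r * ξ i)
    (by positivity) (by linarith)
  refine ⟨i, fun h => hi ?_⟩
  have h' : (1 - r) * a i p + r * (a i p + ξ i) = 0 := h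
  linarith

/-- the total cost of the shielded map -/
theorem cost_total {d m k : ℕ} {M : Imm d ι X} {S : Set X} {N : Imm m ι S}
    (hx : ∀ q, N.x q = M.x q) {om χ w : X → ℝ} {b : Fin (k + 1) → X → ℝ} {lam lam' : ℝ → ℝ}
    (ho : M.Sm om) (hχ : M.Sm χ) (hw : M.Sm w) (hb : ∀ i, M.Sm (b i))
    (hd : ∀ l, HasDerivAt lam (lam' l) l) (h0 : ∀ l, 0 ≤ lam l ∧ 0 ≤ lam' l) {K : ℝ} (q : S)
    (hw0 : 0 < w q) (hχ0 : 0 ≤ χ q) (hK : ∑ i, |b i q| ≤ K) :
    ∑ i, N.cost (fun q => om q * χ q) (fun q => (Fin.cons (fun p => b 0 p + lam (Real.log (w p)))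
      (fun i => b i.succ) : Fin (k + 1) → X → ℝ) i q) q ≤
      χ q ^ 2 * (∑ i, M.cost om (b i) q + 2 * om q ^ 2 *
        (lam' (Real.log (w q)) * (‖N.grad (fun q => w q) q‖ / w q)) +
        2 * lam (Real.log (w q)) * ‖M.grad (fun q => om q ^ 2) q‖) +
      4 * om q ^ 2 * χ q * √(M.pre.gam χ χ q) * (K + lam (Real.log (w q))) := by
  have hl := Loc.of_cont (N := N) (M := M) continuous_subtype_val hx
  have hres : ∀ {f : X → ℝ}, M.Sm f → ‖N.grad (fun q => f q) q‖ ≤ ‖M.grad f q‖ := fun hf => by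
    rw [(hl q).grad (hf.diffAt _)]; exact N.norm_PL_le _ _
  have hoN := (ho.res hl).diffAt q
  have hwN := (hw.res hl).diffAt q
  set a' : Fin (k + 1) → X → ℝ := Fin.cons (fun p => b 0 p + lam (Real.log (w p)))
    (fun i => b i.succ) with ha'
  have hdl : HasDerivAt (fun y => lam (Real.log y)) (lam' (Real.log (w q)) * (w q)⁻¹) (w q) :=
    HasDerivAt.comp (w q : ℝ) (hd _) (Real.hasDerivAt_log hw0.ne')
  have h1 : ∑ i, N.cost (fun q => om q) (fun q => a' i q) q ≤ ∑ i, M.cost om (b i) q +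
      2 * om q ^ 2 * (lam' (Real.log (w q)) * (‖N.grad (fun q => w q) q‖ / w q)) +
      2 * lam (Real.log (w q)) * ‖M.grad (fun q => om q ^ 2) q‖ := by
    have h2 := cost_add_le (fun q : S => om q) (((hb 0).res hl).diffAt q)
      (hwN.comp hdl.differentiableAt)
    rw [grad_comp hwN hdl, norm_smul, Real.norm_eq_abs,
      abs_of_nonneg (mul_nonneg (h0 _).2 (inv_pos.2 hw0).le), abs_of_nonneg (h0 _).1] at h2
    have h3 : ∑ i : Fin k, N.cost (fun q => om q) (fun q => b i.succ q) q ≤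
        ∑ i : Fin k, M.cost om (b i.succ) q :=
      Finset.sum_le_sum fun i _ => (hl q).cost_le (ho.diffAt _) ((hb _).diffAt _)
    have h4 := (hl q).cost_le (ho.diffAt _) ((hb 0).diffAt _)
    have h5 := mul_le_mul_of_nonneg_left (hres (ho.pow 2)) (h0 (Real.log (w q))).1
    rw [Fin.sum_univ_succ, Fin.sum_univ_succ]
    simp only [ha', Fin.cons_zero, Fin.cons_succ]
    rw [div_eq_mul_inv]
    linarith
  have h2 : ∑ i, |a' i q| ≤ K + lam (Real.log (w q)) := by
    rw [Fin.sum_univ_succ] at hK ⊢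
    simp only [ha', Fin.cons_zero, Fin.cons_succ]
    have := abs_add_le (b 0 q) (lam (Real.log (w q)))
    rw [abs_of_nonneg (h0 _).1] at this
    linarith
  have h3 : ‖N.grad (fun q => χ q) q‖ ≤ √(M.pre.gam χ χ q) := by
    rw [Imm.gam_self_eq, Real.sqrt_sq (norm_nonneg _)]; exact hres hχ
  have h4 : ∑ i, N.cost (fun q => om q * χ q) (fun q => a' i q) q ≤
      ∑ i, (χ q ^ 2 * N.cost (fun q => om q) (fun q => a' i q) q +
        4 * om q ^ 2 * χ q * √(M.pre.gam χ χ q) * |a' i q|) := Finset.sum_le_sum fun i _ => by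
    have h5 := cost_mul_le hoN ((hχ.res hl).diffAt q) fun q => a' i q
    rw [abs_of_nonneg hχ0] at h5
    have h6 : 4 * om q ^ 2 * χ q * ‖N.grad (fun q => χ q) q‖ * |a' i q| ≤
        4 * om q ^ 2 * χ q * √(M.pre.gam χ χ q) * |a' i q| := by gcongr
    exact h5.trans (by linarith)
  rw [Finset.sum_add_distrib, ← Finset.mul_sum, ← Finset.mul_sum] at h4
  refine h4.trans (add_le_add (mul_le_mul_of_nonneg_left h1 (sq_nonneg _)) ?_)
  exact mul_le_mul_of_nonneg_left h2 (by positivity)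

theorem sm_V {m : ℕ} {Y : Type} [TopologicalSpace Y] {N : Imm m ι Y} {F G w : Y → ℝ} (hF : N.Sm F)
    (hG : N.Sm G) (hw : N.Sm w) (h0 : ∀ q, 0 < w q) :
    N.Sm fun q => G q - N.pre.lapF F w q / w q + N.pre.gam w w q / (2 * w q ^ 2) :=
  (hG.sub ((hF.lapF hw).div hw fun q => (h0 q).ne')).add
    ((hw.gam hw).div ((Imm.sm_const 2).mul (hw.pow 2)) fun q => by have := h0 q; positivity)

theorem shield_zero (hW : WeightStmt) (h3 : Ess3Stmt) {M : Imm (0 + 1) ι X} {F G om : X → ℝ}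
    {a : Fin 0 → X → ℝ} {S B : Set X} {N : Imm 0 ι ↥(S \ B)} {s : ℝ} (hF : M.Sm F) (hG : M.Sm G)
    (ho : M.Sm om) (hS : IsClosed S) (hsl : Slice M F G S B N) (hs : 0 < s)
    (hI : ∀ p ∈ S, p ∈ tsupport om →
      s + ∑ i, M.cost om (a i) p ≤ G p * om p ^ 4 + ∑ i, a i p ^ 2)
    (he : Ess (fun q : S => om q) fun i q => a i q) : ∃ V om' a', N.FormData V om' a' := by
  have hl := Loc.of_cont (N := N) (M := M) continuous_subtype_val hsl.x
  have hB : B = ∅ := by
    obtain ⟨C, hC⟩ := hsl.nets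
    refine eq_empty_of_forall_notMem fun p hp => ?_
    have hC1 : 0 < |C| + 1 := by positivity
    have hr1 : (|C| + 1)⁻¹ ≤ 1 := inv_le_one_of_one_le₀ (by linarith [abs_nonneg C])
    obtain ⟨t, -, ht, hc⟩ := hC _ (inv_pos.2 hC1) hr1
    obtain ⟨q, hq, -⟩ := hc p hp
    have h1 : (1 : ℝ) ≤ t.card := by exact_mod_cast Finset.card_pos.2 ⟨q, hq⟩
    have h2 : (|C| + 1)⁻¹ ^ 4 ≤ (|C| + 1)⁻¹ := pow_le_of_le_one (by positivity) hr1 (by decide)
    have h4 : C * (|C| + 1)⁻¹ ^ 4 ≤ |C| * (|C| + 1)⁻¹ :=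
      mul_le_mul (le_abs_self C) h2 (by positivity) (abs_nonneg C)
    have h5 : |C| * (|C| + 1)⁻¹ < 1 := by
      rw [← div_eq_mul_inv, div_lt_one hC1]; linarith
    rw [pow_zero] at ht
    linarith
  have hd : Disjoint (tsupport fun _ : X => (1 : ℝ)) B := by rw [hB]; exact disjoint_empty _
  have h1 : N.Sm fun _ => (1 : ℝ) := Imm.sm_const 1
  refine ⟨_, fun q => om q * (fun _ : X => (1 : ℝ)) q, fun i q => a i q,
    sm_V (hF.res hl) (hG.res hl) h1 fun _ => one_pos, tst_mul hsl.x hS ho (Imm.sm_const 1) hd,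
    fun i => i.elim0, hW _ _ _ N _ _ _ (hF.res hl) (hG.res hl) h1 (fun _ => one_pos) hsl.form,
    ⟨s, hs, fun q hq => ?_⟩, h3 X 0 om _ a S B ho.continuous continuous_const (fun i => i.elim0) hd
      (fun _ _ _ h => absurd h one_ne_zero) he⟩
  have hD : ∀ c, N.pre.D c (fun _ => (1 : ℝ)) = fun _ => 0 := fun c => funext (Imm.D_const 1 c)
  have h2 := hI q q.2.1 (subset_tsupport _ (by simpa using hq))
  simpa [Imm.lapF_apply, Imm.lap_apply, Imm.gam_apply, hD, Imm.D_const] using h2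

theorem shield_succ (hGen : GenStmt) (hR : RieszStmt) (hW : WeightStmt) (h1 : Ess1Stmt)
    (h3 : Ess3Stmt) {k : ℕ} {M : Imm (k + 1 + 1) ι X} {F G om : X → ℝ}
    {a : Fin (k + 1) → X → ℝ} {S B : Set X} {N : Imm (k + 1) ι ↥(S \ B)} {s : ℝ}
    (hM : Injective M.x) (hF : M.Sm F) (hG : M.Sm G) (ho : M.Sm om) (ha : ∀ i, M.Sm (a i))
    (hS : IsClosed S) (hsl : Slice M F G S B N) (hs : 0 < s)
    (hI : ∀ p ∈ S, p ∈ tsupport om →
      s + ∑ i, M.cost om (a i) p ≤ G p * om p ^ 4 + ∑ i, a i p ^ 2)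
    (he : Ess (fun q : S => om q) fun i q => a i q) : ∃ V om' a', N.FormData V om' a' := by
  have hl := Loc.of_cont (N := N) (M := M) continuous_subtype_val hsl.x
  obtain ⟨b, η, t0, hb, hη, ht0, hIb, heb, hgen⟩ :=
    perturb hGen h1 hM hG ho ha hS hsl.closed hsl.nets hs hI he
  obtain ⟨K, hK1, hK⟩ := exists_K hG ho hb
  obtain ⟨lam, lam', Λ, κ, hκ, hΛ, hlam, hd, hl0, hl1, hl2, hl3⟩ :=
    exists_lam (√η / 4) (54 * K + 9) (by positivity)
  obtain ⟨V1, hV1, hyoung⟩ := exists_young (K * (1 + 2 * Λ)) hη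
  obtain ⟨C, c, hc, hRz⟩ := hR _ _ _ M F G S B N hM hF hsl
  obtain ⟨t2, ht2, ht21, htw⟩ := exists_t2 hc hκ
    (D := κ + Λ + 1 + 54 * K + 9 + 72 * K * |C|) (by positivity)
  obtain ⟨t1, w, χ, ht1, ht12, hw, hχ, hw1, hdis, hχ01, hgχ, hbig, hnear, hlap⟩ :=
    hRz (s / (4 * K)) (K + V1) t0 t2 (by positivity) ht0 ht2
  have hw0 : ∀ p, 0 < w p := fun p => zero_lt_one.trans_le (hw1 p)
  -- where the profile lives
  have hlt : ∀ p, w p < 2 → lam (Real.log (w p)) = 0 ∧ lam' (Real.log (w p)) = 0 := fun p hp =>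
    hl1 _ (by linarith [Real.log_le_sub_one_of_pos (hw0 p)])
  have hη2 : ∀ p, 2 ≤ w p → η ≤ ∑ i : Fin k, b i.succ p ^ 2 := fun p hp => by
    obtain ⟨q, hq, hpq⟩ := hnear p hp
    exact hgen p q hq hpq
  have hcut : ∀ p, χ p ≠ 1 ∨ M.pre.gam χ χ p ≠ 0 →
      Λ + 1 + (54 * K + 9 + 72 * K * √(M.pre.gam χ χ p)) ≤ lam (Real.log (w p)) := fun p hp => by
    have e1 := htw t1 _ ht1 ht12 (hbig p hp)
    have e2 := hl3 (Real.log (w p))
    have e3 : √(M.pre.gam χ χ p) ≤ |C| / t1 :=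
      (hgχ p).trans (div_le_div_of_nonneg_right (le_abs_self C) ht1.le)
    have e4 : κ + Λ + 1 + 54 * K + 9 ≤ (κ + Λ + 1 + 54 * K + 9) / t1 :=
      le_div_self (by positivity) ht1 (ht12.trans ht21)
    have e5 : 72 * K * √(M.pre.gam χ χ p) ≤ 72 * K * (|C| / t1) :=
      mul_le_mul_of_nonneg_left e3 (by positivity)
    rw [add_div, mul_div_assoc] at e1
    linarith
  have hcut2 : ∀ p, χ p ≠ 1 ∨ M.pre.gam χ χ p ≠ 0 → 2 ≤ w p := fun p hp => by
    by_contra h
    have e1 := hcut p hp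
    have e2 : 0 ≤ 72 * K * √(M.pre.gam χ χ p) := by positivity
    rw [(hlt p (not_le.1 h)).1] at e1
    linarith
  set a' : Fin (k + 1) → X → ℝ := Fin.cons (fun p => b 0 p + lam (Real.log (w p)))
    (fun i => b i.succ) with ha'
  have ha's : ∀ i, M.Sm (a' i) := fun i => Fin.cases
    ((hb 0).add ((hw.log fun p => (hw0 p).ne').comp hlam)) (fun i => hb i.succ) i
  have hne : ∀ p, 2 ≤ w p → ∃ i : Fin k, b i.succ p ≠ 0 := fun p hp =>
    exists_ne_of_sum_sq hη (hη2 p hp)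
  have hea : Ess (fun q : S => om q) fun i q => a' i q := by
    refine ess1_sub h1 hS ho.continuous (fun i => (hb i).continuous) (fun i => (ha's i).continuous)
      (fun p hp hp' h0 r _ => ?_) heb
    rcases lt_or_ge (w p) 2 with h | h
    · have e1 := hIb p hp hp'
      have e2 : 0 ≤ ∑ i, M.cost om (b i) p := Finset.sum_nonneg fun i _ => cost_nonneg _ _ _
      rw [h0] at e1
      obtain ⟨i, hi⟩ := exists_ne_of_sum_sq (η := s / 2) (v := fun i => b i p) (by positivity)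
        (by linarith)
      have e3 : a' i p = b i p := Fin.cases (by simp [ha', (hlt p h).1]) (fun i => by simp [ha']) i
      exact ⟨i, fun h' => hi (by rw [e3] at h'; linarith)⟩
    · obtain ⟨i, hi⟩ := hne p h
      exact ⟨i.succ, fun h' => hi (by simp only [ha', Fin.cons_succ] at h'; linarith)⟩
  refine ⟨_, fun q => om q * χ q, fun i q => a' i q,
    sm_V (hF.res hl) (hG.res hl) (hw.res hl) fun q => hw0 q, tst_mul hsl.x hS ho hχ hdis,
    fun i => (ha's i).res hl,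
    hW _ _ _ N _ _ _ (hF.res hl) (hG.res hl) (hw.res hl) (fun q => hw0 q) hsl.form,
    ⟨min (s / 4) (min (η / 4) 1), by positivity, fun q hq => ?_⟩,
    h3 X _ om χ a' S B ho.continuous hχ.continuous (fun i => (ha's i).continuous) hdis
      (fun p _ _ h0 => ?_) hea⟩
  swap
  · obtain ⟨i, hi⟩ := hne p (hcut2 p (Or.inl (by rw [h0]; exact zero_ne_one)))
    exact ⟨i.succ, by simpa only [ha', Fin.cons_succ] using hi⟩
  obtain ⟨k1, k2, k3, k4, k5, k6, k7, k8, k9⟩ := hK q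
  have hT := cost_total hsl.x ho hχ hw hb hd hl0 q (hw0 q) (hχ01 q).1 k9
  have hI' := hIb q q.2.1 (subset_tsupport _ (left_ne_zero_of_mul hq))
  obtain ⟨hZ1, hZ2⟩ := hlap q
  have hQ : ∑ i, a' i q ^ 2 =
      (b 0 q + lam (Real.log (w q))) ^ 2 + ∑ i : Fin k, b i.succ q ^ 2 := by
    rw [Fin.sum_univ_succ]; simp only [ha', Fin.cons_zero, Fin.cons_succ]
  have hV : G q - N.pre.lapF (fun q => F q) (fun q => w q) q / w q +
      N.pre.gam (fun q => w q) (fun q => w q) q / (2 * w q ^ 2) =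
      G q + -N.pre.lapF (fun q => F q) (fun q => w q) q / w q +
        (‖N.grad (fun q => w q) q‖ / w q) ^ 2 / 2 := by
    rw [Imm.gam_self_eq]; have := (hw0 q).ne'; field_simp; ring
  have hZ3 : 2 ≤ w q → K + V1 ≤ -N.pre.lapF (fun q => F q) (fun q => w q) q / w q := fun h =>
    (le_div_iff₀ (hw0 q)).2 (hZ2 h)
  have hb0 : |b 0 q| ≤ K := by
    rw [Fin.sum_univ_succ] at k9
    linarith [Finset.sum_nonneg (s := Finset.univ) fun (i : Fin k) _ => abs_nonneg (b i.succ q)]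
  have hB0 : 0 ≤ ∑ i : Fin k, b i.succ q ^ 2 := Finset.sum_nonneg fun i _ => sq_nonneg _
  have hs1 : min (s / 4) (min (η / 4) 1) ≤ 1 := (min_le_right _ _).trans (min_le_right _ _)
  simp only []
  rw [hQ, hV]
  by_cases hp : χ q ≠ 1 ∨ M.pre.gam χ χ q ≠ 0
  · have e1 := hcut q hp
    have e2 : 0 ≤ 72 * K * √(M.pre.gam χ χ q) := by positivity
    rcases hl2 (Real.log (w q)) with h | h
    · linarith [h.2]
    · exact regC hT (by linarith [hZ3 (hcut2 q hp)]) hB0 (hl0 _).2 h.2 (by linarith)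
        (Real.sqrt_nonneg _) (hχ01 q).1 (hχ01 q).2 k8 k6 hK1 k1 k4 hb0 hs1
  push Not at hp
  rcases lt_or_ge (w q) 2 with h2 | h2
  · rw [hp.1, hp.2, (hlt q h2).1, (hlt q h2).2] at hT
    rw [hp.1, mul_one, (hlt q h2).1, add_zero, ← Fin.sum_univ_succ fun i => b i q ^ 2]
    refine regA (cs := ∑ i, M.cost om (b i) q) (δ := s / (4 * K)) (by simpa using hT) hI'
      ((le_div_iff₀ (hw0 q)).2 hZ1) ?_ ((min_le_left _ _).trans (by linarith))
    calc s / (4 * K) * om q ^ 4 ≤ s / (4 * K) * K := mul_le_mul_of_nonneg_left k2 (by positivity)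
      _ = s / 2 / 2 := by field_simp; ring
  rcases hl2 (Real.log (w q)) with h | h
  · rw [hp.1, hp.2] at hT
    rw [hp.1, mul_one]
    refine regB (by simpa using hT) (hZ3 h2) (hη2 q h2) ?_ (hl0 _).1 h.2 k7 k5 (by linarith) k3
      (hyoung _) ((min_le_right _ _).trans (min_le_left _ _))
    have e1 := pow_le_pow_left₀ (hl0 _).2 h.1 2
    have e2 := Real.sq_sqrt hη.le
    nlinarith
  · exact regC hT (by linarith [hZ3 h2]) hB0 (hl0 _).2 h.2 (by rw [hp.2]; simpa using h.1)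
      (Real.sqrt_nonneg _) (hχ01 q).1 (hχ01 q).2 k8 k6 hK1 k1 k4 hb0 hs1

end Crest.Agent.N222.Sh

namespace Crest.Agent.N222

theorem shield (hGen : GenStmt) (hR : RieszStmt) (hW : WeightStmt) (h1 : Ess1Stmt)
    (h3 : Ess3Stmt) : ShieldStmt := by
  intro m ι _ _ X _ _ _ _ _ _ M F G om a S B N s hM hF hG ho ha hS hsl hs hI he
  cases m with
  | zero => exact Sh.shield_zero hW h3 hF hG ho hS hsl hs hI he
  | succ k => exact Sh.shield_succ hGen hR hW h1 h3 hM hF hG ho ha hS hsl hs hI he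

end Crest.Agent.N222

end
end

-- ▼ part N222/B/Gen

/-!
# Row 222, part B: GEN, a small translation avoids the image of a thin set (helper38)
-/

set_option autoImplicit false
set_option linter.unusedSectionVars false
open MeasureTheory Set Filter Topology Function Metric
open scoped ContDiff ENNReal

noncomputable section

namespace Crest.Agent.N222

namespace Gn

variable {d : ℕ} {ι : Type} [Fintype ι] [DecidableEq ι] {X : Type} [TopologicalSpace X]
  [MeasurableSpace X] {M : Imm d ι X}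

/-- Lipschitz images of thin sets are null -/
theorem null {k : ℕ} {B : Set X} (hB : M.Nets (k + 1) B) {A : X → Fin k → ℝ} {L : ℝ} (hL : 0 < L)
    (hA : ∀ p q, ‖A p - A q‖ ≤ L * ‖M.x p - M.x q‖) : volume (A '' B) = 0 := by
  obtain ⟨C, hC⟩ := hB
  have h1 : ∀ r : ℝ, 0 < r → r ≤ 1 →
      volume (A '' B) ≤ ENNReal.ofReal (C * (2 * L) ^ k * r ^ 3) := by
    intro r hr hr1
    obtain ⟨s, -, hs, hc⟩ := hC r hr hr1
    have h2 : A '' B ⊆ ⋃ q ∈ s, closedBall (A q) (L * r) := by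
      rintro _ ⟨p, hp, rfl⟩
      obtain ⟨q, hq, h⟩ := hc p hp
      refine mem_biUnion hq ?_
      rw [mem_closedBall, dist_eq_norm]
      exact (hA p q).trans (mul_le_mul_of_nonneg_left h hL.le)
    refine (measure_mono h2).trans ((measure_biUnion_finset_le _ _).trans ?_)
    simp only [Real.volume_pi_closedBall _ (by positivity : 0 ≤ L * r), Finset.sum_const,
      Fintype.card_fin, nsmul_eq_mul]
    rw [← ENNReal.ofReal_natCast, ← ENNReal.ofReal_mul (Nat.cast_nonneg _)]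
    refine ENNReal.ofReal_le_ofReal ?_
    have h3 : (s.card : ℝ) * r ^ k ≤ C * r ^ 3 :=
      le_of_mul_le_mul_right (by
        rw [mul_assoc, mul_assoc, ← pow_succ, ← pow_succ]; exact hs) hr
    have h4 := mul_le_mul_of_nonneg_left h3 (by positivity : 0 ≤ (2 * L) ^ k)
    calc (s.card : ℝ) * (2 * (L * r)) ^ k = (2 * L) ^ k * (s.card * r ^ k) := by
          rw [← mul_assoc 2, mul_pow]; ring
      _ ≤ _ := h4
      _ = _ := by ring
  have h5 : Tendsto (fun r : ℝ => ENNReal.ofReal (C * (2 * L) ^ k * r ^ 3)) (𝓝[>] 0) (𝓝 0) := by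
    have : Continuous fun r : ℝ => ENNReal.ofReal (C * (2 * L) ^ k * r ^ 3) :=
      ENNReal.continuous_ofReal.comp (by fun_prop)
    simpa using (this.tendsto 0).mono_left nhdsWithin_le_nhds
  refine le_antisymm (ge_of_tendsto h5 ?_) zero_le
  filter_upwards [Ioc_mem_nhdsGT zero_lt_one] with r hr using h1 r hr.1 hr.2

theorem norm_le_sqrt {k : ℕ} (v : Fin k → ℝ) : ‖v‖ ≤ √(∑ i, v i ^ 2) :=
  (pi_norm_le_iff_of_nonneg (Real.sqrt_nonneg _)).2 fun i => Real.abs_le_sqrt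
    (Finset.single_le_sum (f := fun i => v i ^ 2) (fun _ _ => sq_nonneg _) (Finset.mem_univ i))

end Gn

open Gn in
/-- GEN: a small translation moves the image of a thin set off the first axis -/
theorem gen : GenStmt := by
  intro d ι _ _ X _ _ _ _ _ M hX hM k B a hB hN ha ε hε
  have hA : M.Sm fun p (i : Fin k) => a i.succ p := fun p => contDiffOn_pi.2 fun i => ha i.succ p
  obtain ⟨L, hL, hl⟩ := hA.exists_lip hM
  have h0 := null hN hL hl
  have h1 : ¬ ball (0 : Fin k → ℝ) ε ⊆ (fun p (i : Fin k) => a i.succ p) '' B := fun h =>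
    (measure_ball_pos volume (0 : Fin k → ℝ) hε).ne' (measure_mono_null h h0)
  obtain ⟨y, hy, hyK⟩ := not_subset.1 h1
  obtain ⟨δ, hδ, hb⟩ := Metric.isOpen_iff.1
    (hB.isCompact.image hA.continuous).isClosed.isOpen_compl y hyK
  refine ⟨Fin.cons 0 (-y), fun i => ?_, (δ / 2) ^ 2, δ / 2 / L, by positivity, by positivity,
    fun p q hq h => ?_⟩
  · refine Fin.cases (by simpa using hε.le) (fun i => ?_) i
    simpa using (norm_le_pi_norm y i).trans (mem_ball_zero_iff.1 hy).le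
  · have h2 : δ ≤ ‖(fun i : Fin k => a i.succ q) - y‖ := by
      by_contra h3
      exact hb (by rw [mem_ball, dist_eq_norm]; exact not_le.1 h3) ⟨q, hq, rfl⟩
    have h3 := (hl p q).trans (mul_le_mul_of_nonneg_left h hL.le)
    rw [mul_div_cancel₀ _ hL.ne', norm_sub_rev] at h3
    have h4 := norm_sub_le_norm_sub_add_norm_sub (fun i : Fin k => a i.succ q)
      (fun i : Fin k => a i.succ p) y
    have h5 := norm_le_sqrt ((fun i : Fin k => a i.succ p) - y)
    have h6 : δ / 2 ≤ √(∑ i, ((fun i : Fin k => a i.succ p) - y) i ^ 2) := by linarith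
    have h7 := (Real.le_sqrt' (by positivity)).1 h6
    simpa [sub_eq_add_neg] using h7

end Crest.Agent.N222

end
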