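import Crest.Agent.N222.B.Defs
import Crest.Agent.N222.F.Meas

-- ▼ part N222/B/Mon
section

/-!
# Row 222, part B: the monotonicity identity (helper85)
-/

set_option autoImplicit false
set_option linter.unusedSectionVars false
open MeasureTheory Set Filter Topology Function Metric
open scoped ContDiff InnerProductSpace RealInnerProductSpace

noncomputable section

namespace Crest.Agent.N222

namespace Mn

theorem contDiff_Phi : ContDiff ℝ ∞ Phi :=
  Real.smoothTransition.contDiff.comp (by fun_prop)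

theorem Phi_nonneg (s : ℝ) : 0 ≤ Phi s := Real.smoothTransition.nonneg _

theorem Phi_eq_zero {s : ℝ} (h : 1 ≤ s) : Phi s = 0 :=
  Real.smoothTransition.zero_of_nonpos (by linarith)

theorem deriv_Phi_nonpos (s : ℝ) : deriv Phi s ≤ 0 :=
  Antitone.deriv_nonpos fun _ _ h => Real.smoothTransition.monotone (by linarith)

theorem hasDerivAt_Phi (s : ℝ) : HasDerivAt Phi (deriv Phi s) s :=
  (contDiff_Phi.differentiable (by simp) s).hasDerivAt

theorem continuous_dPhi : Continuous (deriv Phi) := contDiff_Phi.continuous_deriv (by simp)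

theorem hasDerivAt_Psi (s : ℝ) : HasDerivAt Psi (-Phi s) s :=
  intervalIntegral.integral_hasDerivAt_left (contDiff_Phi.continuous.intervalIntegrable _ _)
    (contDiff_Phi.continuous.stronglyMeasurableAtFilter _ _) contDiff_Phi.continuous.continuousAt

variable {d : ℕ} {ι : Type} [Fintype ι] [DecidableEq ι] {X : Type} [TopologicalSpace X]
  [T2Space X] [SecondCountableTopology X] [MeasurableSpace X] [BorelSpace X] [CompactSpace X]
  (M : Imm d ι X)

theorem intg {f : X → ℝ} (hf : Continuous f) : Integrable f M.mu :=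
  hf.integrable_of_hasCompactSupport (HasCompactSupport.of_compactSpace f)

theorem sm_sq (y : E ι) (r : ℝ) : M.Sm fun q => ‖M.x q - y‖ ^ 2 / r ^ 2 :=
  M.sm_x.comp (g := fun w => ‖w - y‖ ^ 2 / r ^ 2)
    (((contDiff_norm_sq ℝ).comp (contDiff_id.sub contDiff_const)).div_const _)

theorem continuous_Hv : Continuous M.Hv :=
  (Imm.sm_euclid.2 fun c => M.sm_H c : M.Sm M.Hv).continuous

theorem continuous_perp (y : E ι) : Continuous (M.perp y) :=
  ((M.continuous_x.sub continuous_const).sub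
    (M.sm_PL.continuous.clm_apply (M.continuous_x.sub continuous_const))).norm.pow 2

theorem perp_eq (y : E ι) (p : X) :
    M.perp y p = ‖M.x p - y‖ ^ 2 - ⟪M.PL p (M.x p - y), M.x p - y⟫ := by
  rw [Imm.perp, norm_sub_sq_real, ← real_inner_self_eq_norm_sq (M.PL p _), M.PL_symm, M.PL_PL,
    M.PL_symm]
  ring

theorem D_ker {g : ℝ → ℝ} {g' : ℝ} (y : E ι) (r : ℝ) (p : X)
    (hg : HasDerivAt g g' (‖M.x p - y‖ ^ 2 / r ^ 2)) (a : ι) :
    M.pre.D a (fun q => g (‖M.x q - y‖ ^ 2 / r ^ 2)) p =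
      g' * (2 * M.PL p (M.x p - y) a / r ^ 2) := by
  rw [Imm.D_comp ((sm_sq M y r).diffAt p) hg]
  congr 1
  have h1 : M.DiffAt (fun q => ‖M.x q - y‖ ^ 2) p := by
    simpa using (sm_sq M y 1).diffAt p
  simp only [div_eq_inv_mul]
  rw [Imm.D_const_mul _ h1, Imm.D_normSq]

theorem inner_eq_sum (v w : E ι) : ⟪v, w⟫ = ∑ a, v a * w a := by
  simp [PiLp.inner_apply, mul_comm]

/-- first variation for the radial field -/
theorem first_var {v : X → ℝ} (hv : M.Sm v) (y : E ι) {r : ℝ} (hr : 0 < r) :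
    -(r ^ 2 / 2) * (∫ p, M.pre.gam v (fun q => Psi (‖M.x q - y‖ ^ 2 / r ^ 2)) p ∂M.mu)
      + (∫ p, v p * (-2 * deriv Phi (‖M.x p - y‖ ^ 2 / r ^ 2)) * (M.perp y p / r ^ 2) ∂M.mu)
      + ∫ p, v p * Phi (‖M.x p - y‖ ^ 2 / r ^ 2) * ⟪M.x p - y, M.Hv p⟫ ∂M.mu =
    (∫ p, v p * (-2 * deriv Phi (‖M.x p - y‖ ^ 2 / r ^ 2)) * (‖M.x p - y‖ ^ 2 / r ^ 2) ∂M.mu) -
      d * ∫ p, v p * Phi (‖M.x p - y‖ ^ 2 / r ^ 2) ∂M.mu := by
  have hs := sm_sq M y r
  have hP : M.Sm fun q => Phi (‖M.x q - y‖ ^ 2 / r ^ 2) := hs.comp contDiff_Phi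
  have hx : ∀ c, M.Sm fun q => M.x q c - y c := fun c => (M.sm_coord c).sub (Imm.sm_const _)
  have hZ : ∀ c, M.Sm fun q => v q * Phi (‖M.x q - y‖ ^ 2 / r ^ 2) * (M.x q c - y c) :=
    fun c => (hv.mul hP).mul (hx c)
  have h1 := Finset.sum_congr (rfl : (Finset.univ : Finset ι) = _) fun c _ =>
    Imm.integral_D (hZ c).c1 (HasCompactSupport.of_compactSpace _) c
  rw [Finset.sum_neg_distrib, ← integral_finsetSum _ fun c _ => intg M ((hZ c).D c).continuous,
    ← integral_finsetSum _ fun c _ => intg M ((M.sm_H c).mul (hZ c)).continuous] at h1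
  have h2 : ∀ p, ∑ c, M.pre.H c p * (v p * Phi (‖M.x p - y‖ ^ 2 / r ^ 2) * (M.x p c - y c)) =
      v p * Phi (‖M.x p - y‖ ^ 2 / r ^ 2) * ⟪M.x p - y, M.Hv p⟫ := by
    intro p
    rw [inner_eq_sum, Finset.mul_sum]
    exact Finset.sum_congr rfl fun c _ => by rw [mul_comm, mul_assoc]; rfl
  have hdP := continuous_dPhi.comp hs.continuous
  have h3 : ∀ p, ∑ c, M.pre.D c (fun q => v q * Phi (‖M.x q - y‖ ^ 2 / r ^ 2) * (M.x q c - y c)) p =
      d * (v p * Phi (‖M.x p - y‖ ^ 2 / r ^ 2)) +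
        -(r ^ 2 / 2) * M.pre.gam v (fun q => Psi (‖M.x q - y‖ ^ 2 / r ^ 2)) p +
        v p * (-2 * deriv Phi (‖M.x p - y‖ ^ 2 / r ^ 2)) * (M.perp y p / r ^ 2) -
        v p * (-2 * deriv Phi (‖M.x p - y‖ ^ 2 / r ^ 2)) * (‖M.x p - y‖ ^ 2 / r ^ 2) := by
    intro p
    have e1 : ∀ c, M.pre.D c (fun q => M.x q c - y c) p = M.pre.P c c p := fun c => by
      rw [Imm.D_sub ((M.sm_coord c).diffAt p) ((Imm.sm_const _).diffAt p), Imm.D_const, sub_zero]
      rfl
    have e2 : ∑ c, M.pre.D c v p * M.PL p (M.x p - y) c = ∑ c, M.pre.D c v p * (M.x p c - y c) := by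
      have := M.PL_symm p (M.grad v p) (M.x p - y)
      rw [Imm.PL_grad, inner_eq_sum, inner_eq_sum] at this
      exact this.symm
    simp only [fun c => Imm.D_mul ((hv.mul hP).diffAt p) ((hx c).diffAt p) c,
      Imm.D_mul (hv.diffAt p) (hP.diffAt p), e1, D_ker M y r p (hasDerivAt_Phi _),
      Imm.gam_apply, D_ker M y r p (hasDerivAt_Psi _), perp_eq, inner_eq_sum, PiLp.sub_apply,
      Finset.sum_add_distrib, ← Finset.mul_sum, M.tr_P, add_mul]
    have e3 : ∑ c, M.pre.D c v p * (-Phi (‖M.x p - y‖ ^ 2 / r ^ 2) *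
        (2 * M.PL p (M.x p - y) c / r ^ 2)) = -Phi (‖M.x p - y‖ ^ 2 / r ^ 2) * (2 / r ^ 2) *
          ∑ c, M.pre.D c v p * (M.x p c - y c) := by
      rw [← e2, Finset.mul_sum]; exact Finset.sum_congr rfl fun c _ => by ring
    have e4 : ∑ c, v p * (deriv Phi (‖M.x p - y‖ ^ 2 / r ^ 2) *
        (2 * M.PL p (M.x p - y) c / r ^ 2)) * (M.x p c - y c) =
        v p * deriv Phi (‖M.x p - y‖ ^ 2 / r ^ 2) * (2 / r ^ 2) *
          ∑ c, M.PL p (M.x p - y) c * (M.x p c - y c) := by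
      rw [Finset.mul_sum]; exact Finset.sum_congr rfl fun c _ => by ring
    have e5 : ∑ c, M.pre.D c v p * Phi (‖M.x p - y‖ ^ 2 / r ^ 2) * (M.x p c - y c) =
        Phi (‖M.x p - y‖ ^ 2 / r ^ 2) * ∑ c, M.pre.D c v p * (M.x p c - y c) := by
      rw [Finset.mul_sum]; exact Finset.sum_congr rfl fun c _ => by ring
    rw [e3, e4, e5]
    field_simp
    ring
  have i1 := intg M (hv.mul hP).continuous
  have i2 : Integrable (M.pre.gam v fun q => Psi (‖M.x q - y‖ ^ 2 / r ^ 2)) M.mu := by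
    refine intg M ?_
    have : (M.pre.gam v fun q => Psi (‖M.x q - y‖ ^ 2 / r ^ 2)) = fun p => ∑ c, M.pre.D c v p *
        (-Phi (‖M.x p - y‖ ^ 2 / r ^ 2) * (2 * M.PL p (M.x p - y) c / r ^ 2)) := by
      funext p; simp only [Imm.gam_apply, D_ker M y r p (hasDerivAt_Psi _)]
    rw [this]
    refine continuous_finsetSum _ fun c _ => (hv.D c).continuous.mul (hP.continuous.neg.mul
      ((continuous_const.mul ?_).div_const _))
    exact (EuclideanSpace.proj c).continuous.comp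
      (M.sm_PL.continuous.clm_apply (M.continuous_x.sub continuous_const))
  have i3 := intg M ((hv.continuous.mul ((continuous_const (y := (-2 : ℝ))).mul hdP)).mul
    ((continuous_perp M y).div_const (r ^ 2)))
  have i4 := intg M ((hv.continuous.mul ((continuous_const (y := (-2 : ℝ))).mul hdP)).mul
    hs.continuous)
  simp only [h2, h3] at h1
  rw [integral_sub, integral_add, integral_add, integral_const_mul, integral_const_mul] at h1
  · linarith
  exacts [i1.const_mul _, i2.const_mul _, (i1.const_mul _).add (i2.const_mul _), i3,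
    ((i1.const_mul _).add (i2.const_mul _)).add i3, i4]

theorem hasDerivAt_int {v : X → ℝ} (hv : Continuous v) (y : E ι) {r : ℝ} (hr : 0 < r) :
    HasDerivAt (fun t : ℝ => ∫ p, v p * Phi (‖M.x p - y‖ ^ 2 / t ^ 2) ∂M.mu)
      ((∫ p, v p * (-2 * deriv Phi (‖M.x p - y‖ ^ 2 / r ^ 2)) * (‖M.x p - y‖ ^ 2 / r ^ 2) ∂M.mu) / r)
      r := by
  have hn : Continuous fun p => ‖M.x p - y‖ ^ 2 := (M.continuous_x.sub continuous_const).norm.pow 2
  set F' : ℝ → X → ℝ := fun t p =>
    v p * (-2 * deriv Phi (‖M.x p - y‖ ^ 2 / t ^ 2)) * (‖M.x p - y‖ ^ 2 / t ^ 2) / t with hF'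
  have hc : ContinuousOn (fun z : ℝ × X => F' z.1 z.2) (Icc (r / 2) (2 * r) ×ˢ univ) := by
    have h0 : ∀ z ∈ Icc (r / 2) (2 * r) ×ˢ (univ : Set X), z.1 ≠ 0 := fun z hz =>
      (lt_of_lt_of_le (half_pos hr) hz.1.1).ne'
    have h1 : ContinuousOn (fun z : ℝ × X => ‖M.x z.2 - y‖ ^ 2 / z.1 ^ 2)
        (Icc (r / 2) (2 * r) ×ˢ univ) :=
      (hn.comp continuous_snd).continuousOn.div (by fun_prop) fun z hz => pow_ne_zero _ (h0 z hz)
    exact (((hv.comp continuous_snd).continuousOn.mul (continuousOn_const.mul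
      (continuous_dPhi.comp_continuousOn h1))).mul h1).div continuousOn_fst h0
  obtain ⟨C, hC⟩ := (isCompact_Icc.prod isCompact_univ).exists_bound_of_continuousOn hc
  have hm : ∀ t : ℝ, Continuous fun p => v p * Phi (‖M.x p - y‖ ^ 2 / t ^ 2) := fun t =>
    hv.mul (contDiff_Phi.continuous.comp (hn.div_const _))
  have hm' : Continuous (F' r) := ((hv.mul (continuous_const.mul
    (continuous_dPhi.comp (hn.div_const _)))).mul (hn.div_const _)).div_const _
  have := (hasDerivAt_integral_of_dominated_loc_of_deriv_le (μ := M.mu) (F' := F')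
    (F := fun t p => v p * Phi (‖M.x p - y‖ ^ 2 / t ^ 2)) (bound := fun _ => C)
    (Icc_mem_nhds (half_lt_self hr) (by linarith : r < 2 * r))
    (Eventually.of_forall fun t => (hm t).aestronglyMeasurable) (intg M (hm r))
    hm'.aestronglyMeasurable (Eventually.of_forall fun p t ht => hC (t, p) ⟨ht, mem_univ _⟩)
    (integrable_const C) (Eventually.of_forall fun p t ht => ?_)).2
  · rwa [hF', integral_div] at this
  · have ht0 : t ≠ 0 := (lt_of_lt_of_le (half_pos hr) ht.1).ne'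
    have h1 := ((hasDerivAt_Phi _).comp t ((hasDerivAt_const t (‖M.x p - y‖ ^ 2)).div
      (hasDerivAt_pow 2 t) (pow_ne_zero _ ht0))).const_mul (v p)
    refine h1.congr_deriv ?_
    simp only [hF', Pi.div_apply]
    field_simp
    ring

end Mn

open Mn in
theorem mon : MonStmt := by
  intro d ι _ _ X _ _ _ _ _ M _ v y r hv hr
  have h1 := (hasDerivAt_int M hv.continuous y hr).div (hasDerivAt_pow d r) (pow_pos hr d).ne'
  refine h1.congr_deriv ?_
  rw [first_var M hv y hr]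
  generalize (∫ p, v p * Phi (‖M.x p - y‖ ^ 2 / r ^ 2) ∂M.mu) = A
  generalize (∫ p, v p * (-2 * deriv Phi (‖M.x p - y‖ ^ 2 / r ^ 2)) *
    (‖M.x p - y‖ ^ 2 / r ^ 2) ∂M.mu) = B
  rcases d with _ | d
  · simp
  · simp only [Nat.add_sub_cancel]
    field_simp
    ring

end Crest.Agent.N222
end
end

-- ▼ part N222/B/Mon2

/-!
# Row 222, part B: monotonicity with remainder, density at a point (helper85)
-/

set_option autoImplicit false
set_option linter.unusedSectionVars false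
open MeasureTheory Set Filter Topology Function Metric
open scoped ContDiff InnerProductSpace RealInnerProductSpace

noncomputable section

namespace Crest.Agent.N222

namespace Mn

variable {d : ℕ} {ι : Type} [Fintype ι] [DecidableEq ι] {X : Type} [TopologicalSpace X]
  [T2Space X] [SecondCountableTopology X] [MeasurableSpace X] [BorelSpace X] [CompactSpace X]
  (M : Imm d ι X)

/-- the remainder -/
def Rem (y : E ι) (r : ℝ) : ℝ :=
  (∫ p, -2 * deriv Phi (‖M.x p - y‖ ^ 2 / r ^ 2) * M.perp y p ∂M.mu) / r ^ (d + 3)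

theorem Rem_nonneg (y : E ι) {r : ℝ} (hr : 0 ≤ r) : 0 ≤ Rem M y r :=
  div_nonneg (integral_nonneg fun _ => mul_nonneg
    (mul_nonneg_of_nonpos_of_nonpos (by norm_num) (deriv_Phi_nonpos _)) (sq_nonneg _))
    (pow_nonneg hr _)

theorem continuousOn_Rem (y : E ι) {a : ℝ} (ha : 0 < a) : ContinuousOn (Rem M y) (Ici a) := by
  have h0 : ∀ t : ℝ, max t a ≠ 0 := fun t => (lt_max_of_lt_right ha).ne'
  have h1 : Continuous (uncurry fun (t : ℝ) (p : X) =>
      -2 * deriv Phi (‖M.x p - y‖ ^ 2 / max t a ^ 2) * M.perp y p) :=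
    (continuous_const.mul (continuous_dPhi.comp
      ((((M.continuous_x.comp continuous_snd).sub continuous_const).norm.pow 2).div
        (by fun_prop) fun z => pow_ne_zero _ (h0 z.1)))).mul
      ((continuous_perp M y).comp continuous_snd)
  have h2 := continuous_parametric_integral_of_continuous (μ := M.mu) h1 isCompact_univ
  simp only [Measure.restrict_univ] at h2
  refine (h2.continuousOn.div (continuous_pow (d + 3)).continuousOn
    fun t ht => pow_ne_zero _ (ha.trans_le ht).ne').congr fun t ht => ?_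
  simp only [Rem, Pi.div_apply, max_eq_left (mem_Ici.1 ht)]

theorem gam_one (f : X → ℝ) (p : X) : M.pre.gam 1 f p = 0 := by
  have : ∀ a, M.pre.D a 1 p = 0 := fun a => Imm.D_const 1 a p
  simp [Imm.gam_apply, this]

theorem mono (hM : MonStmt) {Λ : ℝ} (hΛ : ∀ p, ‖M.Hv p‖ ≤ Λ) (y : E ι) {r1 r2 : ℝ} (h1 : 0 < r1)
    (h12 : r1 ≤ r2) : Real.exp (Λ * r1) * M.Th 1 y r1 + ∫ r in r1..r2, Rem M y r ≤
      Real.exp (Λ * r2) * M.Th 1 y r2 := by
  rcases isEmpty_or_nonempty X with hX | ⟨⟨p0⟩⟩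
  · simp [Imm.Th, Rem, integral_of_isEmpty]
  have hΛ0 : 0 ≤ Λ := (norm_nonneg _).trans (hΛ p0)
  have hd := fun r (hr : 0 < r) => ((hasDerivAt_id' r).const_mul Λ).exp.mul
    (hM d ι X M inferInstance 1 y r (Imm.sm_const 1) hr)
  rw [← le_sub_iff_add_le']
  refine intervalIntegral.integral_le_sub_of_hasDeriv_right_of_le h12
    (fun r hr => (hd r (h1.trans_le hr.1)).continuousAt.continuousWithinAt)
    (fun r hr => (hd r (h1.trans hr.1)).hasDerivWithinAt)
    (((continuousOn_Rem M y h1).mono Icc_subset_Ici_self).integrableOn_Icc) fun r hr => ?_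
  have hr0 : 0 < r := h1.trans hr.1
  have hP : Continuous fun p => Phi (‖M.x p - y‖ ^ 2 / r ^ 2) :=
    contDiff_Phi.continuous.comp (sm_sq M y r).continuous
  have e1 : ∫ p, -2 * deriv Phi (‖M.x p - y‖ ^ 2 / r ^ 2) * (M.perp y p / r ^ 2) ∂M.mu =
      Rem M y r * r ^ (d + 1) := by
    simp only [← mul_div_assoc, integral_div, Rem]
    field_simp
    ring
  have e2 : -(Λ * r) * ∫ p, Phi (‖M.x p - y‖ ^ 2 / r ^ 2) ∂M.mu ≤
      ∫ p, Phi (‖M.x p - y‖ ^ 2 / r ^ 2) * ⟪M.x p - y, M.Hv p⟫ ∂M.mu := by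
    rw [← integral_const_mul]
    refine integral_mono (intg M (continuous_const.mul hP)) (intg M (hP.mul
      ((M.continuous_x.sub continuous_const).inner (continuous_Hv M)))) fun p => ?_
    rcases le_or_gt r ‖M.x p - y‖ with h | h
    · simp [Phi_eq_zero ((one_le_div (by positivity)).2 (pow_le_pow_left₀ hr0.le h 2))]
    · beta_reduce
      rw [mul_comm]
      refine mul_le_mul_of_nonneg_left ?_ (Phi_nonneg _)
      have := abs_le.1 (abs_real_inner_le_norm (M.x p - y) (M.Hv p))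
      have h3 := mul_le_mul h.le (hΛ p) (norm_nonneg _) hr0.le
      linarith [this.1]
  simp only [gam_one, integral_zero, mul_zero, zero_add, Pi.one_apply, one_mul, mul_one, e1, Imm.Th]
  have e3 : 1 ≤ Real.exp (Λ * r) := Real.one_le_exp (by positivity)
  have e4 := Rem_nonneg M y hr0.le
  generalize (∫ p, Phi (‖M.x p - y‖ ^ 2 / r ^ 2) ∂M.mu) = A at e2 ⊢
  generalize (∫ p, Phi (‖M.x p - y‖ ^ 2 / r ^ 2) * ⟪M.x p - y, M.Hv p⟫ ∂M.mu) = B at e2 ⊢
  have e5 : Real.exp (Λ * r) * Λ * (A / r ^ d) +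
      Real.exp (Λ * r) * ((Rem M y r * r ^ (d + 1) + B) / r ^ (d + 1)) =
      Real.exp (Λ * r) * Rem M y r + Real.exp (Λ * r) * ((B + Λ * r * A) / r ^ (d + 1)) := by
    field_simp
    ring
  have e6 : 0 ≤ Real.exp (Λ * r) * ((B + Λ * r * A) / r ^ (d + 1)) :=
    mul_nonneg (Real.exp_pos _).le (div_nonneg (by linarith) (by positivity))
  rw [e5]
  nlinarith

theorem tendsto_Th (hT : TanStmt) (hi : Injective M.x) {v : X → ℝ} (hv : Continuous v) (p : X) :
    Tendsto (M.Th v (M.x p)) (𝓝[>] 0) (𝓝 (cPhi d * v p)) := by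
  obtain ⟨L, -, hL⟩ := hT d ι X M inferInstance hi p
  have h1 := hL ℝ (𝓝[>] 0) (fun _ => p) id tendsto_const_nhds tendsto_id
    (fun q => v q.2 * Phi (‖q.1‖ ^ 2))
    ((hv.comp continuous_snd).mul (contDiff_Phi.continuous.comp (by fun_prop)))
    (HasCompactSupport.intro ((isCompact_closedBall 0 1).prod isCompact_univ) fun q hq => by
      have : 1 ≤ ‖q.1‖ := by
        by_contra h
        exact hq ⟨by simpa using (not_le.1 h).le, mem_univ _⟩
      rw [Phi_eq_zero (one_le_pow₀ this), mul_zero])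
  simp only [L.norm_map, integral_const_mul] at h1
  rw [mul_comm]
  refine h1.congr fun r => ?_
  simp only [Imm.Th, id, norm_smul, mul_pow, norm_inv, inv_pow, Real.norm_eq_abs, sq_abs,
    div_eq_inv_mul]

end Mn

open Mn in
theorem mon2 (hM : MonStmt) (hT : TanStmt) : Mon2Stmt := by
  intro d ι _ _ X _ _ _ _ _ M _ Λ hΛ
  refine ⟨fun y r1 r2 h1 h12 => mono M hM hΛ y h1 h12,
    fun hi => ⟨fun v p hv => tendsto_Th M hT hi hv p, fun p r hr => ?_⟩⟩
  have h1 : Tendsto (fun s => Real.exp (Λ * s) * M.Th 1 (M.x p) s) (𝓝[>] 0)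
      (𝓝 (Real.exp (Λ * 0) * (cPhi d * 1))) :=
    (tendsto_nhdsWithin_of_tendsto_nhds
      ((by fun_prop : Continuous fun s : ℝ => Real.exp (Λ * s)).tendsto 0)).mul
      (tendsto_Th M hT hi continuous_const p)
  simp only [mul_zero, Real.exp_zero, one_mul, mul_one] at h1
  refine le_of_tendsto h1 ?_
  filter_upwards [Ioc_mem_nhdsGT hr] with s hs
  have h2 := mono M hM hΛ (M.x p) hs.1 hs.2
  have h3 := intervalIntegral.integral_nonneg (μ := volume) hs.2
    fun t ht => Rem_nonneg M (M.x p) (hs.1.le.trans ht.1)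
  linarith

end Crest.Agent.N222
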