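import Crest.Agent.N222.B.Defs
import Crest.Agent.N222.F.Meas
import Crest.Agent.N222.B.E2
import Crest.Agent.N222.B.E0
import Crest.Agent.N222.B.Mon2
import Crest.Agent.N222.J.Boot

-- ▼ part N222/B/Tan
section

/-!
# Row 222, part B: tangent measures of a compact embedded manifold (helper85)
-/

set_option autoImplicit false
set_option linter.unusedSectionVars false
open MeasureTheory Set Filter Topology Function Metric
open scoped ContDiff InnerProductSpace RealInnerProductSpace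

noncomputable section

namespace Crest.Agent.N222

namespace Tn

variable {d : ℕ} {ι : Type} [Fintype ι]

/-- polar decomposition -/
theorem exists_iso {J : E (Fin d) →L[ℝ] E ι} (hJ : Injective J) :
    ∃ L : E (Fin d) →ₗᵢ[ℝ] E ι, range L = range J ∧
      ∀ f : E ι → ℝ, ∫ z, f (L z) = ∫ w, jac J * f (J w) := by
  set V := LinearMap.range (J : E (Fin d) →ₗ[ℝ] E ι) with hV
  have hd : Module.finrank ℝ V = d := by
    rw [hV, LinearMap.finrank_range_of_inj hJ]; simp
  let b : OrthonormalBasis (Fin d) ℝ V := (stdOrthonormalBasis ℝ V).reindex (finCongr hd)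
  let L : E (Fin d) →ₗᵢ[ℝ] E ι := V.subtypeₗᵢ.comp b.repr.symm.toLinearIsometry
  let T : E (Fin d) ≃ₗ[ℝ] E (Fin d) :=
    (LinearEquiv.ofInjective (J : E (Fin d) →ₗ[ℝ] E ι) hJ).trans b.repr.toLinearEquiv
  have hT : ∀ w, L (T w) = J w := fun w => by simp [L, T]
  refine ⟨L, ?_, fun f => ?_⟩
  · ext w
    constructor
    · rintro ⟨z, rfl⟩
      exact ⟨T.symm z, by rw [← hT, T.apply_symm_apply]⟩
    · rintro ⟨z, rfl⟩
      exact ⟨T z, hT z⟩
  · have h1 : jac L.toContinuousLinearMap = 1 := by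
      have : ContinuousLinearMap.adjoint L.toContinuousLinearMap ∘L L.toContinuousLinearMap = 1 := by
        ext1 z
        refine ext_inner_right ℝ fun w => ?_
        rw [ContinuousLinearMap.comp_apply, ContinuousLinearMap.adjoint_inner_left]
        exact L.inner_map_map z w
      rw [jac, this]
      simp [ContinuousLinearMap.det]
    have h2 : J = L.toContinuousLinearMap ∘L (T.toContinuousLinearEquiv : E (Fin d) →L[ℝ] E (Fin d)) :=
      ContinuousLinearMap.ext fun w => (hT w).symm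
    have h3 := integral_image_eq_integral_abs_det_fderiv_smul volume MeasurableSet.univ
      (fun x _ => (T.toContinuousLinearEquiv : E (Fin d) →L[ℝ] E (Fin d)).hasFDerivAt.hasFDerivWithinAt)
      T.injective.injOn (fun z => f (L z))
    rw [image_univ_of_surjective (by exact T.surjective), Measure.restrict_univ] at h3
    rw [h3]
    refine integral_congr_ae (Eventually.of_forall fun w => ?_)
    beta_reduce
    conv_rhs => rw [h2, jac_comp, h1, one_mul]
    rfl

theorem tendsto_quot {E' F α : Type} [NormedAddCommGroup E'] [NormedSpace ℝ E']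
    [NormedAddCommGroup F] [NormedSpace ℝ F] {φ : E' → F} {J : E' →L[ℝ] F} {z0 : E'}
    (h : HasStrictFDerivAt φ J z0) {l : Filter α} {z : α → E'} {r : α → ℝ}
    (hz : Tendsto z l (𝓝 z0)) (hr : Tendsto r l (𝓝[>] 0)) (w : E') :
    Tendsto (fun j => (r j)⁻¹ • (φ (z j + r j • w) - φ (z j))) l (𝓝 (J w)) := by
  have hr0 : Tendsto r l (𝓝 0) := tendsto_nhds_of_tendsto_nhdsWithin hr
  have h1 : Tendsto (fun j => (z j + r j • w, z j)) l (𝓝 (z0, z0)) :=
    Tendsto.prodMk_nhds (by simpa using hz.add (hr0.smul_const w)) hz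
  have h2 := h.isLittleO.comp_tendsto h1
  have h3 : (fun j => z j + r j • w - z j) =O[l] r := by
    simp only [add_sub_cancel_left]
    exact Asymptotics.IsBigO.of_bound ‖w‖ (Eventually.of_forall fun j => by
      rw [norm_smul, mul_comm])
  have h4 := (h2.trans_isBigO h3).tendsto_inv_smul_nhds_zero
  rw [← tendsto_sub_nhds_zero_iff]
  refine h4.congr' ?_
  filter_upwards [hr self_mem_nhdsWithin] with j hj
  have : r j ≠ 0 := (mem_Ioi.1 hj).ne'
  simp [smul_sub, this]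

theorem exists_lower {φ : E (Fin d) → E ι} {J : E (Fin d) →L[ℝ] E ι} {z0 : E (Fin d)}
    (h : HasStrictFDerivAt φ J z0) (hJ : Injective J) :
    ∃ c > 0, ∃ s ∈ 𝓝 z0, ∀ a ∈ s, ∀ b ∈ s, c * ‖a - b‖ ≤ ‖φ a - φ b‖ := by
  obtain ⟨K, hK, hA⟩ := (J : E (Fin d) →ₗ[ℝ] E ι).exists_antilipschitzWith
    (LinearMap.ker_eq_bot.2 hJ)
  have hK' : (0 : ℝ) < K := hK
  obtain ⟨s, hs, h1⟩ := h.approximates_deriv_on_nhds (c := K⁻¹ / 2) (Or.inr (by positivity))
  refine ⟨(K : ℝ)⁻¹ / 2, by positivity, s, hs, fun a ha b hb => ?_⟩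
  have h2 := h1 a ha b hb
  have h3 : ‖a - b‖ ≤ K * ‖J (a - b)‖ := by
    simpa [dist_eq_norm] using hA.le_mul_dist a b
  have h4 := norm_sub_norm_le (J (a - b)) (φ a - φ b)
  rw [norm_sub_rev (J _)] at h4
  have h5 : (K : ℝ)⁻¹ * ‖a - b‖ ≤ ‖J (a - b)‖ := by rwa [inv_mul_le_iff₀ hK']
  push_cast at h2
  linarith

end Tn

open Tn in
theorem tan : TanStmt := by
  intro d ι _ _ X _ _ _ _ _ M _ hi p0
  have he := M.isChart p0
  have hp0 := M.mem p0
  set e := M.ch p0 with hed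
  set φ := M.x ∘ e.symm with hφ
  have hz0 := e.map_source hp0
  have hJ := he.inj _ hz0
  obtain ⟨L, hL, hLi⟩ := exists_iso hJ
  refine ⟨L, fun w => ?_, fun α l p r hp hr f hf hc => ?_⟩
  · rw [hL]
    refine ⟨fun h => h ▸ Imm.PL_mem_range he hp0 w, ?_⟩
    rintro ⟨v, rfl⟩
    exact Imm.PL_chart he hp0 v
  have hst : HasStrictFDerivAt φ (fderiv ℝ φ (e p0)) (e p0) :=
    (he.sm.contDiffAt (e.open_target.mem_nhds hz0)).hasStrictFDerivAt (by simp)
  obtain ⟨c, hc0, s, hs, hlow⟩ := exists_lower hst hJ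
  obtain ⟨ρ, hρ, hB⟩ := nhds_basis_closedBall.mem_iff.1 (inter_mem hs (e.open_target.mem_nhds hz0))
  have hBt : ball (e p0) ρ ⊆ e.target := fun z hz => (hB (ball_subset_closedBall hz)).2
  obtain ⟨R, hR⟩ := (hc.isCompact.image continuous_fst).isBounded.exists_norm_le
  have hR' : ∀ w q, R < ‖w‖ → f (w, q) = 0 := fun w q h =>
    image_eq_zero_of_notMem_tsupport fun h' => h.not_ge (hR _ (mem_image_of_mem _ h'))
  obtain ⟨A, hA⟩ := hf.bounded_above_of_compact_support hc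
  obtain ⟨A', hA'⟩ := (isCompact_closedBall (e p0) ρ).exists_bound_of_continuousOn
    ((Imm.continuousOn_jac he).mono fun z hz => (hB hz).2)
  -- the part of `X` away from `p0`
  have hN : IsOpen (e.source ∩ e ⁻¹' ball (e p0) ρ) := e.isOpen_inter_preimage isOpen_ball
  obtain ⟨δ, hδ, hfar⟩ : ∃ δ > 0, ∀ q ∉ e.source ∩ e ⁻¹' ball (e p0) ρ, δ ≤ ‖M.x q - M.x p0‖ := by
    obtain ⟨δ, hδ, h⟩ := hN.isClosed_compl.isCompact.exists_forall_le'
      (f := fun q => ‖M.x q - M.x p0‖) (a := 0)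
      (M.continuous_x.sub continuous_const).norm.continuousOn fun q hq =>
        norm_pos_iff.2 (sub_ne_zero.2 fun h => hq (by
          rw [hi h]; exact ⟨hp0, mem_ball_self hρ⟩))
    exact ⟨δ, hδ, h⟩
  set g : X × ℝ → E (Fin d) → ℝ := fun a z => (ball (e p0) ρ).indicator
    (fun z => jac (fderiv ℝ φ z) * f (a.2⁻¹ • (φ z - M.x a.1), e.symm z)) z with hg
  have hgm : ∀ a, Measurable (g a) := fun a => by
    classical
    refine ContinuousOn.measurable_piecewise (g := 0) ?_ continuousOn_const measurableSet_ball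
    exact (((Imm.continuousOn_jac he).mul (hf.comp_continuousOn
      (((he.sm.continuousOn.sub continuousOn_const).const_smul a.2⁻¹).prodMk
        e.continuousOn_symm)))).mono hBt
  set 𝓕 : Filter (X × ℝ) := 𝓝 p0 ×ˢ 𝓝[>] 0 with h𝓕
  have t1 : Tendsto (fun a : X × ℝ => e a.1) 𝓕 (𝓝 (e p0)) :=
    (e.continuousAt hp0).tendsto.comp tendsto_fst
  have t2 : Tendsto (fun a : X × ℝ => a.2) 𝓕 (𝓝[>] 0) := tendsto_snd
  have t2' : Tendsto (fun a : X × ℝ => a.2) 𝓕 (𝓝 0) := tendsto_nhds_of_tendsto_nhdsWithin t2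
  have ev1 : ∀ᶠ a : X × ℝ in 𝓕, a.1 ∈ e.source ∧ e a.1 ∈ ball (e p0) ρ :=
    tendsto_fst (hN.mem_nhds ⟨hp0, mem_ball_self hρ⟩)
  have ev2 : ∀ᶠ a : X × ℝ in 𝓕, 0 < a.2 := t2 self_mem_nhdsWithin
  have ev3 : ∀ᶠ a : X × ℝ in 𝓕, ‖M.x a.1 - M.x p0‖ + a.2 * R < δ := by
    have : Tendsto (fun a : X × ℝ => ‖M.x a.1 - M.x p0‖ + a.2 * R) 𝓕
        (𝓝 (‖M.x p0 - M.x p0‖ + 0 * R)) :=
      (((M.continuous_x.tendsto p0).comp tendsto_fst).sub_const _).norm.add (t2'.mul_const R)
    exact this.eventually (gt_mem_nhds (by simpa using hδ))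
  have key : Tendsto (fun a : X × ℝ => ∫ w, g a (e a.1 + a.2 • w)) 𝓕
      (𝓝 (∫ w, jac (fderiv ℝ φ (e p0)) * f (fderiv ℝ φ (e p0) w, p0))) := by
    refine tendsto_integral_filter_of_dominated_convergence
      ((closedBall (0 : E (Fin d)) (R / c)).indicator fun _ => A' * A)
      (Eventually.of_forall fun a => ((hgm a).comp (by fun_prop)).aestronglyMeasurable) ?_
      ((integrable_indicator_iff measurableSet_closedBall).2
        (integrableOn_const measure_closedBall_lt_top.ne)) (Eventually.of_forall fun w => ?_)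
    · filter_upwards [ev1, ev2] with a h1 h2
      refine Eventually.of_forall fun w => ?_
      have hA0 : 0 ≤ A' * A := mul_nonneg ((norm_nonneg _).trans (hA' _ (mem_closedBall_self hρ.le)))
        ((norm_nonneg _).trans (hA (0, p0)))
      by_cases hw : e a.1 + a.2 • w ∈ ball (e p0) ρ
      · rw [hg]
        simp only [indicator_of_mem hw]
        by_cases hw' : w ∈ closedBall (0 : E (Fin d)) (R / c)
        · rw [indicator_of_mem hw', norm_mul]
          exact mul_le_mul (hA' _ (ball_subset_closedBall hw)) (hA _) (norm_nonneg _)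
            ((norm_nonneg _).trans (hA' _ (mem_closedBall_self hρ.le)))
        · rw [indicator_of_notMem hw', hR', mul_zero, norm_zero]
          have h3 := hlow _ (hB (ball_subset_closedBall hw)).1 _ (hB (ball_subset_closedBall h1.2)).1
          have h4 : φ (e a.1) = M.x a.1 := congrArg M.x (e.left_inv h1.1)
          rw [h4, add_sub_cancel_left, norm_smul, Real.norm_of_nonneg h2.le] at h3
          rw [mem_closedBall_zero_iff, not_le, div_lt_iff₀ hc0] at hw'
          rw [norm_smul, norm_inv, Real.norm_of_nonneg h2.le, lt_inv_mul_iff₀ h2]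
          nlinarith
      · rw [hg]
        simp only [indicator_of_notMem hw, norm_zero]
        exact indicator_nonneg (fun _ _ => hA0) _
    · have t3 : Tendsto (fun a : X × ℝ => e a.1 + a.2 • w) 𝓕 (𝓝 (e p0)) := by
        simpa using t1.add (t2'.smul_const w)
      have t4 := ((Imm.continuousOn_jac he).continuousAt (e.open_target.mem_nhds hz0)).tendsto.comp t3
      have t5 := (hf.tendsto _).comp
        ((tendsto_quot hst t1 t2 w).prodMk_nhds ((e.tendsto_symm hp0).comp t3))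
      refine (t4.mul t5).congr' ?_
      filter_upwards [ev1, t3 (ball_mem_nhds _ hρ)] with a h1 h2
      have h4 : φ (e a.1) = M.x a.1 := congrArg M.x (e.left_inv h1.1)
      rw [hg]
      simp only [indicator_of_mem (mem_preimage.1 h2), comp_apply, ← h4]
      rfl
  rw [hLi fun w => f (w, p0)]
  refine ((key.congr' ?_).comp (hp.prodMk hr) :
    Tendsto ((fun a : X × ℝ => (∫ q, f (a.2⁻¹ • (M.x q - M.x a.1), q) ∂M.mu) / a.2 ^ d) ∘
      fun j => (p j, r j)) l _)
  filter_upwards [ev2, ev3] with a h2 h3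
  have hsup : ∀ q, q ∉ e.source ∩ e ⁻¹' ball (e p0) ρ →
      f (a.2⁻¹ • (M.x q - M.x a.1), q) = 0 := by
    intro q hq
    refine hR' _ _ ?_
    rw [norm_smul, norm_inv, Real.norm_of_nonneg h2.le, lt_inv_mul_iff₀ h2]
    have h5 := norm_sub_le_norm_sub_add_norm_sub (M.x q) (M.x a.1) (M.x p0)
    linarith [hfar q hq]
  rw [Imm.integral_chart he fun q hq => by_contra fun h => hq (hsup q fun h' => h h'.1),
    Measure.integral_comp_smul volume (fun z => g a (e a.1 + z)), integral_add_left_eq_self,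
    ← integral_indicator e.open_target.measurableSet, finrank_euclideanSpace_fin,
    abs_of_pos (by positivity), smul_eq_mul, div_eq_inv_mul]
  congr 2
  funext z
  by_cases hz : z ∈ ball (e p0) ρ
  · rw [hg, indicator_of_mem (hBt hz)]
    exact indicator_of_mem hz _
  · rw [hg]
    refine (indicator_of_notMem hz _).trans (indicator_apply_eq_zero.2 fun hz' => ?_).symm
    rw [hsup _ fun h => hz (by simpa only [mem_preimage, e.right_inv hz'] using h.2), smul_zero]

end Crest.Agent.N222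
end
end

-- ▼ part N222/B/Bl1
section

/-!
# Row 222, part B, ε-regularity block (helper16): tools for the blow-up
-/

set_option autoImplicit false
set_option linter.unusedSectionVars false
open MeasureTheory Set Filter Topology Function Metric
open scoped ContDiff InnerProductSpace RealInnerProductSpace CompactlySupported

noncomputable section

namespace Crest.Agent.N222.EP

/-- vague limits along an ultrafilter -/
theorem exists_vague {S : Type} [TopologicalSpace S] [T2Space S] [LocallyCompactSpace S]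
    [MeasurableSpace S] [BorelSpace S] (𝒰 : Ultrafilter ℕ) (I : ℕ → (S → ℝ) → ℝ)
    (add : ∀ j f g, Continuous f → Continuous g → I j (f + g) = I j f + I j g)
    (smul : ∀ j (c : ℝ) f, I j (c • f) = c * I j f)
    (pos : ∀ f, 0 ≤ f → ∀ᶠ j in (𝒰 : Filter ℕ), 0 ≤ I j f)
    (bd : ∀ f, Continuous f → HasCompactSupport f → ∃ K, ∀ᶠ j in (𝒰 : Filter ℕ), |I j f| ≤ K) :
    ∃ V : Measure S, IsFiniteMeasureOnCompacts V ∧ ∀ f, Continuous f → HasCompactSupport f →
      Tendsto (fun j => I j f) 𝒰 (𝓝 (∫ s, f s ∂V)) := by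
  have h : ∀ f : C_c(S, ℝ), ∃ a, Tendsto (fun j => I j f) 𝒰 (𝓝 a) := fun f => by
    obtain ⟨K, hK⟩ := bd f f.continuous f.hasCompactSupport
    obtain ⟨a, -, ha⟩ := (isCompact_Icc (a := -K) (b := K)).ultrafilter_le_nhds
      (𝒰.map fun j => I j f) (le_principal_iff.2 (mem_map.2 (hK.mono fun j hj => abs_le.1 hj)))
    exact ⟨a, ha⟩
  choose Λ hΛ using h
  let Λ1 : C_c(S, ℝ) →ₗ[ℝ] ℝ :=
    { toFun := Λ
      map_add' := fun f g => tendsto_nhds_unique (hΛ (f + g))
        (((hΛ f).add (hΛ g)).congr fun j => (add j f g f.continuous g.continuous).symm)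
      map_smul' := fun c f => tendsto_nhds_unique (hΛ (c • f))
        (((hΛ f).const_mul c).congr fun j => (smul j c f).symm) }
  let Λ2 : C_c(S, ℝ) →ₚ[ℝ] ℝ := .mk₀ Λ1 fun f hf => ge_of_tendsto (hΛ f) (pos f hf)
  refine ⟨RealRMK.rieszMeasure Λ2, inferInstance, fun f hf hc => ?_⟩
  have := RealRMK.integral_rieszMeasure Λ2 ⟨⟨f, hf⟩, hc⟩
  exact this ▸ hΛ ⟨⟨f, hf⟩, hc⟩

variable {d : ℕ} {ι : Type} [Fintype ι] [DecidableEq ι] {X : Type} [TopologicalSpace X]
  [T2Space X] [SecondCountableTopology X] [MeasurableSpace X] [BorelSpace X] [CompactSpace X]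
  {M : Imm d ι X}

/-- chords near a point are almost tangent -/
theorem chord_near (M : Imm d ι X) (p0 : X) {ε : ℝ} (hε : 0 < ε) : ∃ N ∈ 𝓝 p0, ∀ p ∈ N, ∀ q ∈ N,
    ‖M.x q - M.x p - M.PL p0 (M.x q - M.x p)‖ ≤ ε * ‖M.x q - M.x p‖ := by
  have he := M.isChart p0
  have hp := M.mem p0
  have hd : HasStrictFDerivAt (M.x ∘ (M.ch p0).symm) (M.J p0) (M.ch p0 p0) :=
    (he.sm.contDiffAt ((M.ch p0).open_target.mem_nhds ((M.ch p0).map_source hp))).hasStrictFDerivAt
      (by simp)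
  obtain ⟨K, hK0, hK⟩ := (M.J p0 : E (Fin d) →ₗ[ℝ] E ι).exists_antilipschitzWith
    (LinearMap.ker_eq_bot.2 (M.J_inj p0))
  have hK0' : (0 : ℝ) < K := hK0
  have h1 := hd.isLittleO.def (c := min (1 / 2) (ε / 4) / K) (by positivity)
  have hc := (M.ch p0).continuousAt hp
  have h2 := (hc.tendsto.prodMap_nhds hc.tendsto).eventually h1
  rw [nhds_prod_eq] at h2
  obtain ⟨N, hN, h2⟩ := mem_prod_self_iff.1 h2
  refine ⟨N ∩ (M.ch p0).source, inter_mem hN ((M.ch p0).open_source.mem_nhds hp),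
    fun p hp' q hq' => ?_⟩
  have h3 := h2 (mk_mem_prod hq'.1 hp'.1)
  simp only [mem_setOf_eq, Prod.map_fst, Prod.map_snd, comp_apply, (M.ch p0).left_inv hp'.2,
    (M.ch p0).left_inv hq'.2] at h3
  generalize M.ch p0 q - M.ch p0 p = v at h3
  generalize M.x q - M.x p = w at h3 ⊢
  have h4 : ‖v‖ ≤ K * ‖M.J p0 v‖ := by simpa using hK.le_mul_dist v 0
  have h5 : ‖w - M.J p0 v‖ ≤ min (1 / 2) (ε / 4) * ‖M.J p0 v‖ :=
    h3.trans ((mul_le_mul_of_nonneg_left h4 (by positivity)).trans_eq (by field_simp))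
  have h6 := norm_sub_norm_le (M.J p0 v) w
  rw [norm_sub_rev (M.J p0 v)] at h6
  have h7 : w - M.PL p0 w = w - M.J p0 v - M.PL p0 (w - M.J p0 v) := by
    rw [map_sub, show M.PL p0 (M.J p0 v) = M.J p0 v from Imm.PL_chart he hp v]; abel
  have h8 := norm_sub_le (w - M.J p0 v) (M.PL p0 (w - M.J p0 v))
  have h8' := M.norm_PL_le p0 (w - M.J p0 v)
  have h9 := mul_le_mul_of_nonneg_right (min_le_left (1 / 2) (ε / 4)) (norm_nonneg (M.J p0 v))
  have h10 := mul_le_mul_of_nonneg_right (min_le_right (1 / 2) (ε / 4)) (norm_nonneg (M.J p0 v))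
  rw [h7]
  nlinarith

theorem norm_sub_PbL (p : X) (w : E (Option ι)) :
    ‖w - M.PbL p w‖ = ‖down w - M.PL p (down w)‖ := by
  have : w - M.PbL p w = up 0 (down w - M.PL p (down w)) := by
    conv_lhs => rw [← up_down w]
    rw [Imm.PbL, up_sub]
    exact congrArg₂ up (sub_self _) rfl
  rw [← sq_eq_sq₀ (norm_nonneg _) (norm_nonneg _), this, norm_sq_up]; ring

theorem L_Ls {p0 : X} {L : Y d →ₗᵢ[ℝ] E (Option ι)} (h : ∀ w, M.PbL p0 w = w ↔ w ∈ range L)
    (w : E (Option ι)) : L (Ls L w) = M.PbL p0 w := by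
  obtain ⟨a, ha⟩ := (h _).1 (PbL_PbL p0 w)
  rw [← ha]
  refine congrArg L (ext_inner_right ℝ fun v => ?_)
  rw [inner_Ls, ← (h _).2 ⟨v, rfl⟩, ← PbL_symm, ← ha, L.inner_map_map]

/-- the tangent space of the cylinder -/
theorem exists_L {p0 : X} (L0 : E (Fin d) →ₗᵢ[ℝ] E ι) (h : ∀ w, M.PL p0 w = w ↔ w ∈ range L0) :
    ∃ L : Y d →ₗᵢ[ℝ] E (Option ι), (∀ w, M.PbL p0 w = w ↔ w ∈ range L) ∧
      ∀ f : E (Option ι) → ℝ, Integrable (fun y => f (L y)) →
        ∫ y, f (L y) = ∫ z, ∫ s : ℝ, f (up s (L0 z)) := by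
  obtain ⟨J, hJ⟩ := exists_split (n := (ee 0 : Y d)) (by simp)
  have h1 : ∀ (s : ℝ) z, Ls J (s • ee 0 + J z) = z := fun s z => ext_inner_right ℝ fun v => by
    rw [inner_Ls, inner_add_left, inner_smul_left, hJ.orth, J.inner_map_map]; simp
  let L : Y d →ₗᵢ[ℝ] E (Option ι) :=
    { toFun := fun y => up ⟪ee 0, y⟫ (L0 (Ls J y))
      map_add' := fun a b => by rw [up_add, inner_add_right, map_add, map_add]
      map_smul' := fun c a => by rw [RingHom.id_apply, smul_up, inner_smul_right, map_smul, map_smul]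
      norm_map' := fun y => by
        obtain ⟨z, hz⟩ := hJ.surj y
        change ‖up _ _‖ = _
        rw [← sq_eq_sq₀ (norm_nonneg _) (norm_nonneg _), norm_sq_up, L0.norm_map]
        conv_rhs => rw [hz, hJ.norm_sq]
        conv_lhs => rhs; rw [hz, h1] }
  have h2 : ∀ (s : ℝ) z, L (s • ee 0 + J z) = up s (L0 z) := fun s z => by
    change up _ _ = _
    rw [hJ.inner_apply, h1]
  refine ⟨L, fun w => ⟨fun hw => ?_, ?_⟩, fun f hf => ?_⟩
  · obtain ⟨z, hz⟩ := (h (down w)).1 (congrArg down hw)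
    exact ⟨_, (h2 (w none) z).trans (by rw [hz, up_down])⟩
  · rintro ⟨y, rfl⟩
    exact congrArg (up _) ((h _).2 ⟨_, rfl⟩)
  · rw [hJ.integral_eq' hf]; simp only [h2]

section Fib
variable {f : E (Option ι) → ℝ}

theorem continuous_fib (hf : Continuous f) (hc : HasCompactSupport f) :
    Continuous fun w : E ι => ∫ s : ℝ, f (up s w) := by
  obtain ⟨R, -, hR⟩ := exists_norm_of_hcs hc
  have h := continuous_parametric_integral_of_continuous (μ := volume)
    (f := fun (w : E ι) (s : ℝ) => f (up s w))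
    (hf.comp (contDiff_up.continuous.comp continuous_swap)) (isCompact_closedBall (0 : ℝ) R)
  refine h.congr fun w => setIntegral_eq_integral_of_forall_compl_eq_zero fun s hs => hR _ ?_
  rw [mem_closedBall_zero_iff, not_le] at hs
  exact hs.le.trans (abs_none_le (up s w))

theorem hcs_fib (hc : HasCompactSupport f) :
    HasCompactSupport fun s : E ι × X => ∫ t : ℝ, f (up t s.1) := by
  obtain ⟨R, -, hR⟩ := exists_norm_of_hcs hc
  refine HasCompactSupport.intro ((isCompact_closedBall 0 R).prod isCompact_univ) fun s hs => ?_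
  have h1 : R < ‖s.1‖ := by simpa using hs
  simp only [fun t => hR (up t s.1) (h1.le.trans (norm_down_le (up t s.1))), integral_zero]

/-- the two half lines of the calibration inequalities add up -/
theorem integral_halves (hf : Continuous f) (hc : HasCompactSupport f) {u : X → ℝ}
    (hu : Continuous u) :
    (∫ p, (∫ t in Iic (u p), f (up t (M.x p))) ∂M.mu) +
      ∫ p, (∫ t in Ioi (u p), f (up t (M.x p))) ∂M.mu = ∫ p, (∫ t, f (up t (M.x p))) ∂M.mu := by
  obtain ⟨R, -, hR⟩ := exists_norm_of_hcs hc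
  have h1 : Continuous fun s : X × ℝ => f (up s.2 (M.x s.1)) :=
    hf.comp (contDiff_up.continuous.comp₂ continuous_snd (M.continuous_x.comp continuous_fst))
  have h2 : Integrable (fun s : X × ℝ => f (up s.2 (M.x s.1))) (M.mu.prod volume) :=
    h1.integrable_of_hasCompactSupport (HasCompactSupport.intro
      (isCompact_univ.prod (isCompact_closedBall (0 : ℝ) R)) fun s hs => hR _ (by
        have h3 : R < |s.2| := by simpa using hs
        exact h3.le.trans (abs_none_le (up s.2 (M.x s.1)))))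
  have h3 : MeasurableSet {s : X × ℝ | s.2 ≤ u s.1} :=
    (isClosed_le continuous_snd (hu.comp continuous_fst)).measurableSet
  rw [← integral_add]
  · refine integral_congr_ae ?_
    filter_upwards [h2.prod_right_ae] with p hp
    exact intervalIntegral.integral_Iic_add_Ioi hp.integrableOn hp.integrableOn
  · refine (h2.indicator h3).integral_prod_left.congr (.of_forall fun p => ?_)
    exact integral_indicator (f := fun t => f (up t (M.x p))) (s := Iic (u p)) measurableSet_Iic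
  · refine (h2.indicator h3.compl).integral_prod_left.congr (.of_forall fun p => ?_)
    beta_reduce
    rw [← compl_Iic]
    exact integral_indicator (f := fun t => f (up t (M.x p))) (s := (Iic (u p))ᶜ)
      measurableSet_Iic.compl

/-- rescaling of the vertical integral -/
theorem integral_fib_scale (f : E (Option ι) → ℝ) {r : ℝ} (hr : 0 < r) (a : ℝ) (x y : E ι) :
    ∫ t, f (r⁻¹ • (up t x - up a y)) = r * ∫ s, f (up s (r⁻¹ • (x - y))) := by
  simp only [up_sub, smul_up]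
  rw [integral_sub_right_eq_self (fun t => f (up (r⁻¹ * t) (r⁻¹ • (x - y)))) a,
    Measure.integral_comp_inv_mul_left (fun t => f (up t (r⁻¹ • (x - y)))), abs_of_pos hr,
    smul_eq_mul]

end Fib

theorem bl_Phi_le {u : X → ℝ} {C r σ : ℝ} (hu : M.Sm u) (hA : Area M C u) (hr : 0 < r) (hσ : 0 < σ)
    (h1 : σ * r ≤ 1) (p : X) (z : E (Option ι)) :
    bl M u r (fun q => Phi (‖ry M u p r q - z‖ ^ 2 / σ ^ 2)) ≤ C * σ ^ d := by
  have := Imm.isFiniteMeasure_gmu hu
  have h2 : ∀ q, ‖ry M u p r q - z‖ = ‖M.gx u q - (M.gx u p + r • z)‖ / r := fun q => by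
    rw [eq_div_iff hr.ne', mul_comm, ← norm_smul_of_nonneg hr.le, ry, smul_sub,
      smul_inv_smul₀ hr.ne', sub_sub]
  rw [bl, div_le_iff₀ (pow_pos hr d), ← setIntegral_eq_integral_of_forall_compl_eq_zero
    (s := {q | ‖M.gx u q - (M.gx u p + r • z)‖ ≤ σ * r}) fun q hq => Phi_ball_zero hσ (by
      rw [h2, le_div_iff₀ hr]; exact (not_le.1 hq).le)]
  refine (le_abs_self _).trans ((norm_setIntegral_le_of_norm_le_const (C := 1)
    (f := fun q => Phi (‖ry M u p r q - z‖ ^ 2 / σ ^ 2)) (measure_lt_top _ _)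
    fun q _ => (abs_of_nonneg (Phi_nonneg _)).trans_le (Phi_le_one _)).trans ?_)
  rw [one_mul, mul_assoc, ← mul_pow]
  exact hA _ _ (by positivity) h1

end Crest.Agent.N222.EP

end
end

-- ▼ part N222/B/Blow
section

/-!
# Row 222, part B, ε-regularity block (helper16): blow-up limits of admissible graphs
-/

set_option autoImplicit false
set_option linter.unusedSectionVars false
open MeasureTheory Set Filter Topology Function Metric
open scoped ContDiff InnerProductSpace RealInnerProductSpace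

noncomputable section

namespace Crest.Agent.N222
namespace EP

variable {d : ℕ} {ι : Type} [Fintype ι] [DecidableEq ι] {X : Type} [TopologicalSpace X]
  [T2Space X] [SecondCountableTopology X] [MeasurableSpace X] [BorelSpace X] [CompactSpace X]
  {M : Imm d ι X} {C : ℝ} {𝒰 : Ultrafilter ℕ} {u : ℕ → X → ℝ} {p : ℕ → X} {r : ℕ → ℝ} {p0 : X}
  {L : Y d →ₗᵢ[ℝ] E (Option ι)} {V : Measure (Y d × Y d)}

theorem down_ry (u : X → ℝ) (p : X) (r : ℝ) (q : X) :
    down (ry M u p r q) = r⁻¹ • (M.x q - M.x p) := rfl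

theorem ev_flat (hM : Injective M.x) (hu : ∀ j, M.Sm (u j)) (hp : Tendsto p 𝒰 (𝓝 p0))
    (hr : Tendsto r 𝒰 (𝓝[>] 0)) (R : ℝ) {ε : ℝ} (hε : 0 < ε) :
    ∀ᶠ j in (𝒰 : Filter ℕ), ∀ q, ‖ry M (u j) (p j) (r j) q‖ ≤ R →
      ‖ry M (u j) (p j) (r j) q - M.PbL p0 (ry M (u j) (p j) (r j) q)‖ ≤ ε ∧
      ‖M.nuv (u j) q - M.PbL p0 (M.nuv (u j) q)‖ ≤ ε := by
  have hR : 0 < |R| + 1 := by positivity
  obtain ⟨N, hN, h⟩ := chord_near M p0 (div_pos hε hR)
  have hN' : {q | ‖M.PL q - M.PL p0‖ ≤ ε} ∈ 𝓝 p0 :=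
    ((M.sm_PL.continuous.sub continuous_const).norm.tendsto p0).eventually_le_const
      (by simpa using hε)
  filter_upwards [ev_pos hr, ev_near (u := u) hM hp hr R (inter_mem hN hN'), hp.eventually hN]
    with j h0 h1 h2 q hq
  rw [norm_sub_PbL, norm_sub_PbL]
  have h3 : 0 ≤ (r j)⁻¹ := (inv_pos.2 h0).le
  constructor
  · have h4 := (norm_down_le _).trans hq
    rw [down_ry, norm_smul_of_nonneg h3] at h4
    rw [down_ry, map_smul, ← smul_sub, norm_smul_of_nonneg h3]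
    refine (mul_le_mul_of_nonneg_left (h _ h2 q (h1 q hq).1) h3).trans ?_
    rw [mul_left_comm, div_mul_eq_mul_div, div_le_iff₀ hR]
    exact mul_le_mul_of_nonneg_left (by linarith [le_abs_self R]) hε.le
  · have h4 : M.PL q (down (M.nuv (u j) q)) = down (M.nuv (u j) q) :=
      congrArg down (Imm.PbL_nuv (hu j) q)
    have h5 := (M.PL q - M.PL p0).le_of_opNorm_le_of_le (h1 q hq).2
      ((norm_down_le _).trans (Imm.norm_nuv (hu j) q).le)
    rwa [sub_apply, h4, mul_one] at h5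

/-- convergence against compactly supported test functions -/
structure Cv (M : Imm d ι X) (C : ℝ) (𝒰 : Ultrafilter ℕ) (u : ℕ → X → ℝ) (p : ℕ → X) (r : ℕ → ℝ)
    (L : Y d →ₗᵢ[ℝ] E (Option ι)) (V : Measure (Y d × Y d)) : Prop where
  sm : ∀ j, M.Sm (u j)
  area : ∀ j, Area M C (u j)
  hr : Tendsto r 𝒰 (𝓝[>] 0)
  loc : IsFiniteMeasureOnCompacts V
  conv : ∀ g : E (Option ι) × E (Option ι) → ℝ, Continuous g → HasCompactSupport g →
    Tendsto (fun j => bl M (u j) (r j) fun q => g (ry M (u j) (p j) (r j) q, M.nuv (u j) q)) 𝒰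
      (𝓝 (∫ q, g (L q.1, L q.2) ∂V))

theorem exists_cv (hM : Injective M.x) (hu : ∀ j, M.Sm (u j)) (hA : ∀ j, Area M C (u j))
    (hp : Tendsto p 𝒰 (𝓝 p0)) (hr : Tendsto r 𝒰 (𝓝[>] 0))
    (hL : ∀ w, M.PbL p0 w = w ↔ w ∈ range L) : ∃ V, Cv M C 𝒰 u p r L V := by
  have hy := fun j => continuous_ry (hu j) (p j) (r j)
  have hν := fun j => (hu j).nuv.continuous
  have hc : ∀ j (h : Y d × Y d → ℝ), Continuous h → Continuous fun q =>
      h (Ls L (ry M (u j) (p j) (r j) q), Ls L (M.nuv (u j) q)) * cut L (ry M (u j) (p j) (r j) q) :=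
    fun j h hh => (hh.comp (((Ls L).continuous.comp (hy j)).prodMk
      ((Ls L).continuous.comp (hν j)))).mul ((contDiff_cut L).continuous.comp (hy j))
  have h0 : ∀ (h : Y d × Y d → ℝ) (R : ℝ), (∀ s, R ≤ ‖s‖ → h s = 0) → ∀ y n : E (Option ι),
      R + 1 < ‖y‖ → h (Ls L y, Ls L n) * cut L y = 0 := fun h R hR y n hy => by
    by_cases h1 : cut L y = 0
    · rw [h1, mul_zero]
    · rw [hR _ (le_trans (by linarith [norm_le_of_cut L h1]) (norm_fst_le (Ls L y, Ls L n))),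
        zero_mul]
  obtain ⟨V, hV, h⟩ := exists_vague 𝒰 (fun j h => bl M (u j) (r j) fun q =>
      h (Ls L (ry M (u j) (p j) (r j) q), Ls L (M.nuv (u j) q)) * cut L (ry M (u j) (p j) (r j) q))
    (fun j f g hf hg => by
      rw [← bl_add (hu j) (hc j f hf) (hc j g hg)]; simp only [Pi.add_apply, add_mul])
    (fun j c f => by rw [← bl_const_mul]; simp only [Pi.smul_apply, smul_eq_mul, mul_assoc])
    (fun f hf => (ev_pos hr).mono fun j hj =>
      bl_nonneg hj fun q => mul_nonneg (hf _) (cut_nonneg L _))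
    (fun f hf hs => by
      obtain ⟨R, hR0, hR⟩ := exists_norm_of_hcs hs
      obtain ⟨K, hK⟩ := hf.bounded_above_of_compact_support hs
      refine ⟨K * (C * (R + 1) ^ d), ?_⟩
      filter_upwards [ev_pos hr, ev_mul_le hr (R + 1) one_pos] with j h1 h2
      refine abs_bl_le (p := p j) (hu j) (hA j) h1 (by positivity) h2
        ((norm_nonneg _).trans (hK 0)) (fun q _ => ?_) fun q hq => h0 f R hR _ _ hq
      rw [abs_mul, abs_of_nonneg (cut_nonneg L _)]
      exact (mul_le_of_le_one_right (abs_nonneg _) (Phi_le_one _)).trans (hK _))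
  refine ⟨V, hu, hA, hr, hV, fun g hg hs => ?_⟩
  obtain ⟨R, hR0, hR⟩ := exists_norm_of_hcs hs
  have hg' : Continuous fun q : Y d × Y d => g (L q.1, L q.2) := by fun_prop
  have hR' : ∀ q : Y d × Y d, R ≤ ‖q‖ → g (L q.1, L q.2) = 0 := fun q hq =>
    hR _ (by rwa [Prod.norm_def, L.norm_map, L.norm_map])
  have h1 := (h _ hg' (hcs_of_norm R fun q hq => hR' q hq.le)).add
    (tendsto_bl_zero (p := p) hu hA hr (f := fun j q => g (ry M (u j) (p j) (r j) q, M.nuv (u j) q) -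
      g (L (Ls L (ry M (u j) (p j) (r j) q)), L (Ls L (M.nuv (u j) q))) *
        cut L (ry M (u j) (p j) (r j) q)) (R + 1) (fun ε hε => ?_) (.of_forall fun j q hq => ?_))
  · rw [add_zero] at h1
    refine h1.congr fun j => ?_
    rw [bl_sub (hu j) (hg.comp' ((hy j).prodMk (hν j))) (hc j _ hg'), add_sub_cancel]
  · obtain ⟨δ, hδ, hδ'⟩ := Metric.uniformContinuous_iff_le.1
      (hs.uniformContinuous_of_continuous hg) ε hε
    filter_upwards [ev_flat hM hu hp hr (R + 1) (lt_min hδ one_half_pos)] with j hj q hq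
    obtain ⟨h2, h3⟩ := hj q hq
    rw [← L_Ls hL] at h2 h3
    rw [show cut L (ry M (u j) (p j) (r j) q) = 1 from Phi_of_le
      ((pow_le_pow_left₀ (norm_nonneg _) (h2.trans (min_le_right _ _)) 2).trans (by norm_num)),
      mul_one]
    refine hδ' ?_
    rw [Prod.dist_eq, dist_eq_norm, dist_eq_norm]
    exact max_le (h2.trans (min_le_left _ _)) (h3.trans (min_le_left _ _))
  · rw [h0 _ R hR' _ _ hq, hR _ (le_trans (by linarith) (norm_fst_le
      (ry M (u j) (p j) (r j) q, M.nuv (u j) q))), sub_zero]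

theorem hcs_two {F : Type} [NormedAddCommGroup F] [ProperSpace F] {g : F × F → ℝ} {R : ℝ}
    (h0 : ∀ s, R < ‖s.1‖ → g s = 0) {σ : ℝ} (hσ : 0 < σ) :
    HasCompactSupport fun s => g s * Phi (‖s.2 - 0‖ ^ 2 / σ ^ 2) :=
  hcs_of_norm (max R σ) fun s hs => by
    rcases lt_max_iff.1 (hs.trans_eq (Prod.norm_def s)) with h | h
    · rw [h0 s ((le_max_left _ _).trans_lt h), zero_mul]
    · rw [Phi_ball_zero hσ (by rw [sub_zero]; exact ((le_max_right _ _).trans_lt h).le), mul_zero]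

theorem Phi_unit {F : Type} [NormedAddCommGroup F] {n : F} (hn : ‖n‖ = 1) :
    Phi (‖n - 0‖ ^ 2 / 2 ^ 2) = 1 := Phi_ball_one two_pos (by rw [sub_zero, hn]; norm_num)

namespace Cv
variable (H : Cv M C 𝒰 u p r L V)
include H

theorem unit : ∀ᵐ q ∂V, ‖q.2‖ = 1 := by
  have := H.loc
  have h : ∀ k : ℕ, ∀ᵐ q ∂V, ‖q‖ ≤ ((k : ℝ) + 1) / 2 → ‖q.2‖ = 1 := fun k => by
    have hk : (0 : ℝ) < k + 1 := by positivity
    have h0 : ∀ {F : Type} [NormedAddCommGroup F] (s : F × F), (k : ℝ) + 1 < ‖s.1‖ →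
        Phi (‖s.1 - 0‖ ^ 2 / (k + 1) ^ 2) * |‖s.2‖ - 1| = 0 := fun s hs => by
      rw [Phi_ball_zero hk (by rw [sub_zero]; exact hs.le), zero_mul]
    have h1 := H.conv _ (by fun_prop) (hcs_two h0 hk)
    simp only [fun j q => Imm.norm_nuv (H.sm j) q, sub_self, abs_zero, mul_zero, zero_mul, bl,
      integral_zero, zero_div, sub_zero, L.norm_map] at h1
    have h2 := (hcs_two (F := Y d) h0 hk)
    simp only [sub_zero] at h2
    have h2' : Continuous fun q : Y d × Y d => Phi (‖q.1‖ ^ 2 / (k + 1) ^ 2) * |‖q.2‖ - 1| *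
      Phi (‖q.2‖ ^ 2 / (k + 1) ^ 2) := by fun_prop
    filter_upwards [(integral_eq_zero_iff_of_nonneg (fun q => mul_nonneg (mul_nonneg
      (Phi_nonneg _) (abs_nonneg _)) (Phi_nonneg _)) (h2'.integrable_of_hasCompactSupport h2)).1 (tendsto_const_nhds_iff.1 h1).symm] with q hq hn
    have h3 : ∀ {y : Y d}, ‖y‖ ≤ ‖q‖ → Phi (‖y‖ ^ 2 / (k + 1) ^ 2) = 1 := fun {y} hy => by
      simpa using Phi_ball_one (y := y) (c := 0) hk (by rw [sub_zero]; exact hy.trans hn)
    rw [h3 (norm_fst_le q), h3 (norm_snd_le q), one_mul, mul_one, Pi.zero_apply, abs_eq_zero] at hq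
    linarith
  filter_upwards [ae_all_iff.2 h] with q hq
  obtain ⟨k, hk⟩ := exists_nat_ge (2 * ‖q‖)
  exact hq k (by linarith)

theorem integrable {g : Y d × Y d → ℝ} (hg : Continuous g) (R : ℝ)
    (h0 : ∀ q, R < ‖q.1‖ → g q = 0) : Integrable g V := by
  have := H.loc
  refine (Continuous.integrable_of_hasCompactSupport (by fun_prop) (hcs_two h0 two_pos)).congr ?_
  filter_upwards [H.unit] with q hq
  rw [Phi_unit hq, mul_one]

theorem conv' (g : E (Option ι) × E (Option ι) → ℝ) (R : ℝ) (hg : Continuous g)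
    (h0 : ∀ s, R < ‖s.1‖ → g s = 0) :
    Tendsto (fun j => bl M (u j) (r j) fun q => g (ry M (u j) (p j) (r j) q, M.nuv (u j) q)) 𝒰
      (𝓝 (∫ q, g (L q.1, L q.2) ∂V)) := by
  have h6 := H.conv _ (by fun_prop) (hcs_two h0 two_pos)
  simp only [fun j q => Phi_unit (Imm.norm_nuv (H.sm j) q), mul_one] at h6
  rwa [integral_congr_ae (g := fun q => g (L q.1, L q.2)) (by
    filter_upwards [H.unit] with q hq
    rw [Phi_unit (by rw [L.norm_map, hq]), mul_one])] at h6

omit H in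
theorem Phi_far {F : Type} [NormedAddCommGroup F] {σ : ℝ} (hσ : 0 < σ) {y z : F} {R : ℝ}
    (hz : ‖z‖ ≤ R) (h : R + σ < ‖y‖) : Phi (‖y - z‖ ^ 2 / σ ^ 2) = 0 :=
  Phi_ball_zero hσ (by linarith [norm_sub_norm_le y z])

theorem integrable_Phi (y : Y d) {σ : ℝ} (hσ : 0 < σ) :
    Integrable (fun q => Phi (‖q.1 - y‖ ^ 2 / σ ^ 2)) V :=
  H.integrable (by fun_prop) _ fun _ hq => Phi_far hσ le_rfl hq

theorem conv_Phi (y : Y d) {σ : ℝ} (hσ : 0 < σ) :
    Tendsto (fun j => bl M (u j) (r j) fun q => Phi (‖ry M (u j) (p j) (r j) q - L y‖ ^ 2 / σ ^ 2))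
      𝒰 (𝓝 (∫ q, Phi (‖q.1 - y‖ ^ 2 / σ ^ 2) ∂V)) := by
  have := H.conv' (fun s => Phi (‖s.1 - L y‖ ^ 2 / σ ^ 2)) _ (by fun_prop)
    fun _ hq => Phi_far hσ le_rfl hq
  simpa only [← L.map_sub, L.norm_map] using this

theorem fin (y : Y d) {R : ℝ} (hR : 0 < R) :
    V (closedBall y R ×ˢ univ) ≤ ENNReal.ofReal (C * 2 ^ d * R ^ d) := by
  have h2 : 0 < 2 * R := by positivity
  have h1 : ∫ q, Phi (‖q.1 - y‖ ^ 2 / (2 * R) ^ 2) ∂V ≤ C * (2 * R) ^ d :=
    le_of_tendsto (H.conv_Phi y h2) (by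
      filter_upwards [ev_pos H.hr, ev_mul_le H.hr (2 * R) one_pos] with j h3 h4
      exact bl_Phi_le (H.sm j) (H.area j) h3 h2 h4 _ _)
  rw [mul_assoc, ← mul_pow]
  refine le_trans ?_ (ENNReal.ofReal_le_ofReal h1)
  rw [ofReal_integral_eq_lintegral_ofReal (H.integrable_Phi y h2) (.of_forall fun _ => Phi_nonneg _),
    ← lintegral_indicator_one (measurableSet_closedBall.prod .univ)]
  refine lintegral_mono fun q => indicator_apply_le' (fun hq => ?_) fun _ => zero_le
  rw [Phi_ball_one h2 (by rw [← dist_eq_norm]; linarith [mem_closedBall.1 hq.1])]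
  simp

theorem supp {y : Y d} (hy : InSupp V y) :
    ∃ q : ℕ → X, Tendsto (fun j => ry M (u j) (p j) (r j) (q j)) 𝒰 (𝓝 (L y)) := by
  choose q _ hq using fun j => isCompact_univ.exists_isMinOn ⟨p j, mem_univ _⟩
    ((continuous_ry (H.sm j) (p j) (r j)).sub (continuous_const (y := L y))).norm.continuousOn
  refine ⟨q, Metric.tendsto_nhds.2 fun ε hε => ?_⟩
  have h1 : 0 < ∫ q, Phi (‖q.1 - y‖ ^ 2 / ε ^ 2) ∂V := by
    rw [integral_pos_iff_support_of_nonneg (fun _ => Phi_nonneg _) (H.integrable_Phi y hε)]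
    refine (hy _ (half_pos hε)).trans_le (measure_mono fun q hq => ?_)
    rw [mem_support, Phi_ball_one hε (by rw [← dist_eq_norm]; exact (mem_ball.1 hq.1).le)]
    exact one_ne_zero
  filter_upwards [(H.conv_Phi y hε).eventually_const_lt h1] with j hj
  rw [dist_eq_norm]
  by_contra h
  simp only [fun q' => Phi_ball_zero hε ((not_lt.1 h).trans (hq j (mem_univ q'))), bl,
    integral_zero, zero_div, lt_self_iff_false] at hj

theorem low (hMon2 : Mon2Stmt) (hM : Injective M.x) {C' : ℝ} (hS : ∀ j, M.Sheet C' (u j))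
    {y : Y d} {q : ℕ → X} (hq : Tendsto (fun j => ry M (u j) (p j) (r j) (q j)) 𝒰 (𝓝 (L y)))
    {σ : ℝ} (hσ : 0 < σ) : cPhi d * σ ^ d ≤ ∫ q, Phi (‖q.1 - y‖ ^ 2 / σ ^ 2) ∂V := by
  have h1 := (tendsto_bl_move (p := p) H.sm H.area H.hr
    (G := fun s => Phi (‖s.2.1 - s.1‖ ^ 2 / σ ^ 2)) (by fun_prop) hq (‖L y‖ + 1 + σ)
    ((hq.norm.eventually_le_const (lt_add_one _)).mono fun j hj s hs => Phi_far hσ hj hs)
    fun s hs => Phi_far hσ (le_add_of_nonneg_right one_pos.le) hs).add (H.conv_Phi y hσ)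
  simp only [sub_add_cancel, zero_add] at h1
  have h2 : Tendsto (fun j => Real.exp (C' * (σ * r j))) 𝒰 (𝓝 (Real.exp (C' * (σ * 0)))) :=
    (((H.hr.mono_right nhdsWithin_le_nhds).const_mul σ).const_mul C').rexp
  have h3 := ge_of_tendsto (h2.mul (h1.div_const (σ ^ d))) (by
    filter_upwards [ev_pos H.hr] with j hj
    rw [← gTh_eq_bl hj]
    exact gTh_low hMon2 hM (H.sm j) (hS j) (q j) (mul_pos hσ hj))
  rwa [mul_zero, mul_zero, Real.exp_zero, one_mul, le_div_iff₀ (pow_pos hσ d)] at h3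

theorem zero (hMon2 : Mon2Stmt) (hM : Injective M.x) {C' : ℝ} (hS : ∀ j, M.Sheet C' (u j)) :
    InSupp V 0 := fun ε hε => by
  have h := (mul_pos (cPhi_pos d) (pow_pos hε d)).trans_le (H.low hMon2 hM hS (y := 0) (q := p)
    (by simp [ry]) hε)
  rw [integral_pos_iff_support_of_nonneg (fun _ => Phi_nonneg _) (H.integrable_Phi 0 hε)] at h
  refine h.trans_le (measure_mono fun q hq => ⟨?_, mem_univ _⟩)
  rw [mem_ball, dist_eq_norm]
  exact not_le.1 fun h' => hq (Phi_ball_zero hε h')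

/-- the calibration inequality in the limit -/
theorem cal {C' : ℝ}
    (hT : ∀ h : E (Option ι) → ℝ, Continuous h → HasCompactSupport h → Tendsto (fun j =>
      (∫ q, (∫ s, h (up s ((r j)⁻¹ • (M.x q - M.x (p j))))) ∂M.mu) / r j ^ d) 𝒰 (𝓝 (∫ y, h (L y))))
    (hC : ∀ j (f : E (Option ι) → ℝ), ContDiff ℝ ∞ f → HasCompactSupport f → (∀ y, 0 ≤ f y) →
      2 * ∫ p, f (M.gx (u j) p) ∂M.gmu (u j) ≤ ∫ p, (∫ t,
        (‖fderiv ℝ f (up t (M.x p))‖ + C' * f (up t (M.x p)))) ∂M.mu)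
    {f : Y d → ℝ} (hf : ContDiff ℝ ∞ f) (hs : HasCompactSupport f) (h0 : ∀ y, 0 ≤ f y) :
    2 * ∫ q, f q.1 ∂V ≤ ∫ y, ‖fderiv ℝ f y‖ := by
  obtain ⟨R, -, hR⟩ := exists_norm_of_hcs hs
  set g : E (Option ι) → ℝ := fun z => f (Ls L z) * cut L z with hg
  have g1 : ContDiff ℝ ∞ g := (hf.comp (Ls L).contDiff).mul (contDiff_cut L)
  have g0 : ∀ z, R + 1 < ‖z‖ → g z = 0 := fun z hz => by
    by_cases h1 : cut L z = 0
    · rw [hg]; simp only [h1, mul_zero]
    · rw [hg]; simp only [hR _ (by linarith [norm_le_of_cut L h1]), zero_mul]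
  have g2 : HasCompactSupport g := hcs_of_norm _ g0
  have g3 : ∀ z, 0 ≤ g z := fun z => mul_nonneg (h0 _) (cut_nonneg L z)
  have g4 : Continuous fun z => ‖fderiv ℝ g z‖ := (g1.continuous_fderiv (by simp)).norm
  have g5 : HasCompactSupport fun z => ‖fderiv ℝ g z‖ := (g2.fderiv ℝ).norm
  have hL : ∀ {h : E (Option ι) → ℝ}, Continuous h → HasCompactSupport h →
      Integrable fun y => h (L y) := fun hh hc => (hh.comp L.continuous).integrable_of_hasCompactSupport
        (hc.comp_isClosedEmbedding L.isometry.isClosedEmbedding)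
  have g6 : ∀ y, ‖fderiv ℝ g (L y)‖ ≤ ‖fderiv ℝ f y‖ := fun y => by
    have h1 : g =ᶠ[𝓝 (L y)] f ∘ Ls L := by
      have h2 : Continuous fun z => ‖z - L (Ls L z)‖ ^ 2 := by fun_prop
      filter_upwards [(h2.tendsto (L y)).eventually_le_const (u := 1 / 2) (by simp [Ls_L])] with z hz
      rw [hg]; simp only [cut, Phi_of_le hz, mul_one, comp_apply]
    rw [h1.fderiv_eq, fderiv_comp _ (hf.differentiable (by simp) _) (Ls L).differentiableAt,
      ContinuousLinearMap.fderiv, Ls_L]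
    refine ContinuousLinearMap.opNorm_le_bound _ (norm_nonneg _) fun w => ?_
    exact (fderiv ℝ f y).le_of_opNorm_le_of_le le_rfl (norm_Ls_le L w)
  have h1 := (H.conv' (fun s => g s.1) (R + 1) (g1.continuous.comp continuous_fst)
    fun s hs => g0 _ hs).const_mul 2
  simp only [hg, Ls_L, cut_L, mul_one] at h1
  have key : ∀ δ > 0, 2 * ∫ q, f q.1 ∂V ≤ (∫ y, ‖fderiv ℝ f y‖) + δ * ∫ y, g (L y) := by
    intro δ hδ
    have k1 : Continuous fun z => ‖fderiv ℝ g z‖ + δ * g z := g4.add (g1.continuous.const_mul δ)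
    have k2 : HasCompactSupport fun z => ‖fderiv ℝ g z‖ + δ * g z := g5.add g2.mul_left
    refine (le_of_tendsto_of_tendsto h1 (hT _ k1 k2) ?_).trans ?_
    · filter_upwards [ev_pos H.hr, ev_mul_le H.hr C' hδ] with j hj hj'
      have a1 : ContDiff ℝ ∞ fun z : E (Option ι) => (r j)⁻¹ • (z - M.gx (u j) (p j)) := by fun_prop
      have a2 := hC j _ (g1.comp a1) (g2.comp_homeomorph ((Homeomorph.subRight _).trans
        (Homeomorph.smulOfNeZero _ (inv_pos.2 hj).ne'))) fun z => g3 _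
      have a3 : ∀ z, ‖fderiv ℝ (g ∘ fun z : E (Option ι) => (r j)⁻¹ • (z - M.gx (u j) (p j))) z‖ =
          (r j)⁻¹ * ‖fderiv ℝ g ((r j)⁻¹ • (z - M.gx (u j) (p j)))‖ := fun z => by
        have a0 : HasFDerivAt (fun z : E (Option ι) => (r j)⁻¹ • (z - M.gx (u j) (p j)))
          ((r j)⁻¹ • ContinuousLinearMap.id ℝ _) z :=
          ((hasFDerivAt_id z).sub_const (M.gx (u j) (p j))).const_smul (r j)⁻¹
        rw [((g1.differentiable (by simp) _).hasFDerivAt.comp z a0).fderiv,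
          ContinuousLinearMap.comp_smul, ContinuousLinearMap.comp_id]
        exact norm_smul_of_nonneg (inv_pos.2 hj).le (fderiv ℝ g _)
      simp only [a3, comp_apply] at a2
      rw [bl, ← mul_div_assoc]
      refine div_le_div_of_nonneg_right (a2.trans ?_) (pow_pos hj d).le
      have a4 : ∀ {h : E (Option ι) → ℝ}, Continuous h → HasCompactSupport h → Integrable
          (fun q => ∫ s, h (up s ((r j)⁻¹ • (M.x q - M.x (p j))))) M.mu := fun hh hc =>
        ((continuous_fib hh hc).comp (by have := M.continuous_x; fun_prop)).integrable_of_hasCompactSupport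
          (HasCompactSupport.of_compactSpace _)
      have a5 : ∀ w : E ι, ∀ {h : E (Option ι) → ℝ}, Continuous h → HasCompactSupport h →
          Integrable fun s : ℝ => h (up s w) := fun w h hh hc => by
        obtain ⟨R', -, hR'⟩ := exists_norm_of_hcs hc
        exact (hh.comp (contDiff_up.continuous.comp (Continuous.prodMk_left w))).integrable_of_hasCompactSupport
          (hcs_of_norm R' fun s hs => hR' _ (hs.le.trans (abs_none_le (up s w))))
      have k3 : Continuous fun z => ‖fderiv ℝ g z‖ + C' * r j * g z :=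
        g4.add (g1.continuous.const_mul _)
      have k4 : HasCompactSupport fun z => ‖fderiv ℝ g z‖ + C' * r j * g z := g5.add g2.mul_left
      refine le_of_eq_of_le (integral_congr_ae (.of_forall fun q => ?_))
        (integral_mono (a4 k3 k4) (a4 k1 k2) fun q => integral_mono (a5 _ k3 k4) (a5 _ k1 k2)
          fun s => add_le_add_right (mul_le_mul_of_nonneg_right hj' (g3 _)) _)
      refine (integral_fib_scale (fun z => (r j)⁻¹ * ‖fderiv ℝ g z‖ + C' * g z) hj _ _ _).trans ?_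
      rw [← integral_const_mul]
      refine integral_congr_ae (.of_forall fun s => ?_)
      field_simp
    · rw [integral_add (hL g4 g5) ((hL g1.continuous g2).const_mul δ), integral_const_mul]
      exact add_le_add_left (integral_mono (hL g4 g5)
        ((hf.continuous_fderiv (by simp)).norm.integrable_of_hasCompactSupport (hs.fderiv ℝ).norm)
        g6) _
  refine le_of_forall_pos_le_add fun ε hε => ?_
  have h2 : 0 ≤ ∫ y, g (L y) := integral_nonneg fun y => g3 _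
  refine (key (ε / ((∫ y, g (L y)) + 1)) (by positivity)).trans (add_le_add_right ?_ _)
  rw [div_mul_eq_mul_div, div_le_iff₀ (by positivity)]
  nlinarith

end Cv
end EP
open EP

theorem blow (hT : TanStmt) (hMon2 : Mon2Stmt) (hS : SheetStmt) (hCal : CalStmt) : BlowStmt := by
  intro d ι _ _ X _ _ _ _ _ _ M F hM hF Λ 𝒰 u p r hu hr
  obtain ⟨p0, -, hp⟩ := isCompact_univ.ultrafilter_le_nhds (𝒰.map p) (by simp)
  have hp : Tendsto p 𝒰 (𝓝 p0) := hp
  obtain ⟨L0, hL0, hT⟩ := hT d ι X M inferInstance hM p0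
  obtain ⟨L, hL, hI⟩ := exists_L L0 hL0
  obtain ⟨C', -, hS⟩ := hS d ι X M F hM hF Λ
  obtain ⟨C, -, hC⟩ := hCal d ι X M F hM hF Λ
  obtain ⟨V, H⟩ := exists_cv hM (fun j => (hu j).sm) (fun j => (hC _ (hu j)).2.1) hp hr hL
  have hS' := fun j => hS _ (hu j)
  refine ⟨p0, L, V, hp, ⟨⟨_, fun y R hR => H.fin y hR⟩, H.unit, H.zero hMon2 hM hS',
    fun y hy σ hσ => H.low hMon2 hM hS' (H.supp hy).choose_spec hσ, fun f hf hs h0 => ?_⟩, hL,
    H.conv, fun y hy => H.supp hy⟩
  refine H.cal (C' := C) (fun h hh hc => ?_) (fun j g hg hc h0 => ?_) hf hs h0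
  · rw [hI h ((hh.comp L.continuous).integrable_of_hasCompactSupport
      (hc.comp_isClosedEmbedding L.isometry.isClosedEmbedding))]
    exact hT ℕ 𝒰 p r hp hr _ ((continuous_fib hh hc).comp continuous_fst) (hcs_fib hc)
  · obtain ⟨h1, h2⟩ := (hC _ (hu j)).1 g hg hc h0
    rw [← integral_halves (f := fun z => ‖fderiv ℝ g z‖ + C * g z)
      ((hg.continuous_fderiv (by simp)).norm.add (hg.continuous.const_mul C))
      ((hc.fderiv ℝ).norm.add hc.mul_left) (hu j).sm.continuous]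
    linarith

end Crest.Agent.N222

end
end

-- ▼ part N222/B/LV1
section

/-!
# Row 222, part B, ε-regularity block: thin slabs (LV1, LV3)
-/

set_option autoImplicit false
set_option linter.unusedSectionVars false
open MeasureTheory Set Filter Topology Function Metric
open scoped ContDiff InnerProductSpace RealInnerProductSpace

noncomputable section

namespace Crest.Agent.N222

namespace EP

/-- the slab profile -/
def slb (t : ℝ) : ℝ := Phi (t ^ 2)

theorem slb_zero : slb 0 = 1 := Phi_of_le (by norm_num)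
theorem slb_nonneg (t : ℝ) : 0 ≤ slb t := Phi_nonneg _
theorem slb_le_one (t : ℝ) : slb t ≤ 1 := Phi_le_one _
theorem contDiff_slb {k : ℕ∞} : ContDiff ℝ k slb := contDiff_Phi.comp (contDiff_id.pow 2)
theorem slb_of_ge {t : ℝ} (h : 1 ≤ |t|) : slb t = 0 :=
  Phi_of_ge (by rw [← sq_abs]; nlinarith)
theorem hcs_slb : HasCompactSupport slb :=
  hcs_of_norm 1 fun _ hy => slb_of_ge (by simpa using hy.le)
theorem deriv_slb (t : ℝ) : deriv slb t = deriv Phi (t ^ 2) * (2 * t) := by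
  have h1 : HasDerivAt Phi (deriv Phi (t ^ 2)) (t ^ 2) :=
    ((contDiff_Phi (n := 1)).differentiable (by simp) _).hasDerivAt
  have h2 : HasDerivAt (fun t : ℝ => t ^ 2) (2 * t) t := by simpa using hasDerivAt_pow 2 t
  exact (HasDerivAt.comp (h₂ := Phi) (h := fun t : ℝ => t ^ 2) t h1 h2).deriv
theorem continuous_deriv_slb : Continuous (deriv slb) :=
  (contDiff_slb (k := 1)).continuous_deriv (by simp)
theorem integrable_deriv_slb : Integrable fun t => |deriv slb t| :=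
  (continuous_deriv_slb.integrable_of_hasCompactSupport hcs_slb.deriv).abs

theorem integral_deriv_slb : ∫ t, |deriv slb t| = 2 := by
  have h1 : ∫ t in Iic 0, |deriv slb t| = 1 := by
    rw [← slb_zero, ← hcs_slb.integral_Iic_deriv_eq (contDiff_slb (k := 1)) 0]
    refine setIntegral_congr_fun measurableSet_Iic fun t ht => abs_of_nonneg ?_
    rw [deriv_slb]
    exact mul_nonneg_of_nonpos_of_nonpos Phi_anti.deriv_nonpos (by linarith [mem_Iic.1 ht])
  have h2 : ∫ t in Ioi 0, |deriv slb t| = 1 := by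
    rw [← slb_zero, ← neg_neg (slb 0), ← hcs_slb.integral_Ioi_deriv_eq (contDiff_slb (k := 1)) 0,
      ← integral_neg]
    refine setIntegral_congr_fun measurableSet_Ioi fun t ht => abs_of_nonpos ?_
    rw [deriv_slb]
    exact mul_nonpos_of_nonpos_of_nonneg Phi_anti.deriv_nonpos (by linarith [mem_Ioi.1 ht])
  rw [← intervalIntegral.integral_Iic_add_Ioi integrable_deriv_slb.integrableOn
    integrable_deriv_slb.integrableOn, h1, h2]
  norm_num

section
variable {F : Type} [NormedAddCommGroup F] [InnerProductSpace ℝ F]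

theorem contDiff_slb_inner (w : F) (δ : ℝ) : ContDiff ℝ ∞ fun y : F => slb (⟪w, y⟫ / δ) :=
  contDiff_slb.comp ((contDiff_const.inner ℝ contDiff_id).div_const δ)

theorem norm_fderiv_slb {w : F} (hw : ‖w‖ = 1) {δ : ℝ} (hδ : 0 < δ) (y : F) :
    ‖fderiv ℝ (fun y : F => slb (⟪w, y⟫ / δ)) y‖ ≤ |deriv slb (⟪w, y⟫ / δ)| / δ := by
  have h1 : HasDerivAt slb (deriv slb (⟪w, y⟫ / δ)) (⟪w, y⟫ / δ) :=
    ((contDiff_slb (k := 1)).differentiable (by simp) _).hasDerivAt
  have h2 : HasFDerivAt (fun y : F => ⟪w, y⟫ / δ) (δ⁻¹ • innerSL ℝ w) y := by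
    have := (innerSL ℝ w).hasFDerivAt (x := y) |>.const_smul δ⁻¹
    refine this.congr_of_eventuallyEq (.of_forall fun z => ?_)
    simp [div_eq_inv_mul]
  have h3 := (h1.comp_hasFDerivAt y h2).fderiv
  rw [show (fun y : F => slb (⟪w, y⟫ / δ)) = slb ∘ fun y : F => ⟪w, y⟫ / δ from rfl, h3,
    norm_smul, norm_smul, innerSL_apply_norm, hw, Real.norm_eq_abs, Real.norm_eq_abs,
    abs_of_pos (inv_pos.2 hδ), mul_one, div_eq_mul_inv |_|]

variable [FiniteDimensional ℝ F] [MeasurableSpace F] [BorelSpace F]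

/-- thin slabs carry no mass -/
theorem tendsto_slb {g : F → ℝ} (hg : Integrable g) {w : F} (hw : w ≠ 0) :
    Tendsto (fun δ : ℝ => ∫ y, g y * slb (⟪w, y⟫ / δ)) (𝓝[>] 0) (𝓝 0) := by
  have := tendsto_integral_filter_of_dominated_convergence (μ := (volume : Measure F))
    (l := 𝓝[>] (0 : ℝ)) (F := fun δ y => g y * slb (⟪w, y⟫ / δ)) (f := fun _ => 0)
    (fun y => ‖g y‖)
    (.of_forall fun δ => hg.1.mul (contDiff_slb_inner w δ).continuous.aestronglyMeasurable)
    (.of_forall fun δ => .of_forall fun y => by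
      rw [norm_mul, Real.norm_of_nonneg (slb_nonneg _)]
      exact mul_le_of_le_one_right (norm_nonneg _) (slb_le_one _)) hg.norm ?_
  · simpa using this
  · filter_upwards [ae_inner_ne (c := 0) (Or.inl hw)] with y hy
    refine tendsto_const_nhds.congr' ?_
    filter_upwards [Ioo_mem_nhdsGT (abs_pos.2 hy)] with δ hδ
    rw [slb_of_ge, mul_zero]
    rw [abs_div, abs_of_pos hδ.1, one_le_div hδ.1]
    exact hδ.2.le

end

variable {d : ℕ} {V : Measure (Y d × Y d)} {n : Y d} {J : E (Fin d) →ₗᵢ[ℝ] Y d}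

/-- the slice integrals are continuous and bounded -/
theorem Split.slice (h : Split n J) {f : Y d → ℝ} (hf : Continuous f) (hc : HasCompactSupport f) :
    (Continuous fun s : ℝ => ∫ z, f (s • n + J z)) ∧
      ∃ C : ℝ, ∀ s : ℝ, ‖∫ z, f (s • n + J z)‖ ≤ C := by
  obtain ⟨R, hR, h0⟩ := exists_norm_of_hcs hc
  obtain ⟨C, hC⟩ := hf.bounded_above_of_compact_support hc
  have hb : Integrable ((closedBall (0 : E (Fin d)) R).indicator fun _ => C) :=
    (integrable_indicator_iff measurableSet_closedBall).2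
      (integrableOn_const (isCompact_closedBall _ _).measure_lt_top.ne)
  have hle : ∀ (s : ℝ) (z : E (Fin d)),
      ‖f (s • n + J z)‖ ≤ (closedBall (0 : E (Fin d)) R).indicator (fun _ => C) z := by
    intro s z
    by_cases hz : z ∈ closedBall (0 : E (Fin d)) R
    · rw [indicator_of_mem hz]; exact hC _
    · rw [indicator_of_notMem hz, h0, norm_zero]
      rw [mem_closedBall_zero_iff, not_le] at hz
      refine le_of_sq_le_sq ?_ (norm_nonneg _)
      rw [h.norm_sq]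
      nlinarith [sq_nonneg s]
  refine ⟨continuous_of_dominated (fun s => ?_) (fun s => .of_forall (hle s)) hb
    (.of_forall fun z => by fun_prop), _, fun s => norm_integral_le_of_norm_le hb
    (.of_forall (hle s))⟩
  exact (by fun_prop : Continuous fun z => f (s • n + J z)).aestronglyMeasurable

theorem Split.tendsto_bd (h : Split n J) {f : Y d → ℝ} (hf : Continuous f)
    (hc : HasCompactSupport f) :
    Tendsto (fun δ : ℝ => ∫ y, f y * (|deriv slb (⟪n, y⟫ / δ)| / δ)) (𝓝[>] 0)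
      (𝓝 (2 * ∫ z, f (J z))) := by
  obtain ⟨hm, C, hC⟩ := h.slice hf hc
  set m : ℝ → ℝ := fun s => ∫ z, f (s • n + J z) with hmd
  have e0 : 2 * ∫ z, f (J z) = ∫ t, m 0 * |deriv slb t| := by
    rw [integral_const_mul, integral_deriv_slb, mul_comm]
    simp [hmd]
  have h1 : Tendsto (fun δ : ℝ => ∫ t, m (δ * t) * |deriv slb t|) (𝓝[>] 0)
      (𝓝 (∫ t, m 0 * |deriv slb t|)) := by
    refine tendsto_integral_filter_of_dominated_convergence (fun t => C * |deriv slb t|)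
      (.of_forall fun δ => ?_) (.of_forall fun δ => .of_forall fun t => ?_)
      (integrable_deriv_slb.const_mul C) (.of_forall fun t => ?_)
    · exact ((hm.comp (continuous_const.mul continuous_id)).mul
        continuous_deriv_slb.abs).aestronglyMeasurable
    · rw [norm_mul, Real.norm_of_nonneg (abs_nonneg _)]
      exact mul_le_mul_of_nonneg_right (hC _) (abs_nonneg _)
    · refine Tendsto.mul_const _ (Tendsto.mono_left ?_ nhdsWithin_le_nhds)
      have : Continuous fun δ : ℝ => m (δ * t) := hm.comp (continuous_id.mul continuous_const)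
      simpa using this.tendsto 0
  rw [e0]
  refine h1.congr' ?_
  filter_upwards [self_mem_nhdsWithin] with δ hδ
  have hδ : 0 < δ := hδ
  have hcont : Continuous fun y : Y d => |deriv slb (⟪n, y⟫ / δ)| / δ :=
    ((continuous_deriv_slb.comp ((continuous_const.inner continuous_id).div_const δ)).abs).div_const δ
  rw [h.integral_eq (f := fun y => f y * (|deriv slb (⟪n, y⟫ / δ)| / δ))
    ((hf.mul hcont).integrable_of_hasCompactSupport hc.mul_right)]
  simp only [h.inner_apply, integral_mul_const]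
  have e1 := Measure.integral_comp_mul_left (fun s => m s * (|deriv slb (s / δ)| / δ)) δ
  simp only [mul_div_cancel_left₀ _ hδ.ne', ← mul_div_assoc, integral_div] at e1
  rw [abs_of_pos (inv_pos.2 hδ), smul_eq_mul, div_eq_iff hδ.ne'] at e1
  simp only [← mul_div_assoc, integral_div]
  rw [e1]
  field_simp
  rfl

/-- thin slab: support in a hyperplane gives multiplicity at most one -/
theorem slab (H : LimV d V) (h : Split n J) (hs : ∀ y, InSupp V y → ⟪n, y⟫ = 0) {f : Y d → ℝ}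
    (hf : ContDiff ℝ ∞ f) (hc : HasCompactSupport f) (h0 : ∀ y, 0 ≤ f y) :
    ∫ q, f q.1 ∂V ≤ ∫ z, f (J z) := by
  have hn : n ≠ 0 := fun e => by simpa [e] using h.unit
  have hDc : Continuous fun y => ‖fderiv ℝ f y‖ := (hf.continuous_fderiv (by simp)).norm
  have hDs : HasCompactSupport fun y => ‖fderiv ℝ f y‖ := (hc.fderiv ℝ).norm
  have hD : Integrable fun y => ‖fderiv ℝ f y‖ := hDc.integrable_of_hasCompactSupport hDs
  have hlim := (tendsto_slb hD hn).add (h.tendsto_bd hf.continuous hc)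
  have key : 2 * ∫ q, f q.1 ∂V ≤ 0 + 2 * ∫ z, f (J z) := by
    refine ge_of_tendsto hlim ?_
    filter_upwards [self_mem_nhdsWithin] with δ hδ
    have hδ : 0 < δ := hδ
    have hcont : Continuous fun y : Y d => |deriv slb (⟪n, y⟫ / δ)| / δ :=
      ((continuous_deriv_slb.comp
        ((continuous_const.inner continuous_id).div_const δ)).abs).div_const δ
    have hS := contDiff_slb_inner n δ
    have h1 := H.cal (fun y => f y * slb (⟪n, y⟫ / δ)) (hf.mul hS) hc.mul_right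
      fun y => mul_nonneg (h0 y) (slb_nonneg _)
    have h2 : ∫ q, f q.1 * slb (⟪n, q.1⟫ / δ) ∂V = ∫ q, f q.1 ∂V := by
      refine integral_congr_ae ?_
      filter_upwards [ae_inSupp V] with q hq
      rw [hs _ hq, zero_div, slb_zero, mul_one]
    have i1 : Integrable fun y => ‖fderiv ℝ f y‖ * slb (⟪n, y⟫ / δ) :=
      (hDc.mul hS.continuous).integrable_of_hasCompactSupport hDs.mul_right
    have i2 : Integrable fun y => f y * (|deriv slb (⟪n, y⟫ / δ)| / δ) :=
      (hf.continuous.mul hcont).integrable_of_hasCompactSupport hc.mul_right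
    rw [h2] at h1
    rw [← integral_add i1 i2]
    refine h1.trans (integral_mono_of_nonneg (.of_forall fun y => norm_nonneg _) (i1.add i2)
      (.of_forall fun y => ?_))
    simp only
    rw [fderiv_fun_mul (hf.differentiable (by simp) y) (hS.differentiable (by simp) y),
      add_comm (f y • _)]
    refine (norm_add_le _ _).trans (add_le_add ?_ ?_)
    · rw [norm_smul, Real.norm_of_nonneg (slb_nonneg _), mul_comm]
    · rw [norm_smul, Real.norm_of_nonneg (h0 y)]
      exact mul_le_mul_of_nonneg_left (norm_fderiv_slb h.unit hδ y) (h0 y)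
  linarith

theorem contDiff_Phi_sq : ContDiff ℝ ∞ fun y : Y d => Phi (‖y‖ ^ 2) := by
  simpa using contDiff_Phi_ball (0 : Y d) 1

theorem hcs_Phi_sq {F : Type} [NormedAddCommGroup F] [ProperSpace F] :
    HasCompactSupport fun y : F => Phi (‖y‖ ^ 2) := by
  simpa using hcs_Phi (0 : F) one_pos

/-- the support does not lie in a subspace of codimension two -/
theorem codim_two (H : LimV d V) {e w : Y d} (he : ‖e‖ = 1) (hw : ‖w‖ = 1)
    (h1 : ∀ y, InSupp V y → ⟪e, y⟫ = 0) (h2 : ∀ y, InSupp V y → ⟪w, y⟫ = 0) :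
    w = e ∨ w = -e := by
  obtain ⟨J, h⟩ := exists_split he
  obtain ⟨z0, hz0⟩ := h.surj w
  by_cases hz : z0 = 0
  · rw [hz, map_zero, add_zero] at hz0
    have h3 : |⟪e, w⟫| = 1 := by
      have := congrArg norm hz0
      rw [norm_smul, he, hw, mul_one, Real.norm_eq_abs] at this
      exact this.symm
    rcases (abs_eq zero_le_one).1 h3 with h4 | h4
    · left; rw [hz0, h4, one_smul]
    · right; rw [hz0, h4, neg_smul, one_smul]
  · exfalso
    have hin : ∀ z, ⟪w, J z⟫ = ⟪z0, z⟫ := fun z => by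
      rw [hz0, inner_add_left, inner_smul_left, h.orth, mul_zero, zero_add, J.inner_map_map]
    have hI : Integrable fun z : E (Fin d) => Phi (‖z‖ ^ 2) :=
      (by fun_prop : Continuous fun z : E (Fin d) => Phi (‖z‖ ^ 2)).integrable_of_hasCompactSupport
        hcs_Phi_sq
    have hlow : cPhi d ≤ ∫ q, Phi (‖q.1‖ ^ 2) ∂V := by simpa using H.low 0 H.zero 1 one_pos
    refine (cPhi_pos d).not_ge (ge_of_tendsto' (tendsto_slb hI hz) fun δ => hlow.trans ?_)
    have h3 := slab H h h1 (f := fun y => Phi (‖y‖ ^ 2) * slb (⟪w, y⟫ / δ))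
      (contDiff_Phi_sq.mul (contDiff_slb_inner w δ)) hcs_Phi_sq.mul_right
      fun y => mul_nonneg (Phi_nonneg _) (slb_nonneg _)
    simp only [hin, J.norm_map] at h3
    refine le_of_eq_of_le (integral_congr_ae ?_) h3
    filter_upwards [ae_inSupp V] with q hq
    rw [h2 _ hq, zero_div, slb_zero, mul_one]

end EP

open EP

theorem lv1 : LV1Stmt := by
  intro d V H n hn hs
  obtain ⟨J, h⟩ := exists_split (n := ‖n‖⁻¹ • n) (norm_smul_inv_norm hn)
  have := slab H h (fun y hy => by rw [inner_smul_left, hs y hy, mul_zero]) contDiff_Phi_sq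
    hcs_Phi_sq fun y => Phi_nonneg _
  simpa only [J.norm_map, cPhi] using this

theorem lv3 : LV3Stmt := by
  intro d V H hs
  obtain ⟨t, ht, htc, htd⟩ := (TopologicalSpace.IsSeparable.of_separableSpace
    {y | InSupp V y}).exists_countable_dense_subset
  have good : ∀ᵐ q ∂V, ‖q.2‖ = 1 ∧ ∀ y, InSupp V y → ⟪q.2, y⟫ = 0 := by
    filter_upwards [H.unit, (ae_ball_iff htc).2 fun y hy => hs y (ht hy)] with q h1 h2
    have h3 : ∀ y, InSupp V y → ⟪q.1 - y, q.2⟫ = 0 := fun y hy =>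
      closure_minimal (t := {y | ⟪q.1 - y, q.2⟫ = 0}) h2
        (isClosed_eq (by fun_prop) continuous_const) (htd hy)
    refine ⟨h1, fun y hy => ?_⟩
    have h4 := h3 y hy
    have h5 := h3 0 H.zero
    rw [sub_zero] at h5
    rw [inner_sub_left, h5, zero_sub, neg_eq_zero] at h4
    rw [real_inner_comm, h4]
  have hV : V ≠ 0 := fun e => by simpa [e] using H.zero 1 one_pos
  have : (ae V).NeBot := ae_neBot.2 hV
  obtain ⟨q0, h1, h2⟩ := good.exists
  refine ⟨q0.2, h1, ?_⟩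
  filter_upwards [good] with q hq
  exact codim_two H h1 hq.1 h2 hq.2

end Crest.Agent.N222

end
end

-- ▼ part N222/B/TwoPl
section

/-!
# Row 222, part B, ε-regularity block: two planes violate the calibration inequality
-/

set_option autoImplicit false
set_option linter.unusedSectionVars false
open MeasureTheory Set Filter Topology Function Metric
open scoped ContDiff InnerProductSpace RealInnerProductSpace

noncomputable section

namespace Crest.Agent.N222

namespace EP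
variable {d : ℕ} {n1 n2 : Y d} {J1 J2 : E (Fin d) →ₗᵢ[ℝ] Y d}

namespace TP

section gauss
variable {F : Type} [NormedAddCommGroup F] [InnerProductSpace ℝ F] [FiniteDimensional ℝ F]
  [MeasurableSpace F] [BorelSpace F]

theorem integrable_gauss {b : ℝ} (hb : 0 < b) :
    Integrable fun y : F => Real.exp (-b * ‖y‖ ^ 2) := by
  refine (GaussianFourier.integrable_cexp_neg_mul_sq_norm_add (V := F) (b := b)
    (by simpa using hb) 0 0).norm.congr (.of_forall fun y => ?_)
  simp only [zero_mul, add_zero, Complex.norm_exp]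
  congr 1
  rw [← Complex.ofReal_neg, ← Complex.ofReal_pow, ← Complex.ofReal_mul, Complex.ofReal_re]

theorem integrable_of_le {u : F → ℝ} (hu : Continuous u) {b C : ℝ} (hb : 0 < b) (hC : 0 ≤ C)
    (h : ∀ y, |u y| ≤ C * (1 + ‖y‖ ^ 2) * Real.exp (-b * ‖y‖ ^ 2)) : Integrable u := by
  refine ((integrable_gauss (half_pos hb)).const_mul (C * (1 + 2 / b))).mono'
    hu.aestronglyMeasurable (.of_forall fun y => (h y).trans ?_)
  have e : Real.exp (-(b / 2) * ‖y‖ ^ 2)
      = Real.exp (b / 2 * ‖y‖ ^ 2) * Real.exp (-b * ‖y‖ ^ 2) := by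
    rw [← Real.exp_add]; congr 1; ring
  have h1 := Real.add_one_le_exp (b / 2 * ‖y‖ ^ 2)
  have h2 : 1 + ‖y‖ ^ 2 ≤ (1 + 2 / b) * (b / 2 * ‖y‖ ^ 2 + 1) := by
    have : (1 + 2 / b) * (b / 2 * ‖y‖ ^ 2 + 1) = 1 + ‖y‖ ^ 2 + (b / 2 * ‖y‖ ^ 2 + 2 / b) := by
      field_simp; ring
    rw [this]; exact le_add_of_nonneg_right (by positivity)
  rw [e, ← mul_assoc, mul_assoc C (1 + 2 / b)]
  gcongr
  exact h2.trans (mul_le_mul_of_nonneg_left h1 (by positivity))

end gauss

/-- the calibration inequality for two planes through `s₁ n₁` and `s₂ n₂` -/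
def Cal (n1 n2 : Y d) (J1 J2 : E (Fin d) →ₗᵢ[ℝ] Y d) (s1 s2 : ℝ) : Prop :=
  ∀ f : Y d → ℝ, ContDiff ℝ ∞ f → HasCompactSupport f → (∀ y, 0 ≤ f y) →
    2 * ((∫ z, f (s1 • n1 + J1 z)) + ∫ z, f (s2 • n2 + J2 z)) ≤ ∫ y, ‖fderiv ℝ f y‖

theorem plane_eq {n : Y d} {J : E (Fin d) →ₗᵢ[ℝ] Y d} (h : Split n J) (f : Y d → ℝ) (y : Y d) :
    ∫ z, f (y + J z) = ∫ z, f (⟪n, y⟫ • n + J z) := by
  obtain ⟨w, hw⟩ := h.surj y
  rw [← integral_add_left_eq_self (fun z => f (⟪n, y⟫ • n + J z)) w]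
  refine integral_congr_ae (.of_forall fun z => ?_)
  beta_reduce
  rw [map_add, ← add_assoc, ← hw]

theorem plane_scale (n : Y d) (J : E (Fin d) →ₗᵢ[ℝ] Y d) (f : Y d → ℝ) (s : ℝ) {l : ℝ}
    (hl : 0 < l) : ∫ z, f (l⁻¹ • (s • n + J z)) = l ^ d * ∫ z, f ((l⁻¹ * s) • n + J z) := by
  have := Measure.integral_comp_inv_smul_of_nonneg volume
    (fun z => f ((l⁻¹ * s) • n + J z)) hl.le
  rw [finrank_euclideanSpace_fin, smul_eq_mul] at this
  rw [← this]
  simp only [smul_add, map_smul, smul_smul]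

theorem norm_fderiv_scale {f : Y d → ℝ} (hf : Differentiable ℝ f) {c : ℝ} (hc : 0 ≤ c) (y : Y d) :
    ‖fderiv ℝ (fun y => f (c • y)) y‖ = c * ‖fderiv ℝ f (c • y)‖ := by
  have h : HasFDerivAt (fun y => f (c • y)) _ y :=
    (hf (c • y)).hasFDerivAt.comp y ((hasFDerivAt_id y).const_smul c)
  rw [h.fderiv, ContinuousLinearMap.comp_smul, ContinuousLinearMap.comp_id, norm_smul, Real.norm_of_nonneg hc]

/-- blowing down -/
theorem Cal.scale {s1 s2 : ℝ} (h : Cal n1 n2 J1 J2 s1 s2) {l : ℝ} (hl : 0 < l) :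
    Cal n1 n2 J1 J2 (l⁻¹ * s1) (l⁻¹ * s2) := fun f hf hc h0 => by
  have := h (fun y => f (l⁻¹ • y)) (hf.comp (contDiff_const_smul _))
    (hc.comp_homeomorph (Homeomorph.smulOfNeZero l⁻¹ (inv_ne_zero hl.ne'))) fun _ => h0 _
  simp only [norm_fderiv_scale (hf.differentiable (by simp)) (inv_nonneg.2 hl.le)] at this
  rw [plane_scale _ _ _ _ hl, plane_scale _ _ _ _ hl, integral_const_mul,
    Measure.integral_comp_inv_smul_of_nonneg volume (fun y => ‖fderiv ℝ f y‖) hl.le,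
    finrank_euclideanSpace_fin, smul_eq_mul, ← mul_add, pow_succ' l, mul_assoc l,
    inv_mul_cancel_left₀ hl.ne', mul_left_comm] at this
  exact le_of_mul_le_mul_left this (pow_pos hl d)

/-- the cut-off -/
def chi (y : Y d) : ℝ := Phi (‖y - 0‖ ^ 2 / 1 ^ 2)

theorem tendsto_plane {n : Y d} {J : E (Fin d) →ₗᵢ[ℝ] Y d} (h : Split n J) {g : Y d → ℝ}
    (hg : Continuous g) {b : ℝ} (hb : 0 < b) (h0 : ∀ y, 0 ≤ g y)
    (hle : ∀ y, g y ≤ Real.exp (-b * ‖y‖ ^ 2)) (s : ℝ) {c : ℕ → ℝ} (hc : Tendsto c atTop (𝓝 0)) :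
    Tendsto (fun k => ∫ z, g ((c k * s) • n + J z) * chi (c k • ((c k * s) • n + J z))) atTop
      (𝓝 (∫ z, g (J z))) := by
  have hχ : Continuous (chi : Y d → ℝ) := (contDiff_Phi_ball 0 1).continuous
  refine tendsto_integral_of_dominated_convergence (fun z => Real.exp (-b * ‖z‖ ^ 2))
    (fun k => Continuous.aestronglyMeasurable (by fun_prop)) (integrable_gauss hb)
    (fun k => .of_forall fun z => ?_) (.of_forall fun z => ?_)
  · rw [chi, Real.norm_of_nonneg (mul_nonneg (h0 _) (Phi_nonneg _))]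
    refine (mul_le_of_le_one_right (h0 _) (Phi_le_one _)).trans ((hle _).trans ?_)
    rw [h.norm_sq]
    exact Real.exp_le_exp.2 (by nlinarith [sq_nonneg (c k * s)])
  · have hF : Continuous fun t : ℝ => g ((t * s) • n + J z) * chi (t • ((t * s) • n + J z)) := by
      fun_prop
    have := (hF.tendsto 0).comp hc
    rw [zero_mul, zero_smul, zero_smul, zero_add, chi, Phi_of_le (by simp), mul_one] at this
    exact this

/-- the inequality for planes through the origin and rapidly decreasing functions -/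
theorem Cal.gauss (h1 : Split n1 J1) (h2 : Split n2 J2) {s1 s2 : ℝ} (h : Cal n1 n2 J1 J2 s1 s2)
    {g : Y d → ℝ} (hg : ContDiff ℝ ∞ g) {b : ℝ} (hb : 0 < b) (h0 : ∀ y, 0 ≤ g y)
    (hle : ∀ y, g y ≤ Real.exp (-b * ‖y‖ ^ 2)) (hD : Integrable fun y => ‖fderiv ℝ g y‖) :
    2 * ((∫ z, g (J1 z)) + ∫ z, g (J2 z)) ≤ ∫ y, ‖fderiv ℝ g y‖ := by
  have hχ : ContDiff ℝ ∞ (chi : Y d → ℝ) := contDiff_Phi_ball 0 1
  have hχc : HasCompactSupport (chi : Y d → ℝ) := hcs_Phi 0 one_pos
  obtain ⟨C, hC⟩ := (hχ.continuous_fderiv (by simp)).bounded_above_of_compact_support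
    (hχc.fderiv ℝ)
  have hgi : Integrable g := (integrable_gauss hb).mono' hg.continuous.aestronglyMeasurable
    (.of_forall fun y => by rw [Real.norm_of_nonneg (h0 y)]; exact hle y)
  have hc : Tendsto (fun k : ℕ => ((k : ℝ) + 1)⁻¹) atTop (𝓝 0) := by
    simpa using tendsto_one_div_add_atTop_nhds_zero_nat (𝕜 := ℝ)
  have hr := ((hc.mul_const (C * ∫ y, g y)).const_add (∫ y, ‖fderiv ℝ g y‖))
  rw [zero_mul, add_zero] at hr
  refine le_of_tendsto_of_tendsto' (((tendsto_plane h1 hg.continuous hb h0 hle s1 hc).add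
    (tendsto_plane h2 hg.continuous hb h0 hle s2 hc)).const_mul 2) hr fun k => ?_
  have hk : (0 : ℝ) < k + 1 := by positivity
  have hχk : ContDiff ℝ ∞ fun y : Y d => chi (((k : ℝ) + 1)⁻¹ • y) :=
    hχ.comp (contDiff_const_smul _)
  refine (h.scale hk (fun y => g y * chi (((k : ℝ) + 1)⁻¹ • y)) (hg.mul hχk)
    (hχc.comp_homeomorph (Homeomorph.smulOfNeZero _ (inv_ne_zero hk.ne'))).mul_left
    fun y => mul_nonneg (h0 _) (Phi_nonneg _)).trans ?_
  rw [← mul_assoc, ← integral_const_mul, ← integral_add hD (hgi.const_mul _)]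
  refine integral_mono_of_nonneg (.of_forall fun _ => norm_nonneg _) (hD.add (hgi.const_mul _))
    (.of_forall fun y => ?_)
  beta_reduce
  rw [fderiv_fun_mul (hg.differentiable (by simp) y) (hχk.differentiable (by simp) y)]
  refine (norm_add_le _ _).trans ((add_comm _ _).trans_le (add_le_add ?_ ?_))
  · rw [norm_smul, chi, Real.norm_of_nonneg (Phi_nonneg _)]
    exact mul_le_of_le_one_left (norm_nonneg _) (Phi_le_one _)
  · rw [norm_smul, Real.norm_of_nonneg (h0 _), mul_comm,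
      norm_fderiv_scale (hχ.differentiable (by simp)) (inv_nonneg.2 hk.le)]
    gcongr
    · exact h0 _
    · exact hC _

/-- the gradient of the quadratic form -/
def A (n1 n2 : Y d) (ε : ℝ) (y : Y d) : Y d := ⟪n1, y⟫ • n1 + ⟪n2, y⟫ • n2 + ε • y

/-- the anisotropic Gaussian -/
def g (n1 n2 : Y d) (ε : ℝ) (y : Y d) : ℝ :=
  Real.exp (-(⟪n1, y⟫ ^ 2 + ⟪n2, y⟫ ^ 2 + ε * ‖y‖ ^ 2) / 2)

variable {ε : ℝ}

theorem g_comm (n1 n2 : Y d) (ε : ℝ) : g n1 n2 ε = g n2 n1 ε := by
  funext y; rw [g, g, add_comm (⟪n1, y⟫ ^ 2)]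

theorem g_pos (y : Y d) : 0 < g n1 n2 ε y := Real.exp_pos _

theorem g_le (y : Y d) : g n1 n2 ε y ≤ Real.exp (-(ε / 2) * ‖y‖ ^ 2) :=
  Real.exp_le_exp.2 (by nlinarith [sq_nonneg ⟪n1, y⟫, sq_nonneg ⟪n2, y⟫])

theorem contDiff_g : ContDiff ℝ ∞ (g n1 n2 ε) :=
  (((((contDiff_const.inner ℝ contDiff_id).pow 2).add
    ((contDiff_const.inner ℝ contDiff_id).pow 2)).add
    (contDiff_const.mul (contDiff_norm_sq ℝ))).neg.div_const 2).exp

theorem continuous_A : Continuous (A n1 n2 ε) := by unfold A; fun_prop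

theorem fderiv_g (y v : Y d) :
    fderiv ℝ (g n1 n2 ε) y v = -(g n1 n2 ε y * ⟪A n1 n2 ε y, v⟫) := by
  have h : HasFDerivAt (g n1 n2 ε) _ y :=
    ((((((innerSL ℝ n1).hasFDerivAt.pow 2).add ((innerSL ℝ n2).hasFDerivAt.pow 2)).add
      ((hasStrictFDerivAt_norm_sq y).hasFDerivAt.const_mul ε)).neg.mul_const (2⁻¹ : ℝ)).exp)
  rw [h.fderiv, g, A]
  simp [inner_add_left, inner_smul_left, div_eq_mul_inv]
  ring

theorem norm_A_le (hn1 : ‖n1‖ = 1) (hn2 : ‖n2‖ = 1) (hε : 0 < ε) (y : Y d) :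
    ‖A n1 n2 ε y‖ ≤ (2 + ε) * ‖y‖ := by
  have a1 := abs_real_inner_le_norm n1 y
  have a2 := abs_real_inner_le_norm n2 y
  have := norm_add₃_le (a := ⟪n1, y⟫ • n1) (b := ⟪n2, y⟫ • n2) (c := ε • y)
  simp only [norm_smul, hn1, hn2, Real.norm_eq_abs, abs_of_pos hε, one_mul, mul_one] at *
  rw [A]; linarith

theorem int_mul (hε : 0 < ε) {p : Y d → ℝ} (hp : Continuous p) {C : ℝ} (hC : 0 ≤ C)
    (h : ∀ y, |p y| ≤ C * (1 + ‖y‖ ^ 2)) : Integrable fun y => p y * g n1 n2 ε y :=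
  integrable_of_le (hp.mul contDiff_g.continuous) (half_pos hε) hC fun y => by
    rw [abs_mul, abs_of_pos (g_pos y)]
    exact mul_le_mul (h y) (g_le y) (g_pos y).le (by positivity)

theorem int_g (hε : 0 < ε) : Integrable (g n1 n2 ε) := by
  simpa using int_mul (n1 := n1) (n2 := n2) hε (continuous_const (y := 1)) zero_le_one
    fun y => by simp

theorem int_ibp (hn1 : ‖n1‖ = 1) (hn2 : ‖n2‖ = 1) (hε : 0 < ε) (u v : Y d) :
    Integrable fun y => ⟪u, y⟫ * ⟪A n1 n2 ε y, v⟫ * g n1 n2 ε y := by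
  have := continuous_A (n1 := n1) (n2 := n2) (ε := ε)
  refine int_mul hε (by fun_prop) (C := ‖u‖ * ((2 + ε) * ‖v‖)) (by positivity) fun y => ?_
  rw [abs_mul]
  calc _ ≤ ‖u‖ * ‖y‖ * ((2 + ε) * ‖y‖ * ‖v‖) := by
        gcongr
        · exact abs_real_inner_le_norm _ _
        · exact (abs_real_inner_le_norm _ _).trans (by gcongr; exact norm_A_le hn1 hn2 hε y)
    _ = ‖u‖ * ((2 + ε) * ‖v‖) * ‖y‖ ^ 2 := by ring
    _ ≤ _ := by gcongr; linarith

/-- Gaussian integration by parts -/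
theorem ibp (hn1 : ‖n1‖ = 1) (hn2 : ‖n2‖ = 1) (hε : 0 < ε) (u v : Y d) :
    ∫ y, ⟪u, y⟫ * ⟪A n1 n2 ε y, v⟫ * g n1 n2 ε y = ⟪u, v⟫ * ∫ y, g n1 n2 ε y := by
  have e : ∀ y, fderiv ℝ (fun y : Y d => ⟪u, y⟫) y v = ⟪u, v⟫ := fun y =>
    congrArg (· v) (innerSL ℝ u).hasFDerivAt.fderiv
  have e' : ∀ y, ⟪u, y⟫ * fderiv ℝ (g n1 n2 ε) y v
      = -(⟪u, y⟫ * ⟪A n1 n2 ε y, v⟫ * g n1 n2 ε y) := fun y => by rw [fderiv_g]; ring
  have := integral_mul_fderiv_eq_neg_fderiv_mul_of_integrable (μ := volume)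
    (f := fun y : Y d => ⟪u, y⟫) (g := g n1 n2 ε) (v := v)
    (by simpa only [e] using (int_g hε).const_mul _)
    (by simp only [e']; exact (int_ibp hn1 hn2 hε u v).neg)
    (int_mul hε (by fun_prop) (norm_nonneg u) fun y => (abs_real_inner_le_norm _ _).trans
      (mul_le_mul_of_nonneg_left (by nlinarith [sq_nonneg (‖y‖ - 1)]) (norm_nonneg _)))
    (fun y _ => (innerSL ℝ u).differentiableAt)
    fun y _ => contDiff_g.differentiable (by simp) y
  simp only [e, e', integral_neg, integral_const_mul] at this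
  exact neg_injective this

theorem normSq_A (y : Y d) : ‖A n1 n2 ε y‖ ^ 2 * g n1 n2 ε y =
    ⟪n1, y⟫ * ⟪A n1 n2 ε y, n1⟫ * g n1 n2 ε y + ⟪n2, y⟫ * ⟪A n1 n2 ε y, n2⟫ * g n1 n2 ε y
      + ε * ∑ i, ⟪EuclideanSpace.basisFun (Fin (d + 1)) ℝ i, y⟫
        * ⟪A n1 n2 ε y, EuclideanSpace.basisFun (Fin (d + 1)) ℝ i⟫ * g n1 n2 ε y := by
  rw [← Finset.sum_mul, ← real_inner_self_eq_norm_sq]
  simp only [mul_comm ⟪EuclideanSpace.basisFun (Fin (d + 1)) ℝ _, y⟫,
    OrthonormalBasis.sum_inner_mul_inner]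
  conv_lhs => arg 1; arg 3; rw [A]
  simp only [inner_add_right, inner_smul_right]
  ring

theorem integral_normSq_A (hn1 : ‖n1‖ = 1) (hn2 : ‖n2‖ = 1) (hε : 0 < ε) :
    Integrable (fun y => ‖A n1 n2 ε y‖ ^ 2 * g n1 n2 ε y) ∧
      ∫ y, ‖A n1 n2 ε y‖ ^ 2 * g n1 n2 ε y = (2 + ε * (d + 1)) * ∫ y, g n1 n2 ε y := by
  have h := int_ibp hn1 hn2 hε
  have hs := (integrable_finsetSum Finset.univ fun i _ =>
    h (EuclideanSpace.basisFun (Fin (d + 1)) ℝ i) (EuclideanSpace.basisFun (Fin (d + 1)) ℝ i))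
  simp only [normSq_A]
  refine ⟨((h _ _).add (h _ _)).add (hs.const_mul ε), ?_⟩
  rw [integral_add ((h _ _).fun_add (h _ _)) (hs.const_mul ε), integral_add (h _ _) (h _ _),
    integral_const_mul, integral_finsetSum _ fun i _ => h _ _]
  simp only [ibp hn1 hn2 hε, real_inner_self_eq_norm_sq, hn1, hn2, OrthonormalBasis.norm_eq_one,
    Finset.sum_const, Finset.card_univ, Fintype.card_fin, nsmul_eq_mul]
  push_cast
  ring

theorem norm_fderiv_g_le (y : Y d) : ‖fderiv ℝ (g n1 n2 ε) y‖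
    ≤ 1 / 3 * (‖A n1 n2 ε y‖ ^ 2 * g n1 n2 ε y) + 3 / 4 * g n1 n2 ε y := by
  have h0 := g_pos (n1 := n1) (n2 := n2) (ε := ε) y
  refine le_trans (ContinuousLinearMap.opNorm_le_bound _ (M := g n1 n2 ε y * ‖A n1 n2 ε y‖)
    (by positivity) fun v => ?_) (by nlinarith [mul_nonneg h0.le (sq_nonneg (‖A n1 n2 ε y‖ - 3 / 2))])
  rw [fderiv_g, norm_neg, norm_mul, Real.norm_of_nonneg h0.le, mul_assoc]
  gcongr
  exact norm_inner_le_norm _ _

/-- the total mass is controlled by the mass of a central slice -/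
theorem integral_g_le (h1 : Split n1 J1) (n2 : Y d) (hε : 0 < ε) :
    ∫ y, g n1 n2 ε y ≤ √(Real.pi / (1 / 2)) * ∫ z, g n1 n2 ε (J1 z) := by
  obtain ⟨w, hw⟩ := h1.surj n2
  generalize ⟪n1, n2⟫ = c at hw
  have hi : Integrable fun z => g n1 n2 ε (J1 z) := (integrable_gauss (half_pos hε)).mono'
    (contDiff_g.continuous.comp J1.continuous).aestronglyMeasurable (.of_forall fun z => by
      rw [Real.norm_of_nonneg (g_pos _).le, ← J1.norm_map z]; exact g_le _)
  have hW : 0 < ‖w‖ ^ 2 + ε := by positivity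
  obtain ⟨κ, hκ⟩ : ∃ κ, c = κ * (‖w‖ ^ 2 + ε) := ⟨c / _, (div_mul_cancel₀ _ hW.ne').symm⟩
  have e : ∀ s z, ⟪n2, s • n1 + J1 z⟫ = s * c + ⟪w, z⟫ := fun s z => by
    rw [hw, inner_add_left, real_inner_smul_left, h1.inner_apply, inner_add_right,
      inner_smul_right, real_inner_comm n1, h1.orth, J1.inner_map_map]
    ring
  rw [h1.integral_eq (int_g hε), ← integral_gaussian, ← integral_mul_const]
  refine integral_mono_of_nonneg (.of_forall fun s => integral_nonneg fun z => (g_pos _).le)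
    ((integrable_exp_neg_mul_sq (by norm_num)).mul_const _) (.of_forall fun s => ?_)
  beta_reduce
  rw [← integral_add_right_eq_self (fun z => g n1 n2 ε (J1 z)) ((s * κ) • w),
    ← integral_const_mul]
  refine integral_mono_of_nonneg (.of_forall fun z => (g_pos _).le)
    ((hi.comp_add_right _).const_mul _) (.of_forall fun z => ?_)
  have e0 := e 0 (z + (s * κ) • w)
  rw [zero_smul, zero_add, zero_mul, zero_add, inner_add_right, inner_smul_right,
    real_inner_self_eq_norm_sq] at e0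
  simp only [g]
  rw [← Real.exp_add, h1.inner_apply, h1.orth, e, e0, h1.norm_sq, J1.norm_map, norm_add_sq_real,
    inner_smul_right, real_inner_comm w z, norm_smul, mul_pow, Real.norm_eq_abs, sq_abs, hκ]
  refine Real.exp_le_exp.2 ?_
  have : 0 ≤ ε * ((s * κ) ^ 2 * ‖w‖ ^ 2 + (s * κ) ^ 2 * ε + s ^ 2) := by positivity
  nlinarith

end TP

open TP in
theorem two_planes (h1 : Split n1 J1) (h2 : Split n2 J2) (y1 y2 : Y d) :
    ¬ ∀ f : Y d → ℝ, ContDiff ℝ ∞ f → HasCompactSupport f → (∀ y, 0 ≤ f y) →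
      2 * ((∫ z, f (y1 + J1 z)) + ∫ z, f (y2 + J2 z)) ≤ ∫ y, ‖fderiv ℝ f y‖ := by
  intro H
  have hC : Cal n1 n2 J1 J2 ⟪n1, y1⟫ ⟪n2, y2⟫ := fun f hf hc h0 => by
    rw [← plane_eq h1, ← plane_eq h2]; exact H f hf hc h0
  obtain ⟨ε, hε, hε'⟩ : ∃ ε : ℝ, 0 < ε ∧ ε * (d + 1) = 1 / 4 :=
    ⟨1 / 4 / (d + 1), by positivity, div_mul_cancel₀ _ (by positivity)⟩
  obtain ⟨i1, e1⟩ := integral_normSq_A h1.unit h2.unit hε
  have ig := int_g (n1 := n1) (n2 := n2) hε
  have iR := (i1.const_mul (1 / 3)).fun_add (ig.const_mul (3 / 4))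
  have hG := hC.gauss h1 h2 contDiff_g (half_pos hε) (fun y => (g_pos y).le) g_le
    (iR.mono' (contDiff_g.continuous_fderiv (by simp)).norm.aestronglyMeasurable
      (.of_forall fun y => by rw [norm_norm]; exact norm_fderiv_g_le y))
  have hD := integral_mono_of_nonneg (.of_forall fun _ => norm_nonneg _) iR
    (.of_forall norm_fderiv_g_le)
  rw [integral_add (i1.const_mul _) (ig.const_mul _), integral_const_mul, integral_const_mul,
    e1, hε'] at hD
  have c1 := integral_g_le h1 n2 hε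
  have c2 := integral_g_le h2 n1 hε
  rw [← g_comm] at c2
  have hM : 0 < ∫ y, g n1 n2 ε y := integral_pos_of_integrable_nonneg_nonzero (x := 0)
    contDiff_g.continuous ig (fun y => (g_pos y).le) (g_pos 0).ne'
  have hs : √(Real.pi / (1 / 2)) ≤ 13 / 5 :=
    Real.sqrt_le_iff.2 ⟨by norm_num, by linarith [Real.pi_lt_d2]⟩
  have m1 : 0 ≤ ∫ z, g n1 n2 ε (J1 z) := integral_nonneg fun z => (g_pos _).le
  have m2 : 0 ≤ ∫ z, g n1 n2 ε (J2 z) := integral_nonneg fun z => (g_pos _).le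
  nlinarith [mul_le_mul_of_nonneg_right hs m1, mul_le_mul_of_nonneg_right hs m2]

end EP

end Crest.Agent.N222

end
end

-- ▼ part N222/B/LV2
section

/-!
# Row 222, part B, ε-regularity block: one plane (LV2)
-/

set_option autoImplicit false
set_option linter.unusedSectionVars false
open MeasureTheory Set Filter Topology Function Metric
open scoped ContDiff InnerProductSpace RealInnerProductSpace

noncomputable section

namespace Crest.Agent.N222

namespace EP
variable {d : ℕ} {V : Measure (Y d × Y d)} {n : Y d} {J : E (Fin d) →ₗᵢ[ℝ] Y d}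

namespace L2

/-- the flow along the tangential part of `w` -/
def fl (w : Y d) (s : ℝ) (q : Y d × Y d) : Y d × Y d := q + s • (w - ⟪q.2, w⟫ • q.2, 0)

theorem fl_snd (w : Y d) (s : ℝ) (q : Y d × Y d) : (fl w s q).2 = q.2 := by simp [fl]

theorem fl_add (w : Y d) (s t : ℝ) (q : Y d × Y d) : fl w s (fl w t q) = fl w (t + s) q := by
  rw [fl, fl_snd, fl, fl, add_smul, add_assoc]

theorem fl_zero (w : Y d) (q : Y d × Y d) : fl w 0 q = q := by simp [fl]

theorem contDiff_fl (w : Y d) (s : ℝ) : ContDiff ℝ ∞ (fl w s) :=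
  contDiff_id.add (((contDiff_const.sub
    ((contDiff_snd.inner ℝ contDiff_const).smul contDiff_snd)).prodMk contDiff_const).const_smul s)

/-- the flow as a homeomorphism -/
def flH (w : Y d) (s : ℝ) : (Y d × Y d) ≃ₜ (Y d × Y d) where
  toFun := fl w s
  invFun := fl w (-s)
  left_inv q := by rw [fl_add, add_neg_cancel, fl_zero]
  right_inv q := by rw [fl_add, neg_add_cancel, fl_zero]
  continuous_toFun := (contDiff_fl w s).continuous
  continuous_invFun := (contDiff_fl w (-s)).continuous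

theorem hasDerivAt_fl {g : Y d × Y d → ℝ} (hg : Differentiable ℝ g) (w : Y d) (s : ℝ)
    (q : Y d × Y d) : HasDerivAt (fun t => g (fl w t q))
      (fderiv ℝ g (fl w s q) (w - ⟪q.2, w⟫ • q.2, 0)) s := by
  have h : HasDerivAt (fun t => fl w t q) (w - ⟪q.2, w⟫ • q.2, (0 : Y d)) s := by
    simpa [fl] using
      ((hasDerivAt_id s).smul_const (w - ⟪q.2, w⟫ • q.2, (0 : Y d))).const_add q
  exact (hg _).hasFDerivAt.comp_hasDerivAt s h

theorem fderiv_fl {g : Y d × Y d → ℝ} (hg : ContDiff ℝ ∞ g) (w : Y d) (s : ℝ) (q : Y d × Y d) :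
    fderiv ℝ (g ∘ fl w s) q (w - ⟪q.2, w⟫ • q.2, 0) =
      fderiv ℝ g (fl w s q) (w - ⟪q.2, w⟫ • q.2, 0) := by
  have h1 := hasDerivAt_fl ((hg.comp (contDiff_fl w s)).differentiable (by simp)) w 0 q
  have h2 := (hasDerivAt_fl (hg.differentiable (by simp)) w (0 + s) q).comp_add_const 0 s
  rw [fl_zero] at h1
  rw [zero_add] at h2
  refine h1.unique (h2.congr_of_eventuallyEq (.of_forall fun t => ?_))
  simp only [comp_apply, fl_add]

theorem integrable_cs (H : LimV d V) {g : Y d × Y d → ℝ} (hg : Continuous g)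
    (hc : HasCompactSupport g) : Integrable g V := by
  obtain ⟨R, -, h⟩ := exists_norm_of_hcs hc
  exact H.integrable hg R fun q hq => h q (hq.le.trans (norm_fst_le q))

theorem flow_inv (H : LimV d V)
    (ht : ∀ (w : Y d) (g : Y d × Y d → ℝ), ContDiff ℝ ∞ g → HasCompactSupport g →
      ∫ q, fderiv ℝ g q (w - ⟪q.2, w⟫ • q.2, 0) ∂V = 0) (w : Y d) {g : Y d × Y d → ℝ}
    (hg : ContDiff ℝ ∞ g) (hc : HasCompactSupport g) : ∫ q, g (fl w 1 q) ∂V = ∫ q, g q ∂V := by
  have hd : Continuous (fderiv ℝ g) := hg.continuous_fderiv (by simp)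
  obtain ⟨C, hC⟩ := hd.bounded_above_of_compact_support (hc.fderiv ℝ)
  obtain ⟨R, hR, h0⟩ := exists_norm_of_hcs (hc.fderiv ℝ)
  have hC0 : 0 ≤ C := (norm_nonneg _).trans (hC 0)
  have hcs : ∀ s, HasCompactSupport (g ∘ fl w s) := fun s => hc.comp_homeomorph (flH w s)
  have hco : ∀ s, Continuous (g ∘ fl w s) := fun s => (hg.comp (contDiff_fl w s)).continuous
  have key : ∀ s, HasDerivAt (fun t => ∫ q, g (fl w t q) ∂V) 0 s := fun s => by
    set ρ := 2 * (R + (|s| + 1) * (2 * ‖w‖)) with hρ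
    have hρ0 : 0 < ρ := by positivity
    have := (hasDerivAt_integral_of_dominated_loc_of_deriv_le (μ := V) (x₀ := s)
      (F := fun t q => g (fl w t q))
      (F' := fun t q => fderiv ℝ g (fl w t q) (w - ⟪q.2, w⟫ • q.2, 0))
      (bound := fun q => C * (2 * ‖w‖) * Phi (‖q.1 - 0‖ ^ 2 / ρ ^ 2)) (ball_mem_nhds s one_pos)
      (.of_forall fun t => (hco t).aestronglyMeasurable) (integrable_cs H (hco s) (hcs s))
      (Continuous.aestronglyMeasurable
        ((hd.comp (contDiff_fl w s).continuous).clm_apply (by fun_prop))) ?_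
      ((H.integrable_fst (contDiff_Phi_ball 0 ρ).continuous (hcs_Phi 0 hρ0)).const_mul _)
      (.of_forall fun q t _ => hasDerivAt_fl (hg.differentiable (by simp)) w t q)).2
    · simp only [← fderiv_fl hg] at this
      rwa [ht w _ (hg.comp (contDiff_fl w s)) (hcs s)] at this
    filter_upwards [H.unit] with q hq t hts
    have h1 : ‖(w - ⟪q.2, w⟫ • q.2, (0 : Y d))‖ ≤ 2 * ‖w‖ := by
      have := norm_sub_le w (⟪q.2, w⟫ • q.2)
      have h2 := abs_real_inner_le_norm q.2 w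
      rw [norm_smul, hq, Real.norm_eq_abs] at this
      rw [hq] at h2
      simp only [Prod.norm_mk, norm_zero, max_le_iff]
      exact ⟨by linarith, by positivity⟩
    by_cases hq1 : ‖q.1 - 0‖ ≤ ρ / 2
    · rw [Phi_ball_one hρ0 hq1, mul_one]
      exact (ContinuousLinearMap.le_opNorm _ _).trans (mul_le_mul (hC _) h1 (norm_nonneg _) hC0)
    · have h3 : |t| ≤ |s| + 1 := by
        have := abs_sub_abs_le_abs_sub t s
        rw [mem_ball, Real.dist_eq] at hts
        linarith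
      have h4 := norm_sub_le (fl w t q) (t • (w - ⟪q.2, w⟫ • q.2, (0 : Y d)))
      rw [norm_smul, Real.norm_eq_abs, show fl w t q - _ = q from add_sub_cancel_right _ _] at h4
      have h5 := mul_le_mul h3 h1 (norm_nonneg _) (by positivity)
      have h6 := norm_fst_le q
      rw [sub_zero, not_le] at hq1
      rw [h0 _ (by linarith), zero_apply, norm_zero]
      exact mul_nonneg (by positivity) (Phi_nonneg _)
  have := is_const_of_deriv_eq_zero (fun s => (key s).differentiableAt) (fun s => (key s).deriv) 1 0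
  simpa only [fl_zero] using this

theorem fin_fst (H : LimV d V) : IsFiniteMeasureOnCompacts (V.map Prod.fst) := ⟨fun K hK => by
  obtain ⟨C, hC⟩ := H.fin
  obtain ⟨R, hR, h⟩ := hK.isBounded.subset_closedBall_lt 0 0
  refine (measure_mono h).trans_lt ?_
  rw [Measure.map_apply measurable_fst measurableSet_closedBall, ← prod_univ]
  exact (hC 0 R hR).trans_lt ENNReal.ofReal_lt_top⟩

/-- the averaged kernel -/
def KK (J : E (Fin d) →ₗᵢ[ℝ] Y d) (y0 : Y d) (f : Y d → ℝ) (ρ : ℝ) (x : Y d) : ℝ :=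
  (ρ ^ d)⁻¹ * ∫ z, Phi (‖x - (y0 + J z)‖ ^ 2 / ρ ^ 2) * f (y0 + J z)

theorem KK_eq (h : Split n J) (y0 : Y d) (f : Y d → ℝ) {ρ : ℝ} (hρ : 0 < ρ) (s : ℝ)
    (z0 : E (Fin d)) : KK J y0 f ρ (y0 + (s • n + J z0)) =
      ∫ w, Phi (s ^ 2 / ρ ^ 2 + ‖w‖ ^ 2) * f (y0 + J (z0 + ρ • w)) := by
  rw [KK, ← integral_add_left_eq_self _ z0]
  have := Measure.integral_comp_smul_of_nonneg (volume : Measure (E (Fin d)))
    (fun z => Phi (‖y0 + (s • n + J z0) - (y0 + J (z0 + z))‖ ^ 2 / ρ ^ 2) * f (y0 + J (z0 + z))) ρ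
    (hR := hρ.le)
  rw [finrank_euclideanSpace_fin, smul_eq_mul] at this
  refine this.symm.trans (integral_congr_ae (.of_forall fun w => ?_))
  have e : y0 + (s • n + J z0) - (y0 + J (z0 + ρ • w)) = s • n + J (-(ρ • w)) := by
    rw [map_add, map_neg]; abel
  dsimp only
  rw [e, h.norm_sq, norm_neg, norm_smul, Real.norm_eq_abs, mul_pow, sq_abs, add_div,
    mul_div_cancel_left₀ _ (pow_pos hρ 2).ne']

theorem integrable_Phi (d : ℕ) : Integrable fun z : E (Fin d) => Phi (‖z‖ ^ 2) :=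
  Continuous.integrable_of_hasCompactSupport (by fun_prop)
    (by simpa using hcs_Phi (0 : E (Fin d)) one_pos)

theorem plane_le_mu (μ : Measure (Y d)) [IsFiniteMeasureOnCompacts μ] (h : Split n J) (y0 : Y d)
    (hs : ∀ z (r : ℝ), 0 < r → cPhi d * r ^ d ≤ ∫ x, Phi (‖x - (y0 + J z)‖ ^ 2 / r ^ 2) ∂μ)
    {f : Y d → ℝ} (hf : Continuous f) (hc : HasCompactSupport f) (h0 : ∀ y, 0 ≤ f y) :
    ∫ z, f (y0 + J z) ≤ ∫ x, {y | ⟪n, y - y0⟫ = 0}.indicator f x ∂μ := by
  obtain ⟨C, hC⟩ := hf.bounded_above_of_compact_support hc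
  obtain ⟨R, hR, hR0⟩ := exists_norm_of_hcs hc
  have hC0 : 0 ≤ C := (norm_nonneg _).trans (hC 0)
  have hJ := J.continuous
  have hz : ∀ {ρ : ℝ} (x : Y d) (z : E (Fin d)), 0 < ρ → R + ρ ≤ ‖x‖ →
      Phi (‖x - (y0 + J z)‖ ^ 2 / ρ ^ 2) * f (y0 + J z) = 0 := fun {ρ} x z hρ hx => by
    by_cases h1 : R ≤ ‖y0 + J z‖
    · rw [hR0 _ h1, mul_zero]
    · rw [Phi_ball_zero hρ (by linarith [norm_sub_norm_le x (y0 + J z)]), zero_mul]
  have hI : ∀ {ρ : ℝ}, 0 < ρ → Integrable (uncurry fun (z : E (Fin d)) (x : Y d) =>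
      Phi (‖x - (y0 + J z)‖ ^ 2 / ρ ^ 2) * f (y0 + J z)) (volume.prod μ) := fun {ρ} hρ => by
    refine Continuous.integrable_of_hasCompactSupport (by unfold uncurry; fun_prop)
      (hcs_of_norm (R + ρ + ‖y0‖) fun p hp => ?_)
    rcases lt_max_iff.1 (Prod.norm_def p ▸ hp) with h1 | h1
    · have := norm_sub_norm_le (J p.1) (-y0)
      rw [J.norm_map, norm_neg, sub_neg_eq_add, add_comm (J p.1)] at this
      exact (congrArg (_ * ·) (hR0 _ (by linarith))).trans (mul_zero _)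
    · exact hz _ _ hρ (by linarith [norm_nonneg y0])
  have hdec : ∀ x : Y d, ∃ z0, x = y0 + (⟪n, x - y0⟫ • n + J z0) := fun x => by
    obtain ⟨z0, e⟩ := h.surj (x - y0)
    exact ⟨z0, by rw [← e, add_sub_cancel]⟩
  have hb : ∀ (ρ s : ℝ) (w : E (Fin d)) (y : Y d),
      ‖Phi (s ^ 2 / ρ ^ 2 + ‖w‖ ^ 2) * f y‖ ≤ Phi (‖w‖ ^ 2) * C := fun ρ s w y => by
    rw [norm_mul, Real.norm_of_nonneg (Phi_nonneg _)]
    exact mul_le_mul (Phi_anti (le_add_of_nonneg_left (by positivity))) (hC _) (norm_nonneg _)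
      (Phi_nonneg _)
  have h1 : ∀ ρ : ℝ, 0 < ρ → cPhi d * ∫ z, f (y0 + J z) ≤ ∫ x, KK J y0 f ρ x ∂μ := fun ρ hρ => by
    simp only [KK]
    rw [integral_const_mul, ← integral_integral_swap (hI hρ), le_inv_mul_iff₀ (pow_pos hρ d),
      ← mul_assoc, ← integral_const_mul]
    refine integral_mono ((Continuous.integrable_of_hasCompactSupport (by fun_prop)
      (hcs_plane hc y0 J)).const_mul _) (hI hρ).integral_prod_left fun z => ?_
    dsimp only
    rw [integral_mul_const, mul_comm (ρ ^ d)]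
    exact mul_le_mul_of_nonneg_right (hs z ρ hρ) (h0 _)
  have h2 : Tendsto (fun ρ => ∫ x, KK J y0 f ρ x ∂μ) (𝓝[>] 0)
      (𝓝 (∫ x, cPhi d * {y | ⟪n, y - y0⟫ = 0}.indicator f x ∂μ)) := by
    refine tendsto_integral_filter_of_dominated_convergence
      ((closedBall (0 : Y d) (R + 1)).indicator fun _ => cPhi d * C) ?_ ?_
      ((integrable_indicator_iff measurableSet_closedBall).2
        (integrableOn_const measure_closedBall_lt_top.ne)) (.of_forall fun x => ?_)
    · filter_upwards [self_mem_nhdsWithin] with ρ hρ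
      exact ((hI hρ).integral_prod_right.const_mul _).aestronglyMeasurable
    · filter_upwards [Ioc_mem_nhdsGT one_pos] with ρ hρ
      refine .of_forall fun x => ?_
      by_cases hx : x ∈ closedBall (0 : Y d) (R + 1)
      · obtain ⟨z0, e⟩ := hdec x
        rw [indicator_of_mem hx, e, KK_eq h y0 f hρ.1, cPhi, ← integral_mul_const]
        exact norm_integral_le_of_norm_le ((integrable_Phi d).mul_const C)
          (.of_forall fun w => hb _ _ _ _)
      · rw [indicator_of_notMem hx]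
        rw [mem_closedBall_zero_iff, not_le] at hx
        simp only [KK, hz x _ hρ.1 (by linarith [hρ.2]), integral_zero, mul_zero, norm_zero, le_refl]
    · obtain ⟨z0, e⟩ := hdec x
      have h3 : Tendsto (fun ρ : ℝ => ∫ w : E (Fin d), Phi (⟪n, x - y0⟫ ^ 2 / ρ ^ 2 + ‖w‖ ^ 2) *
          f (y0 + J (z0 + ρ • w))) (𝓝[>] 0)
          (𝓝 (∫ w : E (Fin d), Phi (‖w‖ ^ 2) * {y | ⟪n, y - y0⟫ = 0}.indicator f x)) := by
        refine tendsto_integral_filter_of_dominated_convergence (fun w => Phi (‖w‖ ^ 2) * C)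
          (.of_forall fun ρ => Continuous.aestronglyMeasurable (by fun_prop))
          (.of_forall fun ρ => .of_forall fun w => hb _ _ _ _) ((integrable_Phi d).mul_const C)
          (.of_forall fun w => ?_)
        by_cases hx : ⟪n, x - y0⟫ = 0
        · rw [indicator_of_mem (show x ∈ {y | ⟪n, y - y0⟫ = 0} from hx)]
          rw [hx, zero_smul, zero_add] at e
          have : Continuous fun ρ : ℝ => Phi (‖w‖ ^ 2) * f (y0 + J (z0 + ρ • w)) := by fun_prop
          simpa [hx, ← e] using (this.tendsto 0).mono_left (nhdsWithin_le_nhds (s := Ioi 0))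
        · rw [indicator_of_notMem (show x ∉ {y | ⟪n, y - y0⟫ = 0} from hx), mul_zero]
          refine tendsto_const_nhds.congr' ?_
          filter_upwards [Ioc_mem_nhdsGT (abs_pos.2 hx)] with ρ hρ
          have : 1 ≤ ⟪n, x - y0⟫ ^ 2 / ρ ^ 2 := by
            rw [one_le_div (pow_pos hρ.1 2), ← sq_abs ⟪n, x - y0⟫]
            exact pow_le_pow_left₀ hρ.1.le hρ.2 2
          rw [Phi_of_ge (this.trans (le_add_of_nonneg_right (sq_nonneg _))), zero_mul]
      rw [integral_mul_const] at h3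
      refine h3.congr' ?_
      filter_upwards [self_mem_nhdsWithin] with ρ hρ
      conv_rhs => rw [e]
      exact (KK_eq h y0 f hρ _ _).symm
  rw [integral_const_mul] at h2
  exact le_of_mul_le_mul_left (ge_of_tendsto h2 (eventually_nhdsWithin_of_forall h1)) (cPhi_pos d)

theorem isClosed_pl (n y0 : Y d) : IsClosed {y : Y d | ⟪n, y - y0⟫ = 0} :=
  isClosed_eq (by fun_prop) continuous_const

end L2
open L2

/-- the support is a union of planes -/
theorem transport (H : LimV d V)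
    (ht : ∀ (w : Y d) (g : Y d × Y d → ℝ), ContDiff ℝ ∞ g → HasCompactSupport g →
      ∫ q, fderiv ℝ g q (w - ⟪q.2, w⟫ • q.2, 0) ∂V = 0) {q : Y d × Y d} (hq : q ∈ V.support)
    {w : Y d} (hw : ⟪q.2, w⟫ = 0) : InSupp V (q.1 + w) := by
  intro ε hε
  let g : Y d × Y d → ℝ := fun p =>
    Phi (‖p.1 - (q.1 + w)‖ ^ 2 / ε ^ 2) * Phi (‖p.2 - q.2‖ ^ 2 / 1 ^ 2)
  have hg : ContDiff ℝ ∞ g := ((contDiff_Phi_ball _ _).comp contDiff_fst).mul
    ((contDiff_Phi_ball _ _).comp contDiff_snd)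
  have hc : HasCompactSupport g := by
    refine hcs_of_norm (ε + ‖q.1 + w‖ + (1 + ‖q.2‖)) fun p hp => ?_
    rcases lt_max_iff.1 (Prod.norm_def p ▸ hp) with h1 | h1
    · exact mul_eq_zero_of_left
        (Phi_ball_zero hε (by linarith [norm_sub_norm_le p.1 (q.1 + w), norm_nonneg q.2])) _
    · exact mul_eq_zero_of_right _ (Phi_ball_zero one_pos
        (by linarith [norm_sub_norm_le p.2 q.2, norm_nonneg (q.1 + w)]))
  have h0 : ∀ p, 0 ≤ g p := fun p => mul_nonneg (Phi_nonneg _) (Phi_nonneg _)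
  have hco : Continuous (g ∘ fl w 1) := (hg.comp (contDiff_fl w 1)).continuous
  have h1 : 0 < ∫ p, g (fl w 1 p) ∂V := by
    refine (integral_pos_iff_support_of_nonneg (fun p => h0 _)
      (integrable_cs H hco (hc.comp_homeomorph (flH w 1)))).2
      ((Measure.mem_support_iff_forall q).1 hq _ (hco.isOpen_support.mem_nhds ?_))
    simp [g, fl, hw, Phi_of_le]
  rw [flow_inv H ht w hg hc,
    integral_pos_iff_support_of_nonneg h0 (integrable_cs H hg.continuous hc)] at h1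
  refine h1.trans_le (measure_mono fun p hp => ⟨?_, trivial⟩)
  by_contra h2
  rw [mem_ball_iff_norm, not_lt] at h2
  exact hp (mul_eq_zero_of_left (Phi_ball_zero hε h2) _)

/-- a plane in the support has multiplicity at least one -/
theorem plane_le (H : LimV d V) (h : Split n J) (y0 : Y d) (hs : ∀ z, InSupp V (y0 + J z))
    {f : Y d → ℝ} (hf : Continuous f) (hc : HasCompactSupport f) (h0 : ∀ y, 0 ≤ f y) :
    ∫ z, f (y0 + J z) ≤ ∫ q, {y | ⟪n, y - y0⟫ = 0}.indicator f q.1 ∂V := by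
  have := fin_fst H
  rw [← integral_map measurable_fst.aemeasurable
    (hf.aestronglyMeasurable.indicator (isClosed_pl n y0).measurableSet)]
  refine plane_le_mu _ h y0 (fun z r hr => ?_) hf hc h0
  rw [integral_map measurable_fst.aemeasurable
    (contDiff_Phi_ball _ _).continuous.aestronglyMeasurable]
  exact H.low _ (hs z) r hr

/-- a second plane is seen outside the first one -/
theorem plane_le_compl (H : LimV d V) (h : Split n J) (y0 : Y d) (hs : ∀ z, InSupp V (y0 + J z))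
    {n1 y1 : Y d} (hne : ⟪n1, y0 - y1⟫ ≠ 0)
    {f : Y d → ℝ} (hf : Continuous f) (hc : HasCompactSupport f) (h0 : ∀ y, 0 ≤ f y) :
    ∫ z, f (y0 + J z) ≤ ∫ q, {y | ⟪n1, y - y1⟫ = 0}ᶜ.indicator f q.1 ∂V := by
  have hJ := J.continuous
  let m : ℕ → Y d → ℝ := fun k y => min 1 (k * |⟪n1, y - y1⟫|)
  have hm0 : ∀ k y, 0 ≤ m k y := fun k y => le_min zero_le_one (by positivity)
  have hm1 : ∀ k y, f y * m k y ≤ f y := fun k y =>
    mul_le_of_le_one_right (h0 y) (min_le_left _ _)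
  have hmc : ∀ k, Continuous (m k) := fun k => by fun_prop
  have hI := H.integrable_fst hf hc
  have hI' : ∀ {A : Set (Y d)} {g : Y d → ℝ}, MeasurableSet A → Integrable (fun q => g q.1) V →
      Integrable (fun q : Y d × Y d => A.indicator g q.1) V := fun hA hg =>
    hg.indicator (measurable_fst hA)
  have h1 : ∀ k, ∫ z, f (y0 + J z) * m k (y0 + J z) ≤
      ∫ q, {y | ⟪n1, y - y1⟫ = 0}ᶜ.indicator f q.1 ∂V := fun k => by
    refine (plane_le H h y0 hs (hf.mul (hmc k)) hc.mul_right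
      fun y => mul_nonneg (h0 y) (hm0 k y)).trans (integral_mono
        (hI' (isClosed_pl _ _).measurableSet (H.integrable_fst (hf.mul (hmc k)) hc.mul_right))
        (hI' (isClosed_pl _ _).measurableSet.compl hI) fun q => ?_)
    refine (indicator_le_self' (fun y _ => mul_nonneg (h0 y) (hm0 k y)) q.1).trans ?_
    by_cases hq : ⟪n1, q.1 - y1⟫ = 0
    · simp [m, hq]
    · exact (hm1 k _).trans_eq (indicator_of_mem (show q.1 ∈ {y | ⟪n1, y - y1⟫ = 0}ᶜ from hq) f).symm
  refine le_of_tendsto' (tendsto_integral_of_dominated_convergence (fun z => f (y0 + J z))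
    (fun k => Continuous.aestronglyMeasurable (by fun_prop))
    (Continuous.integrable_of_hasCompactSupport (by fun_prop) (hcs_plane hc y0 J))
    (fun k => .of_forall fun z => ?_) ?_) h1
  · rw [Real.norm_of_nonneg (mul_nonneg (h0 _) (hm0 k _))]; exact hm1 k _
  · filter_upwards [ae_inner_ne (w := (InnerProductSpace.toDual ℝ _).symm
      (innerSL ℝ n1 ∘L J.toContinuousLinearMap)) (.inr (neg_ne_zero.2 hne))] with z hz
    have h2 : 0 < |⟪n1, y0 + J z - y1⟫| := abs_pos.2 fun e => hz (by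
      rw [InnerProductSpace.toDual_symm_apply]
      rw [add_sub_right_comm, inner_add_right] at e
      exact eq_neg_of_add_eq_zero_right e)
    refine tendsto_const_nhds.congr' ?_
    filter_upwards [(tendsto_natCast_atTop_atTop.atTop_mul_const h2).eventually_ge_atTop 1]
      with k hk
    rw [show m k (y0 + J z) = 1 from min_eq_left hk, mul_one]

end EP

open EP EP.L2 in
theorem lv2 : LV2Stmt := by
  intro d V H ht
  have hu : ∀ q ∈ V.support, ‖q.2‖ = 1 :=
    Measure.support_subset_of_isClosed (isClosed_eq (by fun_prop) continuous_const) H.unit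
  have hp : ∀ q ∈ V.support, ∃ J, Split q.2 J ∧ ∀ z, InSupp V (q.1 + J z) := fun q hq => by
    obtain ⟨J, hJ⟩ := exists_split (hu q hq)
    exact ⟨J, hJ, fun z => transport H ht hq (hJ.orth z)⟩
  obtain ⟨q1, h1⟩ : V.support.Nonempty := Measure.nonempty_support fun e => by
    simpa [e] using H.zero 1 one_pos
  obtain ⟨J1, s1, p1⟩ := hp q1 h1
  have key : ∀ q ∈ V.support, ⟪q1.2, q.1 - q1.1⟫ = 0 := fun q2 h2 => by
    by_contra hne
    obtain ⟨J2, s2, p2⟩ := hp q2 h2
    refine two_planes s1 s2 q1.1 q2.1 fun f hf hc h0 => le_trans ?_ (H.cal f hf hc h0)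
    have hI := H.integrable_fst hf.continuous hc
    have hA : MeasurableSet (Prod.fst ⁻¹' {y | ⟪q1.2, y - q1.1⟫ = 0} : Set (Y d × Y d)) :=
      measurable_fst (isClosed_pl q1.2 q1.1).measurableSet
    have e := integral_add (hI.indicator hA) (hI.indicator hA.compl)
    have a1 := plane_le H s1 q1.1 p1 hf.continuous hc h0
    have a2 := plane_le_compl H s2 q2.1 p2 hne hf.continuous hc h0
    simp only [indicator_self_add_compl_apply] at e
    exact mul_le_mul_of_nonneg_left ((add_le_add a1 a2).trans_eq e.symm) zero_le_two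
  have hall : ∀ y, InSupp V y → ⟪q1.2, y - q1.1⟫ = 0 := fun y hy =>
    Measure.support_subset_of_isClosed (isClosed_pl q1.2 q1.1)
      ((mem_ae_map_iff measurable_fst.aemeasurable (isClosed_pl _ _).measurableSet).2
        (mem_of_superset Measure.support_mem_ae key)) (inSupp_iff.1 hy)
  refine ⟨q1.2, fun e => by simpa [e] using s1.unit, fun y hy => ?_⟩
  have a := hall y hy
  have b := hall 0 H.zero
  rw [inner_sub_right] at a b
  rw [inner_zero_right] at b
  linarith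

end Crest.Agent.N222

end
end

-- ▼ part N222/B/FL
section

/-!
# Row 222, part B, ε-regularity block: FL (small curvature energy gives density almost one)
-/

set_option autoImplicit false
set_option linter.unusedSectionVars false
open MeasureTheory Set Filter Topology Function Metric
open scoped ContDiff InnerProductSpace RealInnerProductSpace

noncomputable section

namespace Crest.Agent.N222
open EP

variable {d : ℕ} {ι : Type} [Fintype ι] [DecidableEq ι] {X : Type} [TopologicalSpace X]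
  [T2Space X] [SecondCountableTopology X] [MeasurableSpace X] [BorelSpace X] [CompactSpace X]
  {M : Imm d ι X}

namespace FLa

variable {u f : X → ℝ} {p : X} {r R R' C C' K a b η δ : ℝ}

theorem norm_le_sum {κ : Type} [Fintype κ] [DecidableEq κ] (w : E κ) : ‖w‖ ≤ ∑ a, |w a| := by
  conv_lhs => rw [eq_sum_ee w]
  refine (norm_sum_le _ _).trans (Finset.sum_le_sum fun a _ => ?_)
  simp [norm_smul]

theorem abs_bl_le_energy (hu : M.Sm u) (hA : Area M C u) (hr : 0 < r) (hR : 0 < R)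
    (h1 : R * r ≤ 1) (ha : 0 ≤ a) (hb : 0 ≤ b) (hRR : R ≤ R')
    (h : ∀ q, ‖ry M u p r q‖ ≤ R → |f q| ≤ a + b * (r ^ 2 * M.a2 u q))
    (h0 : ∀ q, R < ‖ry M u p r q‖ → f q = 0)
    (he : r ^ 2 * ∫ q in {q | ‖M.gx u q - M.gx u p‖ ≤ R' * r}, M.a2 u q ∂M.gmu u ≤ η * r ^ d) :
    |bl M u r f| ≤ a * (C * R ^ d) + b * η := by
  have := Imm.isFiniteMeasure_gmu hu
  have hm : MeasurableSet {q | ‖M.gx u q - M.gx u p‖ ≤ R * r} :=
    (isClosed_le ((Imm.sm_gx hu).continuous.sub continuous_const).norm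
      continuous_const).measurableSet
  have i2 := integrable_gmu hu hu.a2.continuous
  rw [bl, abs_div, abs_of_pos (pow_pos hr d), div_le_iff₀ (pow_pos hr d),
    ← setIntegral_eq_integral_of_forall_compl_eq_zero (s := {q | ‖M.gx u q - M.gx u p‖ ≤ R * r})
      fun q hq => h0 q (not_le.1 fun h => hq ((norm_ry_le hr).1 h))]
  refine (norm_integral_le_of_norm_le (f := f) (g := fun q => a + b * (r ^ 2 * M.a2 u q))
    ((integrable_const a).add ((i2.restrict.const_mul _).const_mul _))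
    (ae_restrict_of_forall_mem hm fun q hq => h q ((norm_ry_le hr).2 hq))).trans ?_
  rw [integral_add (integrable_const a) ((i2.restrict.const_mul _).const_mul _), integral_const_mul,
    integral_const_mul, setIntegral_const, smul_eq_mul]
  have h2 := mul_le_mul_of_nonneg_left (hA (M.gx u p) _ (by positivity) h1) ha
  have h3 : ∫ q in {q | ‖M.gx u q - M.gx u p‖ ≤ R * r}, M.a2 u q ∂M.gmu u ≤
      ∫ q in {q | ‖M.gx u q - M.gx u p‖ ≤ R' * r}, M.a2 u q ∂M.gmu u :=
    setIntegral_mono_set i2.integrableOn (ae_of_all _ (M.a2_nonneg u))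
      (LE.le.eventuallyLE fun q hq =>
        le_trans hq (mul_le_mul_of_nonneg_right hRR hr.le))
  have h4 := mul_le_mul_of_nonneg_left
    ((mul_le_mul_of_nonneg_left h3 (sq_nonneg r)).trans he) hb
  rw [mul_pow] at h2
  linarith

theorem norm_td_nuv (hu : M.Sm u) (hS : M.Sheet C u) (q : X) (W : E (Option ι)) :
    ‖(M.graph u hu).td (M.nuv u) q W‖ ≤
      Fintype.card (Option ι) * (∑ a, |W a|) * (√(M.a2 u q) + C) := by
  refine (norm_le_sum _).trans ((Finset.sum_le_card_nsmul _ _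
    ((∑ a, |W a|) * (√(M.a2 u q) + C)) fun c _ => ?_).trans_eq ?_)
  · rw [Imm.td_coord (((Imm.graph_sm hu).2 hu.nuv).diffAt q), Imm.td_apply, Imm.graph_pre,
      Finset.sum_mul]
    refine (Finset.abs_sum_le_sum_abs _ _).trans (Finset.sum_le_sum fun a _ => ?_)
    rw [abs_mul]
    exact mul_le_mul_of_nonneg_left (abs_D_nu_le hS a c q) (abs_nonneg _)
  · rw [nsmul_eq_mul, Finset.card_univ, mul_assoc]

theorem key (hu : M.Sm u) (hS : M.Sheet C u) (hA : Area M C' u)
    {G : E (Option ι) × E (Option ι) → ℝ} (hG : ContDiff ℝ ∞ G) (hr : 0 < r) (hR : 0 < R)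
    (h1 : R * r ≤ 1) (hδ : 0 < δ) (hRR : R ≤ R') (W : E (Option ι))
    (hG0 : ∀ s, R < ‖s.1‖ → G s = 0 ∧ fderiv ℝ G s = 0) (hK0 : 0 ≤ K)
    (hK : ∀ s, ‖s.1‖ ≤ R → ‖s.2‖ ≤ 1 → |G s| ≤ K ∧ ‖fderiv ℝ G s‖ ≤ K)
    (hP : ∀ q, ‖ry M u p r q‖ ≤ R → ‖W - M.PbL q W‖ ≤ δ) (hC : C * r ≤ δ)
    (he : r ^ 2 * ∫ q in {q | ‖M.gx u q - M.gx u p‖ ≤ R' * r}, M.a2 u q ∂M.gmu u ≤ η * r ^ d)
    {K1 : ℝ} (hK1 : K1 = Fintype.card (Option ι) * ∑ a, |W a|) :
    |bl M u r fun q => fderiv ℝ G (ry M u p r q, M.nuv u q) (W - ⟪M.nuv u q, W⟫ • M.nuv u q, 0)|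
      ≤ δ * (K * (1 + 2 * K1 + ‖W‖)) * (C' * R ^ d) + K * K1 / δ * η := by
  have hK10 : 0 ≤ K1 := by rw [hK1]; positivity
  have hs : M.Sm fun q => (ry M u p r q, M.nuv u q) := (sm_ry hu p r).prodMk hu.nuv
  have hf : M.Sm fun q => G (ry M u p r q, M.nuv u q) := hs.comp hG
  have c0 : Continuous fun q =>
      fderiv ℝ G (ry M u p r q, M.nuv u q) (W - ⟪M.nuv u q, W⟫ • M.nuv u q, 0) :=
    ((hG.continuous_fderiv (by simp)).comp hs.continuous).clm_apply
      (by have := hu.nuv.continuous; fun_prop)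
  have c1 : Continuous fun q => (M.graph u hu).td (fun q => G (ry M u p r q, M.nuv u q)) q W :=
    ((Imm.graph_sm hu).2 hf).td.continuous.clm_apply continuous_const
  have c2 : Continuous fun q => ⟪(M.graph u hu).Hv q, W⟫ * G (ry M u p r q, M.nuv u q) :=
    ((Imm.Sm.continuous (Imm.sm_euclid.2 (M.graph u hu).sm_H)).inner continuous_const).mul
      hf.continuous
  have e0 : bl M u r (fun q => r * ((M.graph u hu).td (fun q => G (ry M u p r q, M.nuv u q)) q W
      + ⟪(M.graph u hu).Hv q, W⟫ * G (ry M u p r q, M.nuv u q))) = 0 := by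
    rw [bl_const_mul, bl_add hu c1 c2, bl, bl, g_first_var hu hf, neg_div, neg_add_cancel, mul_zero]
  have e1 : ∀ q, r * (M.graph u hu).td (fun q => G (ry M u p r q, M.nuv u q)) q W =
      fderiv ℝ G (ry M u p r q, M.nuv u q) (M.PbL q W - ⟪M.nuv u q, W⟫ • M.nuv u q,
        r • (M.graph u hu).td (M.nuv u) q W) := fun q => by
    rw [Imm.td_comp (((Imm.graph_sm hu).2 hs).diffAt q) (hG.differentiable (by simp) _),
      Imm.td_prodMk (((Imm.graph_sm hu).2 (sm_ry hu p r)).diffAt q)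
        (((Imm.graph_sm hu).2 hu.nuv).diffAt q), ContinuousLinearMap.comp_apply,
      ContinuousLinearMap.prod_apply, td_ry, Imm.graph_PL, ← smul_eq_mul, ← map_smul,
      Prod.smul_mk, smul_inv_smul₀ hr.ne']
  have c3 : Continuous fun q => r * ((M.graph u hu).td (fun q => G (ry M u p r q, M.nuv u q)) q W
      + ⟪(M.graph u hu).Hv q, W⟫ * G (ry M u p r q, M.nuv u q)) := continuous_const.mul (c1.add c2)
  rw [← sub_zero (bl M u r _), ← e0, ← bl_sub hu c0 c3]
  refine abs_bl_le_energy hu hA hr hR h1 (by positivity) (by positivity) hRR (fun q hq => ?_)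
    (fun q hq => ?_) he
  · obtain ⟨k1, k2⟩ := hK (ry M u p r q, M.nuv u q) hq (Imm.norm_nuv hu q).le
    rw [mul_add, e1, ← sub_sub, ← map_sub, Prod.mk_sub_mk, sub_sub_sub_cancel_right, zero_sub]
    have b1 := norm_td_nuv hu hS q W
    rw [← hK1] at b1
    have b2 : r * √(M.a2 u q) ≤ δ + r ^ 2 * M.a2 u q / δ := by
      rw [← sub_le_iff_le_add', le_div_iff₀ hδ]
      conv_rhs => rw [← Real.sq_sqrt (M.a2_nonneg u q)]
      nlinarith [sq_nonneg (r * √(M.a2 u q) - δ), sq_nonneg (r * √(M.a2 u q))]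
    have b3 : ‖(W - M.PbL q W, -(r • (M.graph u hu).td (M.nuv u) q W))‖ ≤
        δ + K1 * (2 * δ + r ^ 2 * M.a2 u q / δ) := by
      have h3 : 0 ≤ K1 * (2 * δ + r ^ 2 * M.a2 u q / δ) := by
        have := M.a2_nonneg u q; positivity
      refine norm_prod_le_iff.2 ⟨(hP q hq).trans (by linarith), ?_⟩
      simp only [norm_neg, norm_smul, Real.norm_of_nonneg hr.le]
      have h4 := mul_le_mul_of_nonneg_left b1 hr.le
      have h5 := mul_le_mul_of_nonneg_left (add_le_add b2 hC) hK10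
      linarith
    have b4 := ((fderiv ℝ G (ry M u p r q, M.nuv u q)).le_opNorm _).trans
      (mul_le_mul k2 b3 (norm_nonneg _) hK0)
    have b5 : |r * (⟪(M.graph u hu).Hv q, W⟫ * G (ry M u p r q, M.nuv u q))| ≤ δ * ‖W‖ * K := by
      rw [← mul_assoc, abs_mul, abs_mul, abs_of_pos hr]
      refine mul_le_mul ?_ k1 (abs_nonneg _) (by positivity)
      have := (abs_real_inner_le_norm _ W).trans
        (mul_le_mul_of_nonneg_right (graph_Hv_le hu hS q) (norm_nonneg _))
      nlinarith [norm_nonneg W]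
    refine (abs_sub _ _).trans ((add_le_add b4 b5).trans_eq ?_)
    ring
  · obtain ⟨k1, k2⟩ := hG0 (ry M u p r q, M.nuv u q) hq
    rw [mul_add, e1, k1, k2]
    simp

end FLa

theorem fl (hS : SheetStmt) (hCal : CalStmt) (hB : BlowStmt) (h1 : LV1Stmt) (h2 : LV2Stmt) :
    FLStmt := by
  intro d ι _ _ X _ _ _ _ _ _ M F hM hF Λ ε hε
  by_contra hc
  push Not at hc
  choose u hu p r h0 hr he hg using fun j : ℕ =>
    hc ((j : ℝ) + 1) (1 / ((j : ℝ) + 1)) (by linarith [j.cast_nonneg (α := ℝ)]) (by positivity)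
  have hr' := tendsto_hyper h0 hr
  obtain ⟨p0, L, V, O⟩ := exists_out hB hM hF (hyperfilter ℕ) p hu hr'
  obtain ⟨C, -, hC⟩ := hS d ι X M F hM hF Λ
  obtain ⟨C', hC0, hC'⟩ := hCal d ι X M F hM hF Λ
  suffices H : ∃ n : Y d, n ≠ 0 ∧ ∀ y, InSupp V y → ⟪n, y⟫ = 0 by
    obtain ⟨n, hn, hs⟩ := H
    exact O.no_plane h1 hr' hε hg hn hs
  refine h2 d V O.lim fun w g hg hcs => ?_
  let G : E (Option ι) × E (Option ι) → ℝ := fun s => g (Ls L s.1, Ls L s.2) * cut L s.1
  have hG : ContDiff ℝ ∞ G :=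
    (hg.comp (((Ls L).contDiff.comp contDiff_fst).prodMk ((Ls L).contDiff.comp contDiff_snd))).mul
      ((contDiff_cut L).comp contDiff_fst)
  obtain ⟨R0, hR0, hz⟩ := exists_norm_of_hcs hcs
  have hG0 : ∀ s : E (Option ι) × E (Option ι), R0 + 1 < ‖s.1‖ → G s = 0 := fun s hs => by
    by_contra h
    have h3 := norm_le_of_cut L (right_ne_zero_of_mul h)
    exact left_ne_zero_of_mul h (hz _ (le_trans (by linarith) (norm_fst_le (Ls L s.1, Ls L s.2))))
  have hG1 : ∀ s : E (Option ι) × E (Option ι), R0 + 1 < ‖s.1‖ → fderiv ℝ G s = 0 := fun s hs => by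
    have : G =ᶠ[𝓝 s] fun _ => 0 :=
      ((isOpen_lt continuous_const continuous_fst.norm).eventually_mem hs).mono hG0
    rw [this.fderiv_eq, fderiv_fun_const, Pi.zero_apply]
  obtain ⟨K, hK⟩ := ((isCompact_closedBall (0 : E (Option ι)) (R0 + 1)).prod
    (isCompact_closedBall (0 : E (Option ι)) 1)).exists_bound_of_continuousOn
    (hG.continuous.prodMk (hG.continuous_fderiv (by simp))).continuousOn
  have hK0 : 0 ≤ K := (norm_nonneg _).trans (hK 0 ⟨mem_closedBall_self (by positivity),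
    mem_closedBall_self zero_le_one⟩)
  have hcv := O.conv (fun s => fderiv ℝ G s (L w - ⟪s.2, L w⟫ • s.2, 0)) (R0 + 1)
    ((hG.continuous_fderiv (by simp)).clm_apply (by fun_prop)) fun s hs => by
      rw [hG1 s hs]; rfl
  have e : ∀ q : Y d × Y d, fderiv ℝ G (L q.1, L q.2) (L w - ⟪L q.2, L w⟫ • L q.2, 0)
      = fderiv ℝ g q (w - ⟪q.2, w⟫ • q.2, 0) := fun q => by
    have e1 : g = G ∘ (L.toContinuousLinearMap.prodMap L.toContinuousLinearMap) := by
      funext q; simp [G, Ls_L, cut_L]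
    rw [e1, fderiv_comp _ (hG.differentiable (by simp) _) (ContinuousLinearMap.differentiableAt _),
      ContinuousLinearMap.fderiv]
    simp [Prod.map]
  simp only [e] at hcv
  refine tendsto_nhds_unique hcv (Metric.tendsto_nhds.2 fun ε hε => ?_)
  obtain ⟨K1, hK1⟩ : ∃ K1 : ℝ, K1 = Fintype.card (Option ι) * ∑ a, |L w a| := ⟨_, rfl⟩
  have hK10 : 0 ≤ K1 := by rw [hK1]; positivity
  obtain ⟨δ, hδ, hδ'⟩ : ∃ δ > 0, δ * (K * (1 + 2 * K1 + ‖L w‖)) * (C' * (R0 + 1) ^ d) ≤ ε / 2 := by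
    have hB : 0 ≤ K * (1 + 2 * K1 + ‖L w‖) * (C' * (R0 + 1) ^ d) := by positivity
    refine ⟨ε / 2 / (K * (1 + 2 * K1 + ‖L w‖) * (C' * (R0 + 1) ^ d) + 1), by positivity, ?_⟩
    rw [mul_assoc, div_mul_eq_mul_div, div_le_iff₀ (by positivity)]
    nlinarith
  have hle : (hyperfilter ℕ : Filter ℕ) ≤ atTop := Nat.cofinite_eq_atTop ▸ hyperfilter_le_cofinite
  have hN : {q | ‖L w - M.PbL q (L w)‖ ≤ δ} ∈ 𝓝 p0 :=
    ((continuous_const.sub ((continuous_PbL M).comp
      (continuous_id.prodMk continuous_const))).norm.tendsto p0).eventually_le_const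
      (by simpa [O.PbL_L] using hδ)
  filter_upwards [ev_near (u := u) hM O.tp hr' (R0 + 1) hN, ev_mul_le hr' (R0 + 1) one_pos,
    ev_mul_le hr' C hδ, ((tendsto_natCast_atTop_atTop (R := ℝ)).mono_left hle).eventually_ge_atTop R0,
    (((tendsto_one_div_add_atTop_nhds_zero_nat (𝕜 := ℝ)).mono_left hle).const_mul
      (K * K1 / δ)).eventually_lt_const (u := ε / 2) (by simpa using hε)] with j j1 j2 j3 j4 j5
  have := FLa.key (hu j).sm (hC _ (hu j)) (hC' _ (hu j)).2.1 hG (h0 j) (by positivity) j2 hδ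
    (by linarith : R0 + 1 ≤ (j : ℝ) + 1) (L w) (fun s hs => ⟨hG0 s hs, hG1 s hs⟩) hK0
    (fun s s1 s2 => norm_prod_le_iff.1
      (hK s ⟨mem_closedBall_zero_iff.2 s1, mem_closedBall_zero_iff.2 s2⟩)) j1 j3 (he j) hK1
  rw [Real.dist_eq, sub_zero]
  linarith

end Crest.Agent.N222

end
end

-- ▼ part N222/B/FL2
section

/-!
# Row 222, part B, ε-regularity block (helper16): FL2 (close to a hyperplane gives density almost one)
-/

set_option autoImplicit false
set_option linter.unusedSectionVars false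
open MeasureTheory Set Filter Topology Function Metric
open scoped ContDiff InnerProductSpace RealInnerProductSpace

noncomputable section

namespace Crest.Agent.N222
open EP

theorem fl2 (hB : BlowStmt) (h1 : LV1Stmt) : FL2Stmt := by
  intro d ι _ _ X _ _ _ _ _ _ M F hM hF Λ ε hε
  by_contra hc
  push Not at hc
  choose u hu p r h0 hr n hn hP hq hg using fun j : ℕ =>
    hc ((j : ℝ) + 1) (1 / ((j : ℝ) + 1)) (by linarith [j.cast_nonneg (α := ℝ)]) (by positivity)
  have hr' := tendsto_hyper h0 hr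
  obtain ⟨p0, L, V, O⟩ := exists_out hB hM hF (hyperfilter ℕ) p hu hr'
  obtain ⟨n0, -, hn0⟩ := (isCompact_closedBall (0 : E (Option ι)) 1).ultrafilter_le_nhds
    ((hyperfilter ℕ).map n) (le_principal_iff.2 (mem_map.2 (univ_mem' fun j =>
      mem_closedBall_zero_iff.2 (hn j).le)))
  have hn1 : Tendsto n (hyperfilter ℕ) (𝓝 n0) := hn0
  have h2 : 1 / 2 ≤ ‖M.PbL p0 n0‖ := ge_of_tendsto'
    (((continuous_PbL M).tendsto (p0, n0)).comp (O.tp.prodMk_nhds hn1)).norm hP
  obtain ⟨n', hn'⟩ := (O.ran _).1 (PbL_PbL p0 n0)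
  refine O.no_plane h1 hr' hε hg (n := n') (fun h => ?_) fun y hy => ?_
  · rw [← hn', h, map_zero, norm_zero] at h2
    norm_num at h2
  obtain ⟨q, hq'⟩ := O.supp y hy
  rw [← L.inner_map_map, hn', PbL_symm, O.PbL_L]
  have hle : (hyperfilter ℕ : Filter ℕ) ≤ atTop := Nat.cofinite_eq_atTop ▸ hyperfilter_le_cofinite
  refine abs_nonpos_iff.1 (le_of_tendsto_of_tendsto (hn1.inner hq').abs
    ((tendsto_one_div_add_atTop_nhds_zero_nat (𝕜 := ℝ)).mono_left hle) ?_)
  filter_upwards [hq'.norm.eventually_le_const (lt_add_one _),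
    ((tendsto_natCast_atTop_atTop (R := ℝ)).mono_left hle).eventually_ge_atTop ‖L y‖] with j h3 h4
  have h5 := hq j (q j) ((norm_ry_le (h0 j)).1 (h3.trans (by linarith)))
  rw [ry, inner_smul_right, abs_mul, abs_of_pos (inv_pos.2 (h0 j)), inv_mul_le_iff₀ (h0 j),
    mul_comm]
  exact h5

end Crest.Agent.N222

end
end

-- ▼ part N222/B/WEn
section

/-!
# Row 222, part B, ε-regularity block: energy estimate for W
-/

set_option autoImplicit false
set_option linter.unusedSectionVars false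
open MeasureTheory Set Filter Topology Function Metric
open scoped ContDiff InnerProductSpace RealInnerProductSpace

noncomputable section

namespace Crest.Agent.N222
open EP

variable {d : ℕ} {ι : Type} [Fintype ι] [DecidableEq ι] {X : Type} [TopologicalSpace X]
  [T2Space X] [SecondCountableTopology X] [MeasurableSpace X] [BorelSpace X] [CompactSpace X]
  {M : Imm d ι X}

namespace WEn

/-- the pointwise inequality -/
theorem pt {κ : Type} [Fintype κ] {η w s a ρ B K dv : ℝ} {T dw dη : κ → ℝ} (hη0 : 0 ≤ η)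
    (hη1 : η ≤ 1) (hs0 : 0 ≤ s) (hs : s ^ 2 = 1 - w ^ 2) (ha : 0 ≤ a) (hρ : 0 < ρ) (hρ1 : ρ ≤ 1)
    (hB : 0 ≤ B) (hK : 0 ≤ K) (h4 : ρ ^ 2 * a ≤ 4) (hT : ∑ c, T c ^ 2 ≤ a * s ^ 2)
    (hdv : |dv - a * w| ≤ B * √(1 + a)) (hdw : ∀ c, |dw c + T c| ≤ B)
    (hdη : ∀ c, |dη c| ≤ K / ρ) :
    ρ ^ 2 * (a * η - (η * w * dv + ∑ c, T c * (η * dw c + dη c * w))) ≤
      (8 + 2 * Fintype.card κ * K + 3 * B + 2 * Fintype.card κ * B) * (s + ρ) := by
  have hs1 : s ≤ 1 := by nlinarith [sq_nonneg w]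
  have hw : |w| ≤ 1 := abs_le_one_iff_mul_self_le_one.2 (by nlinarith [sq_nonneg s])
  have h1 : ρ ^ 2 * (a * s ^ 2) ≤ 4 * s ^ 2 := by
    rw [← mul_assoc]; exact mul_le_mul_of_nonneg_right h4 (sq_nonneg s)
  have h2 : ρ ^ 2 * ∑ c, T c ^ 2 ≤ 4 * s ^ 2 :=
    (mul_le_mul_of_nonneg_left hT (sq_nonneg ρ)).trans h1
  have hss : s ^ 2 ≤ s := by nlinarith
  have h3 : ∀ c, |ρ * T c| ≤ 2 * s := fun c => by
    refine abs_le_of_sq_le_sq' ?_ (by positivity) |> abs_le.2
    have := Finset.single_le_sum (f := fun c => T c ^ 2) (fun _ _ => sq_nonneg _)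
      (Finset.mem_univ c)
    nlinarith [mul_le_mul_of_nonneg_left this (sq_nonneg ρ)]
  have h5 : ρ * √(1 + a) ≤ 3 := by
    refine abs_le_of_sq_le_sq' ?_ (by norm_num) |>.2
    rw [mul_pow, Real.sq_sqrt (by linarith)]
    nlinarith
  have t2 : -(ρ ^ 2 * (η * w * (dv - a * w))) ≤ 3 * B * ρ := by
    refine (neg_le_abs _).trans ?_
    rw [abs_mul, abs_mul, abs_mul, abs_of_nonneg hη0, abs_of_nonneg (sq_nonneg ρ)]
    calc ρ ^ 2 * (η * |w| * |dv - a * w|) ≤ ρ ^ 2 * (1 * 1 * (B * √(1 + a))) := by gcongr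
      _ = B * ρ * (ρ * √(1 + a)) := by ring
      _ ≤ B * ρ * 3 := by gcongr
      _ = _ := by ring
  have t4 : ∀ c, -(ρ ^ 2 * (T c * (η * dw c + dη c * w))) ≤
      η * (ρ ^ 2 * T c ^ 2) + (2 * B * ρ + 2 * K * s) := fun c => by
    have e1 : -(ρ ^ 2 * (T c * (η * dw c + dη c * w))) = η * (ρ ^ 2 * T c ^ 2) +
        (-(ρ * η * (ρ * T c) * (dw c + T c)) + -((ρ * T c) * (ρ * dη c) * w)) := by ring
    have e2 : -(ρ * η * (ρ * T c) * (dw c + T c)) ≤ 2 * B * ρ := by
      refine (neg_le_abs _).trans ?_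
      rw [abs_mul, abs_mul, abs_mul, abs_of_nonneg hη0, abs_of_pos hρ]
      calc ρ * η * |ρ * T c| * |dw c + T c| ≤ ρ * 1 * (2 * 1) * B := by
            gcongr
            · exact (h3 c).trans (by gcongr)
            · exact hdw c
        _ = _ := by ring
    have e3 : -((ρ * T c) * (ρ * dη c) * w) ≤ 2 * K * s := by
      refine (neg_le_abs _).trans ?_
      rw [abs_mul, abs_mul, abs_mul ρ (dη c), abs_of_pos hρ]
      calc |ρ * T c| * (ρ * |dη c|) * |w| ≤ 2 * s * (ρ * (K / ρ)) * 1 := by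
            gcongr
            · exact h3 c
            · exact hdη c
        _ = _ := by field_simp
    rw [e1]
    linarith
  have t5 := Finset.sum_le_sum fun c (_ : c ∈ Finset.univ) => t4 c
  rw [Finset.sum_neg_distrib, ← Finset.mul_sum, Finset.sum_add_distrib, ← Finset.mul_sum,
    ← Finset.mul_sum, Finset.sum_const, nsmul_eq_mul, Finset.card_univ] at t5
  have t3 : η * (ρ ^ 2 * ∑ c, T c ^ 2) ≤ 4 * s :=
    (mul_le_mul hη1 h2 (by positivity) zero_le_one).trans (by linarith)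
  have t1 : η * (ρ ^ 2 * (a * s ^ 2)) ≤ 4 * s :=
    (mul_le_mul hη1 h1 (by positivity) zero_le_one).trans (by linarith)
  have e : ρ ^ 2 * (a * η - (η * w * dv + ∑ c, T c * (η * dw c + dη c * w))) =
      η * (ρ ^ 2 * (a * s ^ 2)) + -(ρ ^ 2 * (η * w * (dv - a * w))) +
        -(ρ ^ 2 * ∑ c, T c * (η * dw c + dη c * w)) := by rw [hs]; ring
  rw [e]
  have hN : (0 : ℝ) ≤ Fintype.card κ := Nat.cast_nonneg _
  nlinarith [mul_nonneg (mul_nonneg hN hK) hρ.le, mul_nonneg hB hs0,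
    mul_nonneg (mul_nonneg hN hB) hs0]

variable {u : X → ℝ} {C : ℝ}

/-- the field `A(·, n)` -/
def T (M : Imm d ι X) (u : X → ℝ) (n : E (Option ι)) (a : Option ι) (q : X) : ℝ :=
  ∑ c, n c * M.A u a c q

theorem sm_T (hu : M.Sm u) (n : E (Option ι)) (a : Option ι) : M.Sm (T M u n a) :=
  Imm.sm_sum _ fun c _ => (Imm.sm_const _).mul (hu.A a c)

theorem tan_T (hu : M.Sm u) (n : E (Option ι)) : (M.gS u).Tan (T M u n) := fun a => by
  funext q
  simp only [Finset.sum_apply, Pi.mul_apply, T, Finset.mul_sum]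
  rw [Finset.sum_comm]
  refine Finset.sum_congr rfl fun c _ => ?_
  have h := congrFun (Imm.A_tan hu c a) q
  simp only [Finset.sum_apply, Pi.mul_apply] at h
  rw [← h, Finset.mul_sum]
  exact Finset.sum_congr rfl fun b _ => by ring

theorem A_nu (hu : M.Sm u) (a : Option ι) (q : X) : ∑ c, M.A u a c q * M.nu u c q = 0 := by
  have h1 : ∀ b, ∑ c, (M.gS u).P b c q * M.nu u c q = 0 := fun b => by
    have h := (M.graph u hu).PL_apply q (M.nuv u q) b
    rw [Imm.graph_PL hu, Imm.PbL_nuv hu, real_inner_self_eq_norm_sq, Imm.norm_nuv hu,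
      Imm.graph_pre hu] at h
    simpa [Imm.nuv] using h.symm
  have h2 : ∀ c, M.A u a c q = ∑ b, (M.gS u).P b c q * M.A u b a q := fun c => by
    have h := congrFun (Imm.A_tan hu a c) q
    simp only [Finset.sum_apply, Pi.mul_apply] at h
    rw [Imm.A_symm hu a c, ← h]
    refine Finset.sum_congr rfl fun b _ => ?_
    rw [← Imm.graph_pre hu, (M.graph u hu).P_symm]
  simp only [h2, Finset.sum_mul]
  rw [Finset.sum_comm]
  refine Finset.sum_eq_zero fun b _ => ?_
  have : ∑ c, (M.gS u).P b c q * M.A u b a q * M.nu u c q =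
      M.A u b a q * ∑ c, (M.gS u).P b c q * M.nu u c q := by
    rw [Finset.mul_sum]
    exact Finset.sum_congr rfl fun c _ => by ring
  rw [this, h1, mul_zero]

theorem sum_T_sq (hu : M.Sm u) {n : E (Option ι)} (hn : ‖n‖ = 1) (q : X) :
    ∑ a, T M u n a q ^ 2 ≤ M.a2 u q * (1 - ⟪M.nuv u q, n⟫ ^ 2) := by
  set w := ⟪M.nuv u q, n⟫ with hw
  have h1 : ∑ c, (n c - w * M.nu u c q) ^ 2 = 1 - w ^ 2 := by
    have h2 : ‖n - w • M.nuv u q‖ ^ 2 = 1 - w ^ 2 := by
      rw [norm_sub_sq_real, hn, norm_smul, Imm.norm_nuv hu, real_inner_smul_right,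
        real_inner_comm, ← hw, Real.norm_eq_abs, mul_one, sq_abs]
      ring
    rw [← h2, EuclideanSpace.real_norm_sq_eq]
    rfl
  rw [Imm.a2_apply, Finset.sum_mul]
  refine Finset.sum_le_sum fun a _ => ?_
  have h3 : T M u n a q = ∑ c, M.A u a c q * (n c - w * M.nu u c q) := by
    have h4 : ∑ c, M.A u a c q * (n c - w * M.nu u c q) =
        ∑ c, n c * M.A u a c q - w * ∑ c, M.A u a c q * M.nu u c q := by
      rw [Finset.mul_sum, ← Finset.sum_sub_distrib]
      exact Finset.sum_congr rfl fun c _ => by ring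
    rw [h4, A_nu hu, mul_zero, sub_zero, T]
  rw [h3, ← h1]
  refine (Finset.sum_mul_sq_le_sq_mul_sq _ _ _).trans_eq ?_
  simp only [sq]

theorem abs_sum_le {n : E (Option ι)} (hn : ‖n‖ = 1) {f : Option ι → ℝ} {B : ℝ}
    (h : ∀ c, |f c| ≤ B) : |∑ c, n c * f c| ≤ Fintype.card (Option ι) * B := by
  refine (Finset.abs_sum_le_sum_abs _ _).trans ((Finset.sum_le_card_nsmul _ _ B
    fun c _ => ?_).trans_eq ?_)
  · rw [abs_mul]
    have h1 : |n c| ≤ 1 := hn ▸ PiLp.norm_apply_le n c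
    exact (mul_le_of_le_one_left (abs_nonneg _) h1).trans (h c)
  · rw [nsmul_eq_mul, Finset.card_univ]

theorem dv_T (hu : M.Sm u) (n : E (Option ι)) (q : X) :
    (M.gS u).dv (T M u n) q = ∑ c, n c * (M.gS u).dv (fun a => M.A u a c) q := by
  rw [← Imm.graph_pre hu]
  simp only [Imm.dv_apply, Finset.mul_sum]
  rw [Finset.sum_comm]
  refine Finset.sum_congr rfl fun a _ => ?_
  have h := Imm.D_sum (M := M.graph u hu) (p := q) Finset.univ
    (f := fun c q => n c * M.A u a c q)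
    (fun c _ => g_diffAt hu ((Imm.sm_const _).mul (hu.A a c)) q) a
  refine h.trans (Finset.sum_congr rfl fun c _ => ?_)
  exact Imm.D_const_mul _ (g_diffAt hu (hu.A a c) q) a

theorem abs_dv_T (hu : M.Sm u) (h : M.Sheet C u) {n : E (Option ι)} (hn : ‖n‖ = 1) (q : X) :
    |(M.gS u).dv (T M u n) q - M.a2 u q * ⟪M.nuv u q, n⟫| ≤
      Fintype.card (Option ι) * C * √(1 + M.a2 u q) := by
  rw [dv_T hu, inner_nuv, Finset.mul_sum, ← Finset.sum_sub_distrib, mul_assoc]
  refine le_of_eq_of_le (congrArg _ (Finset.sum_congr rfl fun c _ => ?_))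
    (abs_sum_le hn fun c => h.n1 c q)
  ring

theorem abs_D_w (hu : M.Sm u) (h : M.Sheet C u) {n : E (Option ι)} (hn : ‖n‖ = 1) (a : Option ι)
    (q : X) : |(M.gS u).D a (fun q => ⟪M.nuv u q, n⟫) q + T M u n a q| ≤
      Fintype.card (Option ι) * C := by
  rw [D_inner_nuv hu, T, ← Finset.sum_add_distrib]
  refine le_of_eq_of_le (congrArg _ (Finset.sum_congr rfl fun c _ => ?_))
    (abs_sum_le hn fun c => h.dnu a c q)
  ring

/-- the rescaled cut-off -/
def φ (ι : Type) [Fintype ι] (z : E (Option ι)) : ℝ := Phi (‖z - 0‖ ^ 2 / (1 / 10) ^ 2)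

theorem contDiff_φ : ContDiff ℝ ∞ (φ ι) := contDiff_Phi_ball 0 _

theorem exists_K (ι : Type) [Fintype ι] : ∃ K, 0 ≤ K ∧ ∀ z, ‖fderiv ℝ (φ ι) z‖ ≤ K := by
  classical
  have h1 : HasCompactSupport (φ ι) := hcs_Phi 0 (by norm_num)
  obtain ⟨K, hK⟩ := ((contDiff_φ (ι := ι)).continuous_fderiv
    (by simp)).bounded_above_of_compact_support (h1.fderiv (𝕜 := ℝ))
  exact ⟨K, (norm_nonneg _).trans (hK 0), hK⟩

theorem fderiv_φ {z : E (Option ι)} (hz : 1 / 10 < ‖z‖) : fderiv ℝ (φ ι) z = 0 := by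
  have h : φ ι =ᶠ[𝓝 z] fun _ => 0 := by
    filter_upwards [(isOpen_lt continuous_const continuous_norm).mem_nhds hz] with y hy
    exact Phi_ball_zero (by norm_num) (by rw [sub_zero]; exact le_of_lt hy)
  rw [h.fderiv_eq, fderiv_fun_const]
  rfl

theorem ph_eq {ρ : ℝ} (hρ : 0 < ρ) (p : X) :
    ph M u (M.gx u p) (ρ / 10) = fun q => φ ι (ry M u p ρ q) := by
  funext q
  have h : ‖M.gx u q - M.gx u p‖ ^ 2 / (ρ / 10) ^ 2 = ‖ry M u p ρ q - 0‖ ^ 2 / (1 / 10) ^ 2 := by
    rw [sub_zero, norm_ry hρ]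
    field_simp
  exact congrArg Phi h

end WEn

open WEn in
/-- if the normal is close to `± n` in the mean, the curvature energy is small -/
theorem EP.energy_le (M : Imm d ι X) (C : ℝ) : ∃ K : ℝ, ∀ (u : X → ℝ) (p : X) (ρ : ℝ)
    (n : E (Option ι)), M.Sm u → M.Sheet C u → 0 < ρ → ρ ≤ 1 → ‖n‖ = 1 →
    (∀ q, ‖M.gx u q - M.gx u p‖ < ρ → ρ ^ 2 * M.a2 u q ≤ 4) →
    ρ ^ 2 * ∫ q, M.a2 u q * ph M u (M.gx u p) (ρ / 10) q ∂M.gmu u ≤
      K * ∫ q, (√(1 - ⟪M.nuv u q, n⟫ ^ 2) + ρ) * ph M u (M.gx u p) ρ q ∂M.gmu u := by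
  obtain ⟨K, hK0, hK⟩ := exists_K ι
  refine ⟨8 + 2 * Fintype.card (Option ι) * K + 3 * (Fintype.card (Option ι) * C) +
    2 * Fintype.card (Option ι) * (Fintype.card (Option ι) * C), ?_⟩
  intro u p ρ n hu hS hρ hρ1 hn h4
  have hC : 0 ≤ C := (norm_nonneg _).trans (hS.H p)
  set η := ph M u (M.gx u p) (ρ / 10) with hη
  set w : X → ℝ := fun q => ⟪M.nuv u q, n⟫ with hw
  have sη : M.Sm η := sm_ph hu _ _
  have sw : M.Sm w := sm_inner_nuv hu n
  have hibp := g_ibp hu (f := fun q => η q * w q)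
    (Imm.Sm.c1 (M := M.graph u hu) (sη.mul sw)) (sm_T hu n) (tan_T hu n)
  have c1 : Continuous fun q => M.a2 u q * η q := hu.a2.continuous.mul sη.continuous
  have c2 : Continuous fun q => η q * w q * (M.gS u).dv (T M u n) q :=
    (sη.mul sw).continuous.mul (sm_gdv hu (sm_T hu n)).continuous
  have c3 : Continuous fun q => ∑ a, T M u n a q * (M.gS u).D a (fun q => η q * w q) q :=
    continuous_finsetSum _ fun a _ =>
      (sm_T hu n a).continuous.mul (sm_gD hu (sη.mul sw) a).continuous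
  have c4 : Continuous fun q => η q * w q * (M.gS u).dv (T M u n) q +
      ∑ a, T M u n a q * (M.gS u).D a (fun q => η q * w q) q := c2.add c3
  have e1 : ∫ q, M.a2 u q * η q ∂M.gmu u = ∫ q, (M.a2 u q * η q -
      (η q * w q * (M.gS u).dv (T M u n) q +
        ∑ a, T M u n a q * (M.gS u).D a (fun q => η q * w q) q)) ∂M.gmu u := by
    rw [integral_sub (integrable_gmu hu c1) (integrable_gmu hu c4),
      integral_add (integrable_gmu hu c2) (integrable_gmu hu c3), hibp, neg_add_cancel, sub_zero]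
  rw [e1, ← integral_const_mul, ← integral_const_mul]
  refine integral_mono (integrable_gmu hu (continuous_const.mul (c1.sub c4)))
    (integrable_gmu hu (continuous_const.mul ((((continuous_const.sub
      (sw.continuous.pow 2)).sqrt).add continuous_const).mul (sm_ph hu _ _).continuous)))
    fun q => ?_
  have hD : ∀ a, (M.gS u).D a (fun q => η q * w q) q =
      η q * (M.gS u).D a w q + (M.gS u).D a η q * w q := fun a => by
    rw [← Imm.graph_pre hu]
    exact Imm.D_mul (g_diffAt hu sη q) (g_diffAt hu sw q) a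
  have hDη : ∀ a, |(M.gS u).D a η q| ≤ ‖fderiv ℝ (φ ι) (ry M u p ρ q)‖ / ρ := fun a => by
    rw [hη, ph_eq hρ]
    exact abs_D_ry_le hu hρ (contDiff_φ.differentiable (by simp) _) a
  have hw1 : w q ^ 2 ≤ 1 := by
    have h := abs_real_inner_le_norm (M.nuv u q) n
    rw [Imm.norm_nuv hu, hn, mul_one] at h
    exact (sq_le_one_iff_abs_le_one _).2 h
  simp only [hD]
  by_cases hq : ‖ry M u p ρ q‖ ≤ 1 / 10
  · have h5 := (norm_ry_le hρ).1 hq
    have h6 : ph M u (M.gx u p) ρ q = 1 := Phi_ball_one hρ (by linarith)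
    rw [h6, mul_one]
    refine pt (Phi_nonneg _) (Phi_le_one _) (Real.sqrt_nonneg _) (Real.sq_sqrt (by linarith))
      (M.a2_nonneg u q) hρ hρ1 (by positivity) hK0 (h4 q (by linarith)) ?_ (abs_dv_T hu hS hn q)
      (fun a => abs_D_w hu hS hn a q)
      fun a => (hDη a).trans (div_le_div_of_nonneg_right (hK _) hρ.le)
    rw [Real.sq_sqrt (by linarith)]
    exact sum_T_sq hu hn q
  · have h5 : η q = 0 := by
      rw [hη, ph_eq hρ]
      exact Phi_ball_zero (by norm_num) (by rw [sub_zero]; exact (not_le.1 hq).le)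
    have h6 : ∀ a, (M.gS u).D a η q = 0 := fun a => by
      have h := hDη a
      rw [fderiv_φ (not_le.1 hq), norm_zero, zero_div] at h
      exact abs_nonpos_iff.1 h
    simp only [h5, h6, mul_zero, zero_mul, add_zero, Finset.sum_const_zero, sub_zero]
    have := Phi_nonneg (‖M.gx u q - M.gx u p‖ ^ 2 / ρ ^ 2)
    positivity

end Crest.Agent.N222

end
end

-- ▼ part N222/B/WMv
section

/-!
# Row 222, part B, ε-regularity block: mean value inequality for the curvature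
-/

set_option autoImplicit false
set_option linter.unusedSectionVars false
open MeasureTheory Set Filter Topology Function Metric
open scoped ContDiff InnerProductSpace RealInnerProductSpace

noncomputable section

namespace Crest.Agent.N222
open EP

variable {d : ℕ} {ι : Type} [Fintype ι] [DecidableEq ι] {X : Type} [TopologicalSpace X]
  [T2Space X] [SecondCountableTopology X] [MeasurableSpace X] [BorelSpace X] [CompactSpace X]
  {M : Imm d ι X}

/-- mean value inequality for `|A|²` -/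
theorem EP.mv_a2 (hMon : MonStmt) (hMon2 : Mon2Stmt) (hM : Injective M.x) (C C' : ℝ) :
    ∃ K : ℝ, ∀ (u : X → ℝ) (κ : ℝ) (Z : Option ι → X → ℝ) (p : X) (ρ : ℝ), M.Sm u → M.Sheet C u →
    M.Sim κ C' u Z → 0 ≤ κ → 1 ≤ C' → 0 < ρ → ρ ≤ 1 →
    (∀ q, ‖M.gx u q - M.gx u p‖ < ρ → ρ ^ 2 * M.a2 u q ≤ 4) →
    (∀ t, 0 < t → t ≤ ρ → M.gTh u (M.gx u p) t ≤ 2 * cPhi d) →
    cPhi d * (ρ ^ 2 * M.a2 u p) - cPhi d / 2 - K * ρ ≤
      ρ ^ 2 * bl M u (ρ / 10) fun q => M.a2 u q * ph M u (M.gx u p) (ρ / 10) q := by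
  refine ⟨cPhi d * (3 / 10 * C' + 2 * Fintype.card (Option ι) * C' + 4 / 5 * C), ?_⟩
  intro u κ Z p ρ hu hS hZ hκ hC' hρ hρ1 ha hΘ
  have ha0 : ∀ q, 0 ≤ M.a2 u q := fun q => Imm.a2_nonneg _ _ _
  have hsa : M.Sm (M.a2 u) := hu.a2
  have hb : ∀ q, ‖M.gx u q - M.gx u p‖ < ρ → M.a2 u q ≤ 4 / ρ ^ 2 := fun q hq => by
    rw [le_div_iff₀ (by positivity), mul_comm]; exact ha q hq
  have h1 : 1 ≤ 1 / ρ ^ 2 := by
    rw [le_div_iff₀ (by positivity), one_mul]; exact pow_le_one₀ hρ.le hρ1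
  have hb1 : ∀ q, ‖M.gx u q - M.gx u p‖ < ρ → 1 + M.a2 u q ≤ 5 / ρ ^ 2 := fun q hq => by
    have := hb q hq
    have e : 5 / ρ ^ 2 = 1 / ρ ^ 2 + 4 / ρ ^ 2 := by ring
    linarith
  set S : ℝ := 16 / ρ ^ 4 + 15 * C' / ρ ^ 3 with hSd
  have hS0 : 0 ≤ S := by have : 0 ≤ C' := by linarith
                         positivity
  have hdv : ∀ q, ‖M.gx u q - M.gx u p‖ < ρ → -(M.gS u).dv Z q ≤ S := fun q hq => by
    have g0 : 0 ≤ (M.gS u).gam (M.a2 u) (M.a2 u) q := by
      rw [← Imm.graph_pre hu]; exact Imm.gam_self_nonneg _ _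
    have g1 := (mul_nonneg hκ (div_nonneg g0 (by norm_num : (0 : ℝ) ≤ 4))).trans (hZ.dv q)
    have g2 := (mul_nonneg_iff_of_pos_left (by linarith [ha0 q])).1 g1
    have g3 : M.a2 u q ^ 2 ≤ 16 / ρ ^ 4 :=
      (pow_le_pow_left₀ (ha0 q) (hb q hq) 2).trans_eq (by ring)
    have g4 : √(1 + M.a2 u q) ≤ 3 / ρ := by
      refine Real.sqrt_le_iff.2 ⟨by positivity, (hb1 q hq).trans ?_⟩
      rw [div_pow]
      exact div_le_div_of_nonneg_right (by norm_num) (by positivity)
    have g5 : (1 + M.a2 u q) * √(1 + M.a2 u q) ≤ 5 / ρ ^ 2 * (3 / ρ) :=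
      mul_le_mul (hb1 q hq) g4 (Real.sqrt_nonneg _) (by positivity)
    have g6 := mul_le_mul_of_nonneg_left g5 (by linarith : 0 ≤ C')
    have e : C' * (5 / ρ ^ 2 * (3 / ρ)) = 15 * C' / ρ ^ 3 := by ring
    linarith
  have key := g_mean_value hMon hMon2 hM hu hS hsa ha0 p (ρ := ρ / 10) (B := 4 / ρ ^ 2)
    (K := S * (ρ / 10) + Fintype.card (Option ι) * (10 * C' / ρ ^ 2)) (Θ := 2 * cPhi d)
    (by positivity) (by have : 0 ≤ C' := by linarith
                        positivity) (fun q hq => hb q (by linarith))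
    (fun t ht htρ => hΘ t ht (by linarith)) fun t ht htρ => by
      have hD : ∀ a, Continuous ((M.gS u).D a (ps M u (M.gx u p) t)) := fun a => by
        rw [← Imm.graph_pre hu]; exact (c1_ps hu _ t).cont a
      have i1 : Integrable (fun q => ∑ a, Z a q * (M.gS u).D a (ps M u (M.gx u p) t) q)
          (M.gmu u) := integrable_gmu hu
        (continuous_finsetSum _ fun a _ => (hZ.sm a).continuous.mul (hD a))
      have i2 : Integrable (fun q => ∑ a, ((M.gS u).D a (M.a2 u) q - 2 * Z a q) *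
          (M.gS u).D a (ps M u (M.gx u p) t) q) (M.gmu u) := integrable_gmu hu
        (continuous_finsetSum _ fun a _ => ((sm_gD hu hsa a).continuous.sub
          (continuous_const.mul (hZ.sm a).continuous)).mul (hD a))
      have e1 : ∫ q, ∑ a, (M.gS u).D a (M.a2 u) q * (M.gS u).D a (ps M u (M.gx u p) t) q
          ∂M.gmu u = 2 * (∫ q, ∑ a, Z a q * (M.gS u).D a (ps M u (M.gx u p) t) q ∂M.gmu u) +
            ∫ q, ∑ a, ((M.gS u).D a (M.a2 u) q - 2 * Z a q) *
              (M.gS u).D a (ps M u (M.gx u p) t) q ∂M.gmu u := by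
        rw [← integral_const_mul, ← integral_add (i1.const_mul 2) i2]
        refine integral_congr_ae (.of_forall fun q => ?_)
        simp only [Finset.mul_sum, ← Finset.sum_add_distrib]
        exact Finset.sum_congr rfl fun a _ => by ring
      have e2 := (le_abs_self _).trans (abs_int_D_ps_le hu ht (y := M.gx u p)
        (Z := fun a q => (M.gS u).D a (M.a2 u) q - 2 * Z a q) (B := 10 * C' / ρ ^ 2)
        fun q hq a => by
          have g1 := hZ.near a q
          have g2 := mul_le_mul_of_nonneg_left (hb1 q (by linarith)) (by linarith : 0 ≤ C')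
          have e : (M.gS u).D a (M.a2 u) q - 2 * Z a q =
              -2 * (Z a q - (M.gS u).D a (M.a2 u) q / 2) := by ring
          have e' : 10 * C' / ρ ^ 2 = 2 * (C' * (5 / ρ ^ 2)) := by ring
          rw [e, abs_mul, abs_neg, abs_two, e']
          linarith)
      have e3 : ∫ q, ∑ a, Z a q * (M.gS u).D a (ps M u (M.gx u p) t) q ∂M.gmu u ≤
          S * (M.gTh u (M.gx u p) t * t ^ d) := by
        rw [← neg_neg (∫ q, ∑ a, Z a q * _ ∂M.gmu u), ← g_ibp hu (c1_ps hu _ t) hZ.sm hZ.tan,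
          ← integral_neg, ← integral_ph ht, ← integral_const_mul]
        refine integral_mono (integrable_gmu hu ((c1_ps hu _ t).continuous.mul
          (sm_gdv hu hZ.sm).continuous).neg) (integrable_gmu hu
            (continuous_const.mul (sm_ph hu _ t).continuous)) fun q => ?_
        have p0 : 0 ≤ ps M u (M.gx u p) t q := Psi_nonneg _
        have p1 : ps M u (M.gx u p) t q ≤ ph M u (M.gx u p) t q := Psi_le_Phi (by positivity)
        by_cases h : ph M u (M.gx u p) t q = 0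
        · have : ps M u (M.gx u p) t q = 0 := le_antisymm (h ▸ p1) p0
          simp only [this, h, zero_mul, neg_zero, mul_zero, le_refl]
        · have g1 := mul_le_mul_of_nonneg_left (hdv q (by linarith [lt_of_ph_ne ht h])) p0
          have g2 := mul_le_mul_of_nonneg_right p1 hS0
          simp only
          linarith
      have hG : 0 ≤ M.gTh u (M.gx u p) t * t ^ d := mul_nonneg (gTh_nonneg ht _) (by positivity)
      have e4 : 2 * S ≤ S * (ρ / 10) * (2 / t) := by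
        have := mul_le_mul_of_nonneg_right (mul_le_mul_of_nonneg_left htρ hS0)
          (by positivity : 0 ≤ 2 / t)
        refine le_of_eq_of_le ?_ this
        field_simp
      have e5 := mul_le_mul_of_nonneg_right e4 hG
      rw [e1]
      linarith
  have k2 := mul_le_mul_of_nonneg_left key (sq_nonneg ρ)
  refine le_trans ?_ k2
  have e : ρ ^ 2 * (cPhi d * M.a2 u p - (S * (ρ / 10) + Fintype.card (Option ι) *
      (10 * C' / ρ ^ 2) + 4 / ρ ^ 2 * C) * (2 * cPhi d) * (ρ / 10)) =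
      cPhi d * (ρ ^ 2 * M.a2 u p) - 8 / 25 * cPhi d -
        cPhi d * (3 / 10 * C' + 2 * Fintype.card (Option ι) * C' + 4 / 5 * C) * ρ := by
    rw [hSd]
    field_simp
    ring
  rw [e]
  linarith [cPhi_pos d]

end Crest.Agent.N222

end
end

-- ▼ part N222/B/W
section

/-!
# Row 222, part B, ε-regularity block (helper16): W, the curvature bound
-/

set_option autoImplicit false
set_option linter.unusedSectionVars false
open MeasureTheory Set Filter Topology Function Metric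
open scoped ContDiff InnerProductSpace RealInnerProductSpace

noncomputable section

namespace Crest.Agent.N222
namespace EP

variable {d : ℕ} {ι : Type} [Fintype ι] [DecidableEq ι] {X : Type} [TopologicalSpace X]
  [T2Space X] [SecondCountableTopology X] [MeasurableSpace X] [BorelSpace X] [CompactSpace X]
  {M : Imm d ι X} {C : ℝ}

section One
variable {u : X → ℝ}

/-- point picking -/
theorem pick (hu : M.Sm u) {y : E (Option ι)} {r k : ℝ} (hk : 0 ≤ k) {q0 : X}
    (hq : ‖M.gx u q0 - y‖ < r / 2) (hK : 16 * k ^ 2 < r ^ 2 * M.a2 u q0) :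
    ∃ p ρ, 0 < ρ ∧ ρ ^ 2 * M.a2 u p = 1 ∧ k * ρ ≤ r ∧ ∀ q, ‖M.gx u q - M.gx u p‖ ≤ k * ρ →
      ρ ^ 2 * M.a2 u q ≤ 4 ∧ ‖M.gx u q - y‖ < r := by
  have hr : 0 < r := by linarith [norm_nonneg (M.gx u q0 - y)]
  have hx := (Imm.sm_gx hu).continuous
  have ha := hu.a2.continuous
  obtain ⟨p, -, hp⟩ := isCompact_univ.exists_isMaxOn ⟨q0, mem_univ _⟩
    (f := fun q => max (r - ‖M.gx u q - y‖) 0 ^ 2 * M.a2 u q) (by fun_prop)
  have hp' : ∀ q (s : ℝ), 0 ≤ s → s ≤ r - ‖M.gx u q - y‖ →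
      s ^ 2 * M.a2 u q ≤ max (r - ‖M.gx u p - y‖) 0 ^ 2 * M.a2 u p := fun q s h0 h1 =>
    (mul_le_mul_of_nonneg_right (pow_le_pow_left₀ h0 (le_max_of_le_left h1) 2)
      (M.a2_nonneg u q)).trans (hp (mem_univ q))
  have h1 : 4 * k ^ 2 < max (r - ‖M.gx u p - y‖) 0 ^ 2 * M.a2 u p := by
    have := hp' q0 (r / 2) (by positivity) (by linarith)
    linarith
  have h2 : 0 < max (r - ‖M.gx u p - y‖) 0 ^ 2 * M.a2 u p := lt_of_le_of_lt (by positivity) h1
  have h3 : 0 < M.a2 u p := (M.a2_nonneg u p).lt_of_ne fun h => by simp [← h] at h2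
  have h4 : 0 < r - ‖M.gx u p - y‖ := by
    by_contra h
    simp [max_eq_right (not_lt.1 h)] at h2
  rw [max_eq_left h4.le] at h1 hp'
  set t := r - ‖M.gx u p - y‖
  have h5 : (√(M.a2 u p))⁻¹ ^ 2 * M.a2 u p = 1 := by
    rw [inv_pow, Real.sq_sqrt h3.le, inv_mul_cancel₀ h3.ne']
  have h6 : 0 < (√(M.a2 u p))⁻¹ := by positivity
  generalize (√(M.a2 u p))⁻¹ = ρ at h5 h6
  have h7 : k * ρ ≤ t / 2 := by
    refine (abs_le_of_sq_le_sq' ?_ (by positivity)).2
    have := mul_lt_mul_of_pos_left h1 (pow_pos h6 2)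
    nlinarith
  refine ⟨p, ρ, h6, h5, by linarith [norm_nonneg (M.gx u p - y)], fun q hq => ?_⟩
  have h8 := norm_sub_le_norm_sub_add_norm_sub (M.gx u q) (M.gx u p) y
  refine ⟨?_, by linarith⟩
  have h9 := mul_le_mul_of_nonneg_left (hp' q (t / 2) (by positivity) (by linarith)) (sq_nonneg ρ)
  refine le_of_mul_le_mul_left ?_ (by positivity : 0 < (t / 2) ^ 2)
  nlinarith

theorem sq_inner_le_perp (hu : M.Sm u) (y : E (Option ι)) (q : X) :
    ⟪M.gx u q - y, M.nuv u q⟫ ^ 2 ≤ (M.graph u hu).perp y q := by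
  have h1 : ⟪M.gx u q - y - (M.graph u hu).PL q (M.gx u q - y), M.nuv u q⟫ =
      ⟪M.gx u q - y, M.nuv u q⟫ := by
    rw [Imm.graph_PL, inner_sub_left _ (_ - _), inner_sub_left (M.PbL _ _), PbL_symm,
      Imm.PbL_nuv hu, inner_smul_left, real_inner_self_eq_norm_sq, Imm.norm_nuv hu,
      real_inner_comm (M.nuv u q)]
    simp
  have h2 := abs_real_inner_le_norm (M.gx u q - y - (M.graph u hu).PL q (M.gx u q - y)) (M.nuv u q)
  rw [h1, Imm.norm_nuv hu, mul_one] at h2
  rw [← sq_abs]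
  exact pow_le_pow_left₀ (abs_nonneg _) h2 2

/-- the integrand of the remainder -/
def rm {F : Type} [NormedAddCommGroup F] [InnerProductSpace ℝ F] (s : (F × ℝ) × F × F) : ℝ :=
  -2 * deriv Phi (‖s.2.1 - s.1.1‖ ^ 2 * s.1.2) * ⟪s.2.1 - s.1.1, s.2.2⟫ ^ 2

section Rm
variable {F : Type} [NormedAddCommGroup F] [InnerProductSpace ℝ F]

theorem continuous_rm : Continuous (rm (F := F)) := by
  have := Mn.continuous_dPhi
  unfold rm; fun_prop

theorem rm_nonneg (s : (F × ℝ) × F × F) : 0 ≤ rm s :=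
  mul_nonneg (mul_nonneg_of_nonpos_of_nonpos (by norm_num) (Mn.deriv_Phi_nonpos _)) (sq_nonneg _)

theorem rm_far {z : F} {τ R σ : ℝ} (hτ : 0 < τ) (h1 : τ ≤ σ) (hz : ‖z‖ ≤ R) (s : F × F)
    (hs : R + σ < ‖s.1‖) : rm ((z, (τ ^ 2)⁻¹), s) = 0 := by
  have h2 : 1 < ‖s.1 - z‖ ^ 2 * (τ ^ 2)⁻¹ := by
    rw [← div_eq_mul_inv, one_lt_div (by positivity)]
    exact pow_lt_pow_left₀ (by linarith [norm_sub_norm_le s.1 z]) hτ.le two_ne_zero
  have h3 : Phi =ᶠ[𝓝 (‖s.1 - z‖ ^ 2 * (τ ^ 2)⁻¹)] fun _ => 0 :=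
    (lt_mem_nhds h2).mono fun t ht => Phi_of_ge ht.le
  simp only [rm, h3.deriv_eq, deriv_const, mul_zero, zero_mul]

end Rm

/-- the remainder is small at some scale -/
theorem exists_rm_le (hMon2 : Mon2Stmt) (hM : Injective M.x) (hu : M.Sm u) (hS : M.Sheet C u)
    (p q' : X) {ρ σ1 σ2 δ : ℝ} (hρ : 0 < ρ) (h1 : 0 < σ1) (h2 : σ1 < σ2)
    (h : Real.exp (C * (σ2 * ρ)) * M.gTh u (M.gx u q') (σ2 * ρ) ≤ (1 + δ) * cPhi d) :
    ∃ τ ∈ Icc σ1 σ2, bl M u ρ (fun q => rm ((ry M u p ρ q', (τ ^ 2)⁻¹), ry M u p ρ q, M.nuv u q)) ≤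
      δ * (cPhi d * σ2 ^ (d + 3) / (σ2 - σ1)) := by
  have a1 : 0 < σ1 * ρ := mul_pos h1 hρ
  have a2 : σ1 * ρ ≤ σ2 * ρ := mul_le_mul_of_nonneg_right h2.le hρ.le
  have hc := (Mn.continuousOn_Rem (M.graph u hu) (M.gx u q') a1).mono
    (Icc_subset_Ici_self : Icc _ (σ2 * ρ) ⊆ _)
  obtain ⟨t, ht, hmin⟩ := isCompact_Icc.exists_isMinOn (nonempty_Icc.2 a2) hc
  have b1 := intervalIntegral.integral_mono_on a2 intervalIntegrable_const
    (hc.intervalIntegrable_of_Icc (μ := volume) a2) fun s hs => hmin hs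
  have b2 := (hMon2 d _ X (M.graph u hu) inferInstance C (graph_Hv_le hu hS)).1 (M.gx u q') _ _ a1 a2
  rw [Imm.graph_Th hu, Imm.graph_Th hu] at b2
  have b3 := gTh_low hMon2 hM hu hS q' a1
  rw [intervalIntegral.integral_const, smul_eq_mul] at b1
  have b4 : (σ2 * ρ - σ1 * ρ) * Mn.Rem (M.graph u hu) (M.gx u q') t ≤ δ * cPhi d := by
    have : ∫ s in σ1 * ρ..σ2 * ρ, Mn.Rem (M.graph u hu) (M.gx u q') s ≤ δ * cPhi d := by
      simp only [Mn.Rem]; linarith
    linarith
  have ht0 : 0 < t := a1.trans_le ht.1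
  have b5 := Mn.Rem_nonneg (M.graph u hu) (M.gx u q') ht0.le
  obtain ⟨τ, rfl⟩ : ∃ τ, t = τ * ρ := ⟨t / ρ, by field_simp⟩
  have hτ : τ ∈ Icc σ1 σ2 := ⟨le_of_mul_le_mul_right ht.1 hρ, le_of_mul_le_mul_right ht.2 hρ⟩
  have hτ0 : 0 < τ := h1.trans_le hτ.1
  refine ⟨τ, hτ, ?_⟩
  have hx := (Imm.sm_gx hu).continuous
  have b6 : bl M u ρ (fun q => rm ((ry M u p ρ q', (τ ^ 2)⁻¹), ry M u p ρ q, M.nuv u q)) ≤
      ρ * Mn.Rem (M.graph u hu) (M.gx u q') (τ * ρ) * τ ^ (d + 3) := by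
    refine (bl_mono hu hρ (continuous_rm.comp (continuous_const.prodMk
      ((continuous_ry hu p ρ).prodMk hu.nuv.continuous))) (g := fun q => (ρ ^ 2)⁻¹ * (-2 * deriv Phi
        (‖M.gx u q - M.gx u q'‖ ^ 2 / (τ * ρ) ^ 2) * (M.graph u hu).perp (M.gx u q') q))
      (continuous_const.mul ((continuous_const.mul (Mn.continuous_dPhi.comp (by fun_prop))).mul
        (Mn.continuous_perp _ _))) fun q => ?_).trans_eq ?_
    · simp only [comp_apply, rm, ry_sub, norm_ry hρ]
      rw [ry, inner_smul_left, conj_trivial, mul_pow, inv_pow, mul_left_comm,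
        show (‖M.gx u q - M.gx u q'‖ / ρ) ^ 2 * (τ ^ 2)⁻¹ = ‖M.gx u q - M.gx u q'‖ ^ 2 / (τ * ρ) ^ 2
          by field_simp]
      exact mul_le_mul_of_nonneg_left (mul_le_mul_of_nonneg_left (sq_inner_le_perp hu _ q)
        (mul_nonneg_of_nonpos_of_nonpos (by norm_num) (Mn.deriv_Phi_nonpos _))) (by positivity)
    · rw [bl_const_mul, bl, Mn.Rem, Imm.graph_mu, Imm.graph_x]
      field_simp
      ring
  refine b6.trans ?_
  rw [← mul_div_assoc, le_div_iff₀ (sub_pos.2 h2)]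
  have b7 := mul_le_mul b4 (pow_le_pow_left₀ hτ0.le hτ.2 (d + 3)) (by positivity)
    ((mul_nonneg (sub_nonneg.2 a2) b5).trans b4)
  linarith

end One

theorem exists_rat_scale {a : ℝ} (ha : 0 < a) : ∃ σ1 σ2 : ℚ, (0 : ℝ) < σ1 ∧ (σ1 : ℝ) < σ2 ∧
    ∀ τ ∈ Icc (σ1 : ℝ) σ2, deriv Phi (a ^ 2 * (τ ^ 2)⁻¹) ≠ 0 := by
  obtain ⟨s, hs, h⟩ := exists_deriv_eq_slope Phi one_half_lt_one continuous_Phi.continuousOn
    (fun s _ => (Mn.hasDerivAt_Phi s).differentiableAt.differentiableWithinAt)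
  have hs0 : 0 < s := one_half_pos.trans hs.1
  have h0 : 0 < a / √s := by positivity
  have h1 : ContinuousAt (fun τ : ℝ => deriv Phi (a ^ 2 * (τ ^ 2)⁻¹)) (a / √s) :=
    Mn.continuous_dPhi.continuousAt.comp
      (continuousAt_const.mul ((continuousAt_id.pow 2).inv₀ (pow_pos h0 2).ne'))
  have h2 := h1.eventually_ne (y := 0) (by
    rw [div_pow, Real.sq_sqrt hs0.le, show a ^ 2 * (a ^ 2 / s)⁻¹ = s by field_simp, h,
      Phi_of_ge le_rfl, Phi_of_le le_rfl]
    norm_num)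
  obtain ⟨l, v, hl, h3⟩ := mem_nhds_iff_exists_Ioo_subset.1 (h2.and (lt_mem_nhds h0))
  obtain ⟨σ1, a1, a2⟩ := exists_rat_btwn hl.1
  obtain ⟨σ2, a3, a4⟩ := exists_rat_btwn hl.2
  exact ⟨σ1, σ2, (h3 ⟨a1, a2.trans hl.2⟩).2, a2.trans a3,
    fun τ hτ => (h3 ⟨a1.trans_le hτ.1, hτ.2.trans_lt a4⟩).1⟩

/-- density almost one at all points and scales: the limit is a cone from every point -/
theorem Out.cone {𝒰 : Ultrafilter ℕ} {u : ℕ → X → ℝ} {p : ℕ → X} {r : ℕ → ℝ} {p0 : X}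
    {L : Y d →ₗᵢ[ℝ] E (Option ι)} {V : Measure (Y d × Y d)} (O : Out M 𝒰 u p r p0 L V)
    (hMon2 : Mon2Stmt) (hM : Injective M.x) (hu : ∀ j, M.Sm (u j)) (hS : ∀ j, M.Sheet C (u j))
    {C' : ℝ} (hA : ∀ j, Area M C' (u j)) (hr : Tendsto r 𝒰 (𝓝[>] 0)) {δ : ℕ → ℝ}
    (hδ : Tendsto δ 𝒰 (𝓝 0)) (h : ∀ R, 0 < R → ∀ᶠ j in (𝒰 : Filter ℕ), ∀ q,
      ‖ry M (u j) (p j) (r j) q‖ ≤ R → ∀ σ, 0 < σ → σ ≤ R → Real.exp (C * (σ * r j)) *
        M.gTh (u j) (M.gx (u j) q) (σ * r j) ≤ (1 + δ j) * cPhi d)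
    (y : Y d) (hy : InSupp V y) : ∀ᵐ q ∂V, ⟪q.1 - y, q.2⟫ = 0 := by
  obtain ⟨q', hq'⟩ := O.supp y hy
  have key : ∀ σ1 σ2 : ℝ, 0 < σ1 → σ1 < σ2 → ∃ τ ∈ Icc σ1 σ2,
      ∀ᵐ q ∂V, rm ((y, (τ ^ 2)⁻¹), q) = 0 := fun σ1 σ2 h1 h2 => by
    have hz := hq'.norm.eventually_le_const (lt_add_one _)
    have h3 : ∀ j, ∃ τ ∈ Icc σ1 σ2, 0 < r j → Real.exp (C * (σ2 * r j)) *
        M.gTh (u j) (M.gx (u j) (q' j)) (σ2 * r j) ≤ (1 + δ j) * cPhi d →
        bl M (u j) (r j) (fun q => rm ((ry M (u j) (p j) (r j) (q' j), (τ ^ 2)⁻¹),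
          ry M (u j) (p j) (r j) q, M.nuv (u j) q)) ≤ δ j * (cPhi d * σ2 ^ (d + 3) / (σ2 - σ1)) :=
      fun j => by
        by_cases a : 0 < r j ∧ Real.exp (C * (σ2 * r j)) *
          M.gTh (u j) (M.gx (u j) (q' j)) (σ2 * r j) ≤ (1 + δ j) * cPhi d
        · obtain ⟨τ, b1, b2⟩ := exists_rm_le hMon2 hM (hu j) (hS j) (p j) (q' j) a.1 h1 h2 a.2
          exact ⟨τ, b1, fun _ _ => b2⟩
        · exact ⟨σ1, left_mem_Icc.2 h2.le, fun b1 b2 => (a ⟨b1, b2⟩).elim⟩
    choose τ hτ h3 using h3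
    obtain ⟨τ0, hτ0, h4⟩ := (isCompact_Icc (a := σ1) (b := σ2)).ultrafilter_le_nhds (𝒰.map τ)
      (le_principal_iff.2 (mem_map.2 (univ_mem' hτ)))
    have h4 : Tendsto τ 𝒰 (𝓝 τ0) := h4
    have h5 : 0 < τ0 := h1.trans_le hτ0.1
    have h6 := O.move hu hA hr continuous_rm (hq'.prodMk_nhds ((h4.pow 2).inv₀ (pow_pos h5 2).ne'))
      (‖L y‖ + 1 + σ2) (hz.mono fun j hj => rm_far (h1.trans_le (hτ j).1) (hτ j).2 hj)
      (rm_far h5 hτ0.2 (le_add_of_nonneg_right one_pos.le))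
    have h7 : ∀ q : Y d × Y d, rm ((L y, (τ0 ^ 2)⁻¹), L q.1, L q.2) = rm ((y, (τ0 ^ 2)⁻¹), q) :=
      fun q => by simp only [rm, ← L.map_sub, L.norm_map, L.inner_map_map]
    simp only [h7] at h6
    have h8 := le_of_tendsto_of_tendsto h6 (hδ.mul_const _) (by
      filter_upwards [ev_pos hr, hz, h (‖L y‖ + 1 + σ2) (by linarith [norm_nonneg (L y)])]
        with j a1 a2 a3
      exact h3 j a1 (a3 _ (by linarith) σ2 (h1.trans h2) (by linarith [norm_nonneg (L y)])))
    rw [zero_mul] at h8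
    exact ⟨τ0, hτ0, (integral_eq_zero_iff_of_nonneg (fun q => rm_nonneg _)
      (O.lim.integrable (continuous_rm.comp (Continuous.prodMk_right _)) _
        (rm_far h5 hτ0.2 le_rfl))).1 (h8.antisymm (integral_nonneg fun q => rm_nonneg _))⟩
  have key2 : ∀ σ : ℚ × ℚ, ∀ᵐ q ∂V, (0 : ℝ) < σ.1 → (σ.1 : ℝ) < σ.2 →
      ∃ τ ∈ Icc (σ.1 : ℝ) σ.2, rm ((y, (τ ^ 2)⁻¹), q) = 0 := fun σ => by
    by_cases a : (0 : ℝ) < σ.1 ∧ (σ.1 : ℝ) < σ.2
    · obtain ⟨τ, b1, b2⟩ := key _ _ a.1 a.2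
      exact b2.mono fun q hq _ _ => ⟨τ, b1, hq⟩
    · exact .of_forall fun q b1 b2 => (a ⟨b1, b2⟩).elim
  filter_upwards [ae_all_iff.2 key2] with q hq
  rcases eq_or_ne (q.1 - y) 0 with h0 | h0
  · rw [h0, inner_zero_left]
  obtain ⟨σ1, σ2, a1, a2, a3⟩ := exists_rat_scale (norm_pos_iff.2 h0)
  obtain ⟨τ, b1, b2⟩ := hq (σ1, σ2) a1 a2
  simpa [rm, a3 τ b1] using b2

end EP
open EP

theorem w (hMon : MonStmt) (hMon2 : Mon2Stmt) (hS : SheetStmt) (hSim : SimStmt) (hCal : CalStmt)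
    (hB : BlowStmt) (h3 : LV3Stmt) : WStmt := by
  intro d ι _ _ X _ _ _ _ _ _ M F hM hF Λ
  by_contra hc
  push Not at hc
  choose u hu y r h0 hr hf q0 hq0 hK using fun j : ℕ =>
    hc (1 / ((j : ℝ) + 1)) (16 * ((j : ℝ) + 1) ^ 2) (by positivity)
  have hu' := fun j => (hu j).sm
  choose p ρ hρ h1 hρr hb using fun j : ℕ => pick (hu' j) (by positivity) (hq0 j) (hK j)
  have hj : ∀ j : ℕ, ρ j ≤ (j + 1) * ρ j := fun j =>
    le_mul_of_one_le_left (hρ j).le (by linarith [j.cast_nonneg (α := ℝ)])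
  have hρ' := tendsto_hyper hρ fun j => ((hj j).trans (hρr j)).trans (hr j)
  obtain ⟨p0, L, V, O⟩ := exists_out hB hM hF (hyperfilter ℕ) p hu hρ'
  obtain ⟨C, hC, hS⟩ := hS d ι X M F hM hF Λ
  obtain ⟨C', -, hA⟩ := hCal d ι X M F hM hF Λ
  obtain ⟨κ, C'', hκ, hC'', hY⟩ := hSim d ι X M F hM hF Λ
  have hS' := fun j => hS _ (hu j)
  have hA' : ∀ j, Area M C' (u j) := fun j => (hA _ (hu j)).2.1
  have hle : (hyperfilter ℕ : Filter ℕ) ≤ atTop := Nat.cofinite_eq_atTop ▸ hyperfilter_le_cofinite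
  have hδ : Tendsto (fun j : ℕ => Real.exp (C * (1 / ((j : ℝ) + 1))) * (1 + 1 / ((j : ℝ) + 1)) - 1)
      (hyperfilter ℕ) (𝓝 0) := by
    have a := (tendsto_one_div_add_atTop_nhds_zero_nat (𝕜 := ℝ)).mono_left hle
    simpa using ((a.const_mul C).rexp.mul (a.const_add 1)).sub_const 1
  have hd : ∀ (j : ℕ) q, ‖M.gx (u j) q - M.gx (u j) (p j)‖ ≤ (j + 1) * ρ j → ∀ t, 0 < t →
      t ≤ (j + 1) * ρ j → Real.exp (C * t) * M.gTh (u j) (M.gx (u j) q) t ≤
        (1 + (Real.exp (C * (1 / ((j : ℝ) + 1))) * (1 + 1 / ((j : ℝ) + 1)) - 1)) * cPhi d :=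
    fun j q hq t ht ht' => by
      rw [add_sub_cancel, mul_assoc]
      exact (gTh_mono hMon2 (hu' j) (hS' j) _ ht (ht'.trans (hρr j))).trans (mul_le_mul
        (Real.exp_le_exp.2 (mul_le_mul_of_nonneg_left (hr j) hC)) (hf j q (hb j q hq).2)
        (gTh_nonneg (h0 j) _) (Real.exp_pos _).le)
  obtain ⟨e, he, hV⟩ := h3 d V O.lim (O.cone hMon2 hM hu' hS' hA' hρ' hδ fun R hR => by
    filter_upwards [((tendsto_natCast_atTop_atTop (R := ℝ)).mono_left hle).eventually_ge_atTop R]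
      with j a q hq σ b1 b2
    exact hd j q ((norm_ry_le (hρ j)).1 (hq.trans (by linarith))) _ (mul_pos b1 (hρ j))
      (mul_le_mul_of_nonneg_right (by linarith) (hρ j).le))
  obtain ⟨K, hE⟩ := energy_le M C
  obtain ⟨K', hV'⟩ := mv_a2 hMon hMon2 hM C C''
  have hz : Tendsto ρ (hyperfilter ℕ) (𝓝 0) := hρ'.mono_right nhdsWithin_le_nhds
  have h4 := O.move hu' hA' hρ'
    (G := fun s => (√(1 - ⟪s.2.2, L e⟫ ^ 2) + s.1) * Phi (‖s.2.1‖ ^ 2)) (by fun_prop) hz 1
    (.of_forall fun j s hs => by simp only [Phi_of_ge (one_le_pow₀ hs.le), mul_zero])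
    fun s hs => by simp only [Phi_of_ge (one_le_pow₀ hs.le), mul_zero]
  rw [integral_congr_ae (g := fun _ => 0) (by
    filter_upwards [hV] with q hq
    rcases hq with hq | hq <;> simp [hq, L.inner_map_map, real_inner_self_eq_norm_sq, he]),
    integral_zero] at h4
  have h5 := le_of_tendsto_of_tendsto ((hz.const_mul K').const_sub (cPhi d / 2))
    (h4.const_mul (10 ^ d * K)) (by
      filter_upwards [ev_mul_le hρ' 1 one_pos, hδ.eventually_le_const one_pos] with j a1 a2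
      rw [one_mul] at a1
      have a3 := fun q (hq : ‖M.gx (u j) q - M.gx (u j) (p j)‖ < ρ j) =>
        (hb j q (hq.le.trans (hj j))).1
      obtain ⟨Z, hZ⟩ := hY _ (hu j)
      have a4 := hV' _ κ Z (p j) _ (hu' j) (hS' j) hZ (by linarith) hC'' (hρ j) a1 a3
        fun t ht ht' => (le_mul_of_one_le_left (gTh_nonneg ht _) (Real.one_le_exp (by positivity))).trans
          ((hd j (p j) (by simpa using (hρ j).le.trans (hj j)) t ht (ht'.trans (hj j))).trans
            (mul_le_mul_of_nonneg_right (by linarith) (cPhi_pos d).le))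
      have a5 := div_le_div_of_nonneg_right (hE _ (p j) _ (L e) (hu' j) (hS' j) (hρ j) a1
        (by rw [L.norm_map, he]) a3) (pow_pos (by linarith [hρ j] : 0 < ρ j / 10) d).le
      rw [h1, bl, ← mul_div_assoc] at a4
      refine le_trans (by linarith) (a5.trans_eq ?_)
      simp only [bl, ph, norm_ry (hρ j), div_pow]
      field_simp)
  linarith [cPhi_pos d]

end Crest.Agent.N222

end
end

-- ▼ part N222/B/W2
section

/-!
# Row 222, part B, ε-regularity block: W2 (the normal is almost constant)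
-/

set_option autoImplicit false
set_option linter.unusedSectionVars false
open MeasureTheory Set Filter Topology Function Metric
open scoped ContDiff InnerProductSpace RealInnerProductSpace

noncomputable section

namespace Crest.Agent.N222
open EP

variable {d : ℕ} {ι : Type} [Fintype ι] [DecidableEq ι] {X : Type} [TopologicalSpace X]
  [T2Space X] [SecondCountableTopology X] [MeasurableSpace X] [BorelSpace X] [CompactSpace X]
  {M : Imm d ι X}

namespace W2
variable {u : X → ℝ} {C : ℝ}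

theorem step1 (hMon : MonStmt) (hMon2 : Mon2Stmt) (hM : Injective M.x) (hu : M.Sm u)
    (hS : M.Sheet C u) (p : X) {ρ A Θ : ℝ} (hρ : 0 < ρ)
    (hA : ∀ q, ‖M.gx u q - M.gx u p‖ < ρ → √(M.a2 u q) ≤ A)
    (hΘ : ∀ t, 0 < t → t ≤ ρ → M.gTh u (M.gx u p) t ≤ Θ) :
    bl M u ρ (fun q => ‖M.nuv u q - M.nuv u p‖ ^ 2 * ph M u (M.gx u p) ρ q) ≤
      4 * Θ - 4 * cPhi d +
        2 * ((Fintype.card (Option ι) * (Fintype.card (Option ι) * (A + C)) + 2 * C) * Θ * ρ) := by
  have hC : 0 ≤ C := (norm_nonneg _).trans (hS.H p)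
  have hA0 : 0 ≤ A := (Real.sqrt_nonneg _).trans (hA p (by simpa using hρ))
  have hn := Imm.norm_nuv hu
  have hi := sm_inner_nuv hu (M.nuv u p)
  have hv : M.Sm fun q => 1 + ⟪M.nuv u q, M.nuv u p⟫ := (Imm.sm_const 1).add hi
  have hb : ∀ q, |⟪M.nuv u q, M.nuv u p⟫| ≤ 1 := fun q => by
    simpa only [hn, mul_one] using abs_real_inner_le_norm (M.nuv u q) (M.nuv u p)
  have h1 := g_mean_value hMon hMon2 hM hu hS hv (fun q => by linarith [abs_le.1 (hb q)]) p
    (B := 2) (K := Fintype.card (Option ι) * (Fintype.card (Option ι) * (A + C))) hρ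
    (by positivity) (fun q _ => by linarith [abs_le.1 (hb q)]) hΘ fun t ht htρ =>
      (le_abs_self _).trans (abs_int_D_ps_le hu ht fun q hq a => by
        have e : (M.gS u).D a (fun q => 1 + ⟪M.nuv u q, M.nuv u p⟫) q =
            (M.gS u).D a (fun q => ⟪M.nuv u q, M.nuv u p⟫) q := by
          rw [← Imm.graph_pre hu, Imm.D_add (g_diffAt hu (Imm.sm_const 1) q) (g_diffAt hu hi q),
            Imm.D_const, zero_add]
        rw [e, D_inner_nuv hu]
        refine (Finset.abs_sum_le_sum_abs _ _).trans ((Finset.sum_le_card_nsmul _ _ (A + C)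
          fun c _ => ?_).trans_eq (by rw [nsmul_eq_mul, Finset.card_univ]))
        rw [abs_mul]
        refine (mul_le_of_le_one_left (abs_nonneg _)
          ((PiLp.norm_apply_le (M.nuv u p) c).trans_eq (hn p))).trans
          ((abs_D_nu_le hS a c q).trans ?_)
        linarith [hA q (hq.trans_le htρ)])
  have hp := (sm_ph hu (M.gx u p) ρ).continuous
  have e : (fun q => ‖M.nuv u q - M.nuv u p‖ ^ 2 * ph M u (M.gx u p) ρ q) = fun q =>
      4 * ph M u (M.gx u p) ρ q - 2 * ((1 + ⟪M.nuv u q, M.nuv u p⟫) * ph M u (M.gx u p) ρ q) := by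
    funext q
    rw [norm_sub_sq_real, hn, hn]
    ring
  rw [real_inner_self_eq_norm_sq, hn] at h1
  rw [e, bl_sub hu (continuous_const.fun_mul hp)
    (continuous_const.fun_mul (hv.continuous.fun_mul hp)), bl_const_mul, bl_const_mul]
  have h2 : bl M u ρ (ph M u (M.gx u p) ρ) ≤ Θ := hΘ ρ hρ le_rfl
  linarith

theorem step2 (hMon2 : Mon2Stmt) (hM : Injective M.x) (hu : M.Sm u) (hS : M.Sheet C u) {p p' : X}
    {ρ e : ℝ} (hρ : 0 < ρ) (h : ‖M.gx u p - M.gx u p'‖ ≤ ρ / 4)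
    (h1 : bl M u ρ (fun q => ‖M.nuv u q - M.nuv u p‖ ^ 2 * ph M u (M.gx u p) ρ q) ≤ e)
    (h2 : bl M u ρ (fun q => ‖M.nuv u q - M.nuv u p'‖ ^ 2 * ph M u (M.gx u p') ρ q) ≤ e) :
    ‖M.nuv u p - M.nuv u p'‖ ^ 2 * cPhi d ≤ Real.exp (C * (ρ / 4)) * (4 ^ d * (4 * e)) := by
  have h4 : 0 < ρ / 4 := by positivity
  have hc := hu.nuv.continuous
  have hp := fun y t => (sm_ph hu y t).continuous
  have c1 : ∀ p, Continuous fun q => ‖M.nuv u q - M.nuv u p‖ ^ 2 * ph M u (M.gx u p) ρ q :=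
    fun p => ((hc.sub continuous_const).norm.pow 2).mul (hp _ _)
  have h3 := bl_mono (r := ρ) hu hρ (continuous_const.mul (hp (M.gx u p) (ρ / 4)))
    ((continuous_const.mul (c1 p)).add (continuous_const.mul (c1 p')))
    (f := fun q => ‖M.nuv u p - M.nuv u p'‖ ^ 2 * ph M u (M.gx u p) (ρ / 4) q)
    (g := fun q => 2 * (‖M.nuv u q - M.nuv u p‖ ^ 2 * ph M u (M.gx u p) ρ q) +
      2 * (‖M.nuv u q - M.nuv u p'‖ ^ 2 * ph M u (M.gx u p') ρ q)) fun q => by
      by_cases h0 : ph M u (M.gx u p) (ρ / 4) q = 0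
      · rw [h0, mul_zero]
        exact add_nonneg (mul_nonneg zero_le_two (mul_nonneg (sq_nonneg _) (Phi_nonneg _)))
          (mul_nonneg zero_le_two (mul_nonneg (sq_nonneg _) (Phi_nonneg _)))
      have a1 := lt_of_ph_ne h4 h0
      have a2 := norm_sub_le_norm_sub_add_norm_sub (M.gx u q) (M.gx u p) (M.gx u p')
      have a3 := norm_sub_le_norm_sub_add_norm_sub (M.nuv u p) (M.nuv u q) (M.nuv u p')
      rw [norm_sub_rev (M.nuv u p) (M.nuv u q)] at a3
      rw [show ph M u (M.gx u p) ρ q = 1 from Phi_ball_one hρ (by linarith),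
        show ph M u (M.gx u p') ρ q = 1 from Phi_ball_one hρ (by linarith)]
      refine (mul_le_of_le_one_right (sq_nonneg _) (Phi_le_one _)).trans ?_
      nlinarith [pow_le_pow_left₀ (norm_nonneg _) a3 2,
        sq_nonneg (‖M.nuv u q - M.nuv u p‖ - ‖M.nuv u q - M.nuv u p'‖)]
  rw [bl_add hu (continuous_const.fun_mul (c1 p)) (continuous_const.fun_mul (c1 p')),
    bl_const_mul, bl_const_mul, bl_const_mul, bl, integral_ph h4, div_pow, mul_div_assoc, div_right_comm,
    div_self (pow_pos hρ d).ne', mul_one_div, ← mul_div_assoc, div_le_iff₀ (by positivity)] at h3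
  refine (mul_le_mul_of_nonneg_left (gTh_low hMon2 hM hu hS p h4) (sq_nonneg _)).trans ?_
  rw [mul_left_comm]
  refine mul_le_mul_of_nonneg_left (h3.trans ?_) (Real.exp_pos _).le
  rw [mul_comm]
  gcongr
  linarith

end W2

theorem w2 (hMon : MonStmt) (hMon2 : Mon2Stmt) (hS : SheetStmt) (hW : WStmt) : W2Stmt := by
  intro d ι _ _ X _ _ _ _ _ _ M F hM hF Λ η hη
  obtain ⟨C, hC, hS⟩ := hS d ι X M F hM hF Λ
  obtain ⟨ε0, C0, hε0, hW⟩ := hW d ι X M F hM hF Λ
  have hc := cPhi_pos d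
  set N : ℝ := (Fintype.card (Option ι) : ℝ) with hN
  have hN0 : 0 ≤ N := Nat.cast_nonneg _
  let Θ : ℝ → ℝ := fun s => Real.exp (C * s) * ((1 + s) * cPhi d)
  let e : ℝ → ℝ := fun s =>
    4 * Θ s - 4 * cPhi d + 2 * ((N * (N * (√C0 + C)) + 2 * C) * s * Θ s)
  have h0 : Continuous fun s => Real.exp (C * s) * (4 ^ d * (4 * e s)) := by
    simp only [e, Θ]; fun_prop
  have h1 := ((h0.tendsto' 0 0 (by simp [e, Θ])).eventually
    (ge_mem_nhds (show 0 < η ^ 2 * cPhi d by positivity))).filter_mono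
    (nhdsWithin_le_nhds (s := Ioi 0))
  obtain ⟨s, hs, hs0, hs1⟩ := (h1.and (Ioc_mem_nhdsGT
    (lt_min hε0 (show (0 : ℝ) < 1 / 4 by norm_num)))).exists
  obtain ⟨hs1, hs2⟩ := le_min_iff.1 hs1
  refine ⟨s, s / 8, C0, hs0, by positivity, fun u hu y r hr hrs hfl => ?_⟩
  have hsr : s * r ≤ r / 4 := by nlinarith
  have hsr0 : 0 < s * r := by positivity
  have hW := hW u hu y r hr (hrs.trans hs1) fun q hq => (hfl q hq).trans (by gcongr)
  have key : ∀ p, ‖M.gx u p - y‖ < s / 8 * r → bl M u (s * r) (fun q =>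
      ‖M.nuv u q - M.nuv u p‖ ^ 2 * ph M u (M.gx u p) (s * r) q) ≤ e s := fun p hp => by
    have hΘ : ∀ t, 0 < t → t ≤ s * r → M.gTh u (M.gx u p) t ≤ Θ s := fun t ht htr =>
      (le_mul_of_one_le_left (gTh_nonneg ht _) (Real.one_le_exp (by positivity))).trans
        ((gTh_mono hMon2 hu.sm (hS u hu) _ ht (show t ≤ r by linarith)).trans
          (mul_le_mul (by gcongr) (hfl p (by linarith)) (gTh_nonneg hr _) (Real.exp_pos _).le))
    refine (W2.step1 hMon hMon2 hM hu.sm (hS u hu) p (A := √C0 / r) hsr0 (fun q hq => ?_)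
      hΘ).trans ?_
    · have := Real.sqrt_le_sqrt (hW q (by
        linarith [norm_sub_le_norm_sub_add_norm_sub (M.gx u q) (M.gx u p) y]))
      rwa [Real.sqrt_mul (sq_nonneg r), Real.sqrt_sq hr.le, ← le_div_iff₀' hr] at this
    · have a0 : 0 ≤ Θ s := by positivity
      have a1 : (N * (N * (√C0 / r + C)) + 2 * C) * (s * r) ≤
          (N * (N * (√C0 + C)) + 2 * C) * s := by
        have : (N * (N * (√C0 / r + C)) + 2 * C) * (s * r) =
            (N * (N * (√C0 + C * r)) + 2 * (C * r)) * s := by field_simp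
        have a2 : C * r ≤ C := mul_le_of_le_one_right hC (by linarith)
        rw [this]
        gcongr
      have a2 := mul_le_mul_of_nonneg_right a1 a0
      simp only [e]
      linarith
  intro q q' hq hq'
  refine ⟨hW q (by linarith), le_of_sq_le_sq (le_of_mul_le_mul_right ?_ hc) hη.le⟩
  have h2 := W2.step2 hMon2 hM hu.sm (hS u hu) hsr0 (by
    linarith [norm_sub_le_norm_sub_add_norm_sub (M.gx u q) y (M.gx u q'),
      norm_sub_rev y (M.gx u q')]) (key q hq) (key q' hq')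
  have h3 : 0 ≤ e s := (bl_nonneg hsr0 fun x => mul_nonneg (sq_nonneg _) (Phi_nonneg _)).trans
    (key q hq)
  refine h2.trans (le_trans ?_ hs)
  gcongr
  linarith

end Crest.Agent.N222

end
end

-- ▼ part N222/B/QReg

/-!
# Row 222, part B (helper85): `QRegStmt` from the toolbox J
-/

set_option autoImplicit false
open Set Filter Topology Function Metric
open scoped ContDiff
open Crest.GeometryTopology.CoordMetric

noncomputable section

namespace Crest.Agent.N222

theorem toLp_d1 {n : ℕ} (w : E (Fin n) → ℝ) (z : E (Fin n)) :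
    WithLp.toLp 2 (J.d1 w z) = gradient w z := by
  ext i
  exact (NLib.Ell.gradient_apply w z i).symm

theorem lb_pair {n : ℕ} {ι Z : Type} [NormedAddCommGroup Z] [NormedSpace ℝ Z]
    {S : ι → Set (E (Fin n))} {l : ι → Z} {C : ℝ} (h : ∀ i, ∀ x ∈ S i, ‖(x, l i)‖ ≤ C) :
    J.LB S fun i x => (x, l i) := by
  refine ⟨fun i => (contDiff_id.prodMk contDiff_const).contDiffOn, fun k => ?_⟩
  have e : ∀ i, fderiv ℝ (fun x : E (Fin n) => (x, l i))
      = fun _ => ContinuousLinearMap.inl ℝ (E (Fin n)) Z := fun i =>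
    funext fun x => (hasFDerivAt_prodMk_left x (l i)).fderiv
  rcases k with _ | k
  · exact ⟨C, fun i x hx => norm_iteratedFDeriv_zero.trans_le (h i x hx)⟩
  rcases k with _ | k
  · exact ⟨‖ContinuousLinearMap.inl ℝ (E (Fin n)) Z‖, fun i x _ => by
      rw [← norm_iteratedFDeriv_fderiv, e, norm_iteratedFDeriv_zero]⟩
  · exact ⟨0, fun i x _ => by
      rw [← norm_iteratedFDeriv_fderiv, e, iteratedFDeriv_succ_const]; simp⟩

theorem qReg : QRegStmt := by
  intro n k Z _ _ _ a c W K r B hW hK hKW ha hc hp hr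
  let T : (E (Fin n) × Z) × ℝ × (Fin n → ℝ) → E (Fin n) × ℝ × E (Fin n) × Z :=
    fun q => (q.1.1, q.2.1, WithLp.toLp 2 q.2.2, q.1.2)
  let S : E (Fin n) × ℝ × E (Fin n) × Z → (E (Fin n) × Z) × ℝ × (Fin n → ℝ) :=
    fun s => ((s.1, s.2.2.2), s.2.1, s.2.2.1.ofLp)
  have hT : ContDiff ℝ ∞ T := by
    have : ContDiff ℝ ∞ (fun p : Fin n → ℝ => (WithLp.toLp 2 p : E (Fin n))) :=
      (EuclideanSpace.equiv (Fin n) ℝ).symm.contDiff
    exact contDiff_fst.fst.prodMk (contDiff_snd.fst.prodMk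
      ((this.comp contDiff_snd.snd).prodMk contDiff_fst.snd))
  have hS : Continuous S := by fun_prop
  let κ := {q : E (Fin n) × (E (Fin n) → ℝ) × Z // ContDiffOn ℝ ∞ q.2.1 (ball q.1 r) ∧
    ∀ z ∈ ball q.1 r, (z, q.2.1 z, gradient q.2.1 z, q.2.2) ∈ K ∧
      ‖fderiv ℝ (fderiv ℝ q.2.1) z‖ ≤ B ∧ ∑ i, ∑ j, a (z, q.2.1 z, gradient q.2.1 z, q.2.2) i j *
        fderiv ℝ (fderiv ℝ q.2.1) z (ee i) (ee j) = c (z, q.2.1 z, gradient q.2.1 z, q.2.2)}
  obtain ⟨C, hC⟩ := (hK.image hS).exists_bound_of_continuousOn continuousOn_id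
  have hin : ∀ q : κ, ∀ x ∈ ball q.1.1 r, ((x, q.1.2.2), q.1.2.1 x, J.d1 q.1.2.1 x) ∈ S '' K :=
    fun q x hx => ⟨_, (q.2.2 x hx).1, by simp only [S, ← toLp_d1]⟩
  have h2 : ∀ q : κ, ∀ x ∈ ball q.1.1 r, ContDiffAt ℝ 2 q.1.2.1 x := fun q x hx =>
    (q.2.1.contDiffAt (isOpen_ball.mem_nhds hx)).of_le
      (WithTop.coe_le_coe.2 (le_top : (2 : ℕ∞) ≤ ⊤))
  have hH : ∀ q : κ, ∀ x ∈ ball q.1.1 r, ∀ y ∈ ball q.1.1 r, ∀ j,
      |pderiv j q.1.2.1 x - pderiv j q.1.2.1 y| ≤ B * ‖x - y‖ ^ (1 : ℝ) := fun q x hx y hy j => by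
    have h3 : ‖fderiv ℝ q.1.2.1 x - fderiv ℝ q.1.2.1 y‖ ≤ B * ‖x - y‖ :=
      (convex_ball _ _).norm_image_sub_le_of_norm_fderiv_le
        (fun w hw => ((h2 q w hw).fderiv_right (m := 1) (by norm_num)).differentiableAt one_ne_zero)
        (fun w hw => (q.2.2 w hw).2.1) hy hx
    rw [Real.rpow_one]
    refine le_trans ?_ h3
    simpa [pderiv] using
      (fderiv ℝ q.1.2.1 x - fderiv ℝ q.1.2.1 y).le_opNorm (EuclideanSpace.single j (1 : ℝ))
  have hE : ∀ q : κ, ∀ x ∈ ball q.1.1 r,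
      ∑ j, ∑ l, a (T ((x, q.1.2.2), q.1.2.1 x, J.d1 q.1.2.1 x)) j l * J.d2 q.1.2.1 x j l
        = c (T ((x, q.1.2.2), q.1.2.1 x, J.d1 q.1.2.1 x)) := fun q x hx => by
    have h3 := (q.2.2 x hx).2.2
    simp only [T, toLp_d1, J.d2, N346.An.pd2_eq_D2_at (h2 q x hx)]
    exact h3
  obtain ⟨D, hD⟩ := (J.qreg n κ (E (Fin n) × Z) (fun q => a (T q)) (fun q => c (T q)) (T ⁻¹' W)
    (S '' K) 1 B r (fun q => q.1.1) (fun q x => (x, q.1.2.2)) (fun q => q.1.2.1)
    (hW.preimage hT.continuous) (hK.image hS) (by rintro _ ⟨s, hs, rfl⟩; exact hKW hs)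
    (fun j l => (ha j l).comp hT.contDiffOn fun _ h => h) (hc.comp hT.contDiffOn fun _ h => h)
    (by rintro _ ⟨s, hs, rfl⟩; exact hp s hs) one_pos le_rfl hr
    (lb_pair fun q x hx => (norm_fst_le _).trans (hC _ (hin q x hx))) (fun q => q.2.1) hin
    hH hE).2 k
  exact ⟨D, fun z0 w l hw h z hz => hD ⟨(z0, w, l), hw, h⟩ z hz⟩

end Crest.Agent.N222
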