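import Crest.Agent.N222.B.Sheet
import Crest.Agent.N222.F.Graph
import Crest.Agent.N222.F.Lip
import Crest.Agent.N222.F.Ker
import Crest.Agent.N222.B.Pic

-- ▼ part N222/B/Sim
section

/-!
# Row 222, part B: the Simons inequality with the refined Kato inequality (helper17)
-/

set_option autoImplicit false
set_option linter.unusedSectionVars false
open MeasureTheory Set Filter Topology Function Metric

noncomputable section

namespace Crest.Agent.N222

namespace Sh

/-! ### finite dimensional inequalities -/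

section Real

variable {κ : Type} [Fintype κ]

theorem swap_sq (f : κ → κ → κ → ℝ) : ∑ e, ∑ b, ∑ c, f e b c * f b e c =
    ∑ e, ∑ b, ∑ c, f e b c * f e b c
      - (1 / 2) * ∑ e, ∑ b, ∑ c, (f e b c - f b e c) * (f e b c - f b e c) := by
  have e1 : ∑ e, ∑ b, ∑ c, f b e c * f b e c = ∑ e, ∑ b, ∑ c, f e b c * f e b c :=
    Finset.sum_comm
  have e2 : ∀ e b c, (f e b c - f b e c) * (f e b c - f b e c) =
      f e b c * f e b c + f b e c * f b e c - 2 * (f e b c * f b e c) := fun e b c => by ring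
  simp only [e2, Finset.sum_sub_distrib, Finset.sum_add_distrib, ← Finset.mul_sum, e1]
  ring

theorem cs3 (f g : κ → κ → κ → ℝ) : (∑ a, ∑ b, ∑ c, f a b c * g a b c) ^ 2 ≤
    (∑ a, ∑ b, ∑ c, f a b c * f a b c) * ∑ a, ∑ b, ∑ c, g a b c * g a b c := by
  have := Finset.sum_mul_sq_le_sq_mul_sq Finset.univ (fun k : κ × κ × κ => f k.1 k.2.1 k.2.2)
    fun k => g k.1 k.2.1 k.2.2
  simpa only [Fintype.sum_prod_type, sq] using this

/-- a symmetric matrix with small trace is not of rank one -/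
theorem rank_gap {A : κ → κ → ℝ} (hA : ∀ a b, A a b = A b a) {η : κ → ℝ}
    (hη : ∑ a, η a * η a = 1) :
    (2 * Fintype.card κ + 1) * ∑ c, (∑ b, η b * A b c) * (∑ b, η b * A b c) ≤
      2 * Fintype.card κ * ∑ a, ∑ b, A a b * A a b + 2 * (∑ a, A a a) ^ 2 := by
  set w : κ → ℝ := fun c => ∑ b, η b * A b c with hw
  set l : ℝ := ∑ c, η c * w c with hl
  set q : ℝ := ∑ c, w c * w c with hq
  set n : ℝ := (Fintype.card κ : ℝ) with hn
  set Bm : κ → κ → ℝ := fun a b => A a b - η a * w b - w a * η b + l * (η a * η b) with hB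
  have n1 : 1 ≤ n := by
    rw [hn, Nat.one_le_cast]
    refine Fintype.card_pos_iff.2 ?_
    by_contra h0
    rw [not_nonempty_iff] at h0
    simp at hη
  have w1 : ∀ b, ∑ a, A a b * η a = w b := fun b =>
    Finset.sum_congr rfl fun a _ => mul_comm _ _
  have w2 : ∀ a, ∑ b, A a b * η b = w a := fun a =>
    Finset.sum_congr rfl fun b _ => by rw [hA a b, mul_comm]
  have l2 : ∑ c, w c * η c = l := Finset.sum_congr rfl fun b _ => mul_comm _ _
  have r1 : ∀ a, ∑ b, Bm a b * η b = 0 := fun a => by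
    have : ∀ b, Bm a b * η b = A a b * η b - η a * (w b * η b) - w a * (η b * η b)
        + l * η a * (η b * η b) := fun b => by simp only [hB]; ring
    simp only [this, Finset.sum_add_distrib, Finset.sum_sub_distrib, ← Finset.mul_sum, w2, l2, hη]
    ring
  have r2 : ∀ b, ∑ a, Bm a b * η a = 0 := fun b => by
    rw [← r1 b]
    exact Finset.sum_congr rfl fun a _ => by simp only [hB, hA a b]; ring
  have e1 : ∑ a, ∑ b, Bm a b * Bm a b = ∑ a, ∑ b, A a b * Bm a b := by
    have : ∀ a b, Bm a b * Bm a b = A a b * Bm a b - w b * (Bm a b * η a)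
        + (l * η a - w a) * (Bm a b * η b) := fun a b => by
      conv_lhs => rw [show Bm a b * Bm a b =
        (A a b - η a * w b - w a * η b + l * (η a * η b)) * Bm a b from rfl]
      ring
    simp only [this, Finset.sum_add_distrib, Finset.sum_sub_distrib, ← Finset.mul_sum, r1]
    rw [Finset.sum_comm (f := fun a b => w b * (Bm a b * η a))]
    simp only [← Finset.mul_sum, r2]
    simp
  have e2 : ∑ a, ∑ b, A a b * Bm a b = ∑ a, ∑ b, A a b * A a b - 2 * q + l ^ 2 := by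
    have : ∀ a b, A a b * Bm a b = A a b * A a b - w b * (A a b * η a) - w a * (A a b * η b)
        + l * (η a * (A a b * η b)) := fun a b => by simp only [hB]; ring
    simp only [this, Finset.sum_add_distrib, Finset.sum_sub_distrib, ← Finset.mul_sum, w2]
    rw [Finset.sum_comm (f := fun a b => w b * (A a b * η a))]
    simp only [← Finset.mul_sum, w1]
    rw [← hq, ← hl]
    ring
  have e3 : ∑ a, Bm a a = ∑ a, A a a - l := by
    simp only [hB, Finset.sum_add_distrib, Finset.sum_sub_distrib, ← Finset.mul_sum, l2, hη]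
    rw [← hl]
    ring
  have e4 : (∑ a, Bm a a) ^ 2 ≤ n * ∑ a, ∑ b, Bm a b * Bm a b := by
    have h1 := sq_sum_le_card_mul_sum_sq (s := Finset.univ) (f := fun a => Bm a a)
    rw [Finset.card_univ] at h1
    refine h1.trans (mul_le_mul_of_nonneg_left (Finset.sum_le_sum fun a _ => ?_) (by linarith))
    rw [sq]
    exact Finset.single_le_sum (f := fun b => Bm a b * Bm a b) (fun _ _ => mul_self_nonneg _)
      (Finset.mem_univ a)
  have e5 : l ^ 2 ≤ q := by
    have := Finset.sum_mul_sq_le_sq_mul_sq Finset.univ η w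
    simp only [sq (η _), sq (w _), hη, one_mul] at this
    exact this
  rw [e1, e2, e3] at e4
  nlinarith [sq_nonneg (2 * ∑ a, A a a - l), mul_le_mul_of_nonneg_left e5 (show 0 ≤ 2 * n - 1 by
    linarith)]

theorem kato_aux {n θ k a2 t2 r2 h q x y s : ℝ} (n0 : 0 ≤ n) (hθ : θ = (4 * n + 1) / (4 * n + 2))
    (k1 : 1 < k) (kθ : k ^ 2 * θ ≤ 1) (a0 : 0 ≤ a2) (t0 : 0 ≤ t2) (r0 : 0 ≤ r2)
    (g1 : (2 * n + 1) * q ≤ 2 * n * a2 + 2 * h ^ 2) (c1 : x ^ 2 ≤ t2 * (2 * a2 + 2 * q))
    (c2 : y ^ 2 ≤ r2 * a2) (e1 : x + y = 2 * s) :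
    k * (s * s) ≤ (a2 + (k ^ 2 + k ^ 2 / (k - 1)) * h ^ 2) * t2
      + (k ^ 2 + k ^ 2 / (k - 1)) * r2 * a2 := by
  have kp := sub_pos.2 k1
  have g2 : 2 * a2 + 2 * q ≤ 4 * (θ * a2 + h ^ 2) := by
    have h1 : θ * a2 = (4 * n + 1) * a2 / (4 * n + 2) := by rw [hθ]; ring
    have h2 : (2 * a2 + 2 * q) / 4 - h ^ 2 ≤ θ * a2 := by
      rw [h1, le_div_iff₀ (by positivity)]
      nlinarith [mul_nonneg n0 (sq_nonneg h)]
    linarith
  have g3 : (x + y) ^ 2 ≤ k * x ^ 2 + k / (k - 1) * y ^ 2 := by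
    have h1 : k * x ^ 2 + k / (k - 1) * y ^ 2 - (x + y) ^ 2 = ((k - 1) * x - y) ^ 2 / (k - 1) := by
      field_simp; ring
    have h2 : 0 ≤ ((k - 1) * x - y) ^ 2 / (k - 1) := by positivity
    linarith
  have g4 : x ^ 2 ≤ t2 * (4 * (θ * a2 + h ^ 2)) := c1.trans (mul_le_mul_of_nonneg_left g2 t0)
  have g5 : 4 * (s * s) ≤ k * (t2 * (4 * (θ * a2 + h ^ 2))) + k / (k - 1) * (r2 * a2) := by
    have h1 := mul_le_mul_of_nonneg_left g4 (show 0 ≤ k by linarith)
    have h2 := mul_le_mul_of_nonneg_left c2 (show 0 ≤ k / (k - 1) by positivity)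
    rw [e1] at g3
    linarith
  have g6 := mul_le_mul_of_nonneg_left g5 (show 0 ≤ k by linarith)
  have g7 := mul_le_mul_of_nonneg_right kθ (mul_nonneg a0 t0)
  have g8 : 0 ≤ k ^ 2 / (k - 1) * (h ^ 2 * t2) := by positivity
  have g9 : 0 ≤ k ^ 2 * (r2 * a2) := by positivity
  have g10 : 0 ≤ k ^ 2 / (k - 1) * (r2 * a2) := by positivity
  have g11 : k * (k / (k - 1) * (r2 * a2)) = k ^ 2 / (k - 1) * (r2 * a2) := by ring
  linarith

/-- the refined Kato inequality -/
theorem kato : ∃ k > (1 : ℝ), ∃ K ≥ (0 : ℝ), ∀ (A : κ → κ → ℝ) (T : κ → κ → κ → ℝ),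
    (∀ a b, A a b = A b a) →
    k * ∑ a, (∑ b, ∑ c, A b c * T a b c) * (∑ b, ∑ c, A b c * T a b c) ≤
      (∑ a, ∑ b, A a b * A a b + K * (∑ a, A a a) ^ 2) * (∑ a, ∑ b, ∑ c, T a b c * T a b c)
      + K * (∑ a, ∑ b, ∑ c, (T a b c - T b a c) * (T a b c - T b a c))
        * ∑ a, ∑ b, A a b * A a b := by
  set n : ℝ := (Fintype.card κ : ℝ) with hn
  have n0 : 0 ≤ n := Nat.cast_nonneg _
  set θ : ℝ := (4 * n + 1) / (4 * n + 2) with hθ
  have θ0 : 0 < θ := by positivity
  have θ1 : θ < 1 := (div_lt_one (by positivity)).2 (by linarith)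
  set k : ℝ := 2 / (1 + θ) with hk
  have k1 : 1 < k := (one_lt_div (by positivity)).2 (by linarith)
  have kθ : k ^ 2 * θ ≤ 1 := by
    rw [hk, div_pow, div_mul_eq_mul_div, div_le_one (by positivity)]
    nlinarith [sq_nonneg (1 - θ)]
  refine ⟨k, k1, k ^ 2 + k ^ 2 / (k - 1), by have := sub_pos.2 k1; positivity, fun A T hA => ?_⟩
  set ξ : κ → ℝ := fun a => ∑ b, ∑ c, A b c * T a b c with hξ
  set a2 := ∑ a, ∑ b, A a b * A a b with ha2
  set t2 := ∑ a, ∑ b, ∑ c, T a b c * T a b c with ht2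
  set r2 := ∑ a, ∑ b, ∑ c, (T a b c - T b a c) * (T a b c - T b a c) with hr2
  set h := ∑ a, A a a with hh
  have a0 : 0 ≤ a2 := Finset.sum_nonneg fun _ _ => Finset.sum_nonneg fun _ _ => mul_self_nonneg _
  have t0 : 0 ≤ t2 := Finset.sum_nonneg fun _ _ => Finset.sum_nonneg fun _ _ =>
    Finset.sum_nonneg fun _ _ => mul_self_nonneg _
  have r0 : 0 ≤ r2 := Finset.sum_nonneg fun _ _ => Finset.sum_nonneg fun _ _ =>
    Finset.sum_nonneg fun _ _ => mul_self_nonneg _
  have kp := sub_pos.2 k1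
  have x0 : 0 ≤ ∑ a, ξ a * ξ a := Finset.sum_nonneg fun _ _ => mul_self_nonneg _
  change k * ∑ a, ξ a * ξ a ≤ _
  rcases x0.eq_or_lt with e | e
  · rw [← e, mul_zero]
    clear_value a2 t2 r2 h k
    positivity
  set s := √(∑ a, ξ a * ξ a) with hs
  have s0 : 0 < s := Real.sqrt_pos.2 e
  have ss : s * s = ∑ a, ξ a * ξ a := Real.mul_self_sqrt x0
  set η : κ → ℝ := fun a => s⁻¹ * ξ a with hη
  have η1 : ∑ a, η a * η a = 1 := by
    have : ∀ a, η a * η a = s⁻¹ * s⁻¹ * (ξ a * ξ a) := fun a => by simp only [hη]; ring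
    simp only [this, ← Finset.mul_sum, ← ss]
    field_simp
  have η2 : ∑ a, η a * ξ a = s := by
    have : ∀ a, η a * ξ a = s⁻¹ * (ξ a * ξ a) := fun a => by simp only [hη]; ring
    simp only [this, ← Finset.mul_sum, ← ss]
    field_simp
  set q := ∑ c, (∑ b, η b * A b c) * (∑ b, η b * A b c) with hq
  have g1 : (2 * n + 1) * q ≤ 2 * n * a2 + 2 * h ^ 2 := rank_gap hA η1
  have n1 : ∑ a, ∑ b, ∑ c, (η a * A b c) * (η a * A b c) = a2 := by
    have : ∀ a b c, (η a * A b c) * (η a * A b c) = η a * η a * (A b c * A b c) :=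
      fun a b c => by ring
    simp only [this, ← Finset.mul_sum, ← Finset.sum_mul, η1, one_mul, ha2]
  have n2 : ∑ a, ∑ b, ∑ c, (η a * A b c) * (η b * A a c) = q := by
    simp only [hq, Finset.sum_mul_sum]
    rw [Finset.sum_congr rfl fun a _ => Finset.sum_comm, Finset.sum_comm]
    exact Finset.sum_congr rfl fun c _ => Finset.sum_congr rfl fun a _ =>
      Finset.sum_congr rfl fun b _ => by ring
  have n3 : ∑ a, ∑ b, ∑ c, (η b * A a c) * (η b * A a c) = a2 := Finset.sum_comm.trans n1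
  have n4 : ∑ a, ∑ b, ∑ c, (η a * A b c + η b * A a c) * (η a * A b c + η b * A a c)
      = 2 * a2 + 2 * q := by
    have : ∀ x y : ℝ, (x + y) * (x + y) = x * x + y * y + 2 * (x * y) := fun x y => by ring
    simp only [this, Finset.sum_add_distrib, ← Finset.mul_sum (a := (2 : ℝ)), n1, n2, n3]
    ring
  have c1 := cs3 T fun a b c => η a * A b c + η b * A a c
  have c2 := cs3 (fun a b c => T a b c - T b a c) fun a b c => η a * A b c
  rw [n4, ← ht2] at c1
  rw [n1, ← hr2] at c2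
  set x := ∑ a, ∑ b, ∑ c, T a b c * (η a * A b c + η b * A a c) with hx
  set y := ∑ a, ∑ b, ∑ c, (T a b c - T b a c) * (η a * A b c) with hy
  have e1 : x + y = 2 * s := by
    have h1 : ∑ a, ∑ b, ∑ c, T a b c * (η b * A a c) = ∑ a, ∑ b, ∑ c, T b a c * (η a * A b c) :=
      Finset.sum_comm
    have h2 : ∑ a, ∑ b, ∑ c, T a b c * (η a * A b c) = s := by
      rw [← η2]
      simp only [hξ, Finset.mul_sum]
      exact Finset.sum_congr rfl fun a _ => Finset.sum_congr rfl fun b _ =>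
        Finset.sum_congr rfl fun c _ => by ring
    simp only [hx, hy, mul_add, sub_mul, Finset.sum_add_distrib, Finset.sum_sub_distrib, h1, h2]
    ring
  rw [← ss]
  exact kato_aux n0 hθ k1 kθ a0 t0 r0 g1 c1 c2 e1

end Real

variable {d : ℕ} {ι : Type} [Fintype ι] [DecidableEq ι] {X : Type} [TopologicalSpace X]
  [MeasurableSpace X] {M : Imm d ι X} {F u : X → ℝ}

open Imm

/-- the Simons field -/
abbrev Ys (M : Imm d ι X) (u : X → ℝ) : Option ι → X → ℝ := M.pre.simY u (M.vv u)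

theorem sm_Ys (hu : M.Sm u) (a : Option ι) : M.Sm (Ys M u a) :=
  (M.hom.simY ⟨u, hu⟩ ⟨_, hu.vv⟩ a ▸ sm_val _ :
    M.Sm (M.pre.simY (M.val ⟨u, hu⟩) (M.val ⟨_, hu.vv⟩) a))

theorem tan_Ys (hu : M.Sm u) : (M.gS u).Tan (Ys M u) := fun a => by
  have := congrArg M.val ((gDS hu).tan_sY (symT hu) a)
  simp only [← Pre.simY_eq, map_sum, map_mul, M.hom.simY, (ghom hu).P] at this
  exact this

theorem Ys_apply (u : X → ℝ) (a : Option ι) (p : X) : Ys M u a p =
    ∑ b, ∑ c, (M.A u b c p * T M u b a c p - M.A u a c p * T M u b b c p) := by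
  simp only [Ys, Pre.simY, Finset.sum_apply, Pi.mul_apply, Pi.sub_apply]
  rfl

theorem D_a2 (hu : M.Sm u) (a : Option ι) (p : X) :
    (M.gS u).D a (M.a2 u) p = 2 * ∑ b, ∑ c, M.A u b c p * T M u a b c p := by
  have := congrArg M.val ((gDS hu).D_normSq (symT hu) a)
  simp only [map_sum, map_mul, map_ofNat, M.hom.A, (ghom hu).D, (ghom hu).nab2] at this
  have := congrFun this p
  simp only [Finset.sum_apply, Pi.mul_apply, Pi.ofNat_apply] at this
  exact this

theorem dv_Ys (hu : M.Sm u) (p : X) : (M.gS u).dv (Ys M u) p =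
    ∑ e, ∑ b, ∑ c, T M u e b c p * T M u b e c p
    - ∑ c, (∑ a, T M u a a c p) * (∑ a, T M u a a c p)
    + ∑ e, (M.gS u).H e p * (∑ b, ∑ c, M.A u b c p * B M u b e c p)
    + ∑ e, ∑ b, ∑ c, B M u e c b p * B M u b c e p
    - ∑ c, (∑ a, B M u a c a p) * (∑ a, B M u a c a p)
    - ∑ g, ∑ e, ∑ c, B M u g e c p * B M u g e c p := by
  have := congrArg M.val ((gDS hu).dv_sY (symT hu))
  simp only [← Pre.simY_eq, map_sum, map_mul, map_add, map_sub, M.hom.A, M.hom.simY,
    (ghom hu).dv, (ghom hu).H, (ghom hu).nab2, (ghom hu).sB] at this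
  have := congrFun this p
  simp only [Finset.sum_apply, Pi.mul_apply, Pi.add_apply, Pi.sub_apply] at this
  exact this

variable [CompactSpace X] {Λ : ℝ}

local notation "𝔹" => Bd (aa M F Λ)

theorem bd_near (hF : M.Sm F) (a : Option ι) :
    𝔹 2 fun ω => Ys M ω.1.1 a ω.2 - (M.gS ω.1.1).D a (M.a2 ω.1.1) ω.2 / 2 :=
  ((Bd.sum fun b => Bd.sum fun c => (bd_A b c).mul (bd_cod b a c)).mono.sub
    (Bd.sum fun c => (bd_A a c).mul (bd_t hF c))).congr fun ω => by
      rw [Ys_apply, D_a2 ω.1.2.sm]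
      simp only [mul_sub, Finset.sum_sub_distrib]
      rw [Finset.sum_comm (f := fun b c => M.A ω.1.1 a c ω.2 * T M ω.1.1 b b c ω.2)]
      simp only [← Finset.mul_sum]
      ring

theorem bd_r2 : 𝔹 0 fun ω => ∑ a, ∑ b, ∑ c, (T M ω.1.1 a b c ω.2 - T M ω.1.1 b a c ω.2)
    * (T M ω.1.1 a b c ω.2 - T M ω.1.1 b a c ω.2) :=
  Bd.sum fun a => Bd.sum fun b => Bd.sum fun c => (bd_cod a b c).mul (bd_cod a b c)

theorem bd_BB (e b c : Option ι) : 𝔹 1 fun ω => B M ω.1.1 e c b ω.2 - B M ω.1.1 b c e ω.2 :=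
  ((bd_gam e c b).sub (bd_gam b c e)).congr fun ω => by
    have : ∑ g, M.A ω.1.1 e g ω.2 * M.A ω.1.1 g b ω.2 =
        ∑ g, M.A ω.1.1 b g ω.2 * M.A ω.1.1 g e ω.2 := Finset.sum_congr rfl fun g _ => by
      rw [A_symm ω.1.2.sm e g, A_symm ω.1.2.sm g b, mul_comm]
    rw [this]; ring

theorem bd_mm : 𝔹 3 fun ω => ∑ c, (∑ a, B M ω.1.1 a c a ω.2) * (∑ a, B M ω.1.1 a c a ω.2)
    - M.a2 ω.1.1 ω.2 ^ 2 :=
  (Bd.sum fun c => (((Bd.const 2).mul bd_a2).mul ((bd_nu c).mul (bd_m c))).add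
    ((bd_m c).mul (bd_m c)).mono).congr fun ω => by
      rw [← mul_one (M.a2 ω.1.1 ω.2 ^ 2), ← nu_unit ω.1.2.sm ω.2, Finset.mul_sum,
        ← Finset.sum_sub_distrib]
      exact Finset.sum_congr rfl fun c _ => by ring

theorem bd_main (hF : M.Sm F) : 𝔹 3 fun ω => (M.gS ω.1.1).dv (Ys M ω.1.1) ω.2
    + M.a2 ω.1.1 ω.2 ^ 2 - ∑ a, ∑ b, ∑ c, T M ω.1.1 a b c ω.2 * T M ω.1.1 a b c ω.2 :=
  (((((Bd.sum fun e => (bd_H hF e).mul (Bd.sum fun b => Bd.sum fun c =>
    (bd_A b c).mul (bd_B b e c))).sub ((Bd.const (1 / 2)).mul bd_r2).mono).sub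
    (Bd.sum fun c => (bd_t hF c).mul (bd_t hF c)).mono).sub
    ((Bd.const (1 / 2)).mul (Bd.sum fun e => Bd.sum fun b => Bd.sum fun c =>
      (bd_BB e b c).mul (bd_BB e b c))).mono).sub bd_mm).congr fun ω => by
    have e1 : ∑ e, ∑ b, ∑ c, B M ω.1.1 e c b ω.2 * B M ω.1.1 e c b ω.2 =
        ∑ g, ∑ e, ∑ c, B M ω.1.1 g e c ω.2 * B M ω.1.1 g e c ω.2 :=
      Finset.sum_congr rfl fun _ _ => Finset.sum_comm
    rw [dv_Ys ω.1.2.sm, swap_sq fun e b c => T M ω.1.1 e b c ω.2,
      swap_sq fun e b c => B M ω.1.1 e c b ω.2, e1]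
    ring

end Sh

open Sh Imm

theorem sim : SimStmt := by
  intro d ι _ _ X _ _ _ _ _ _ M F _ hF Λ
  obtain ⟨k, k1, K, K0, hK⟩ := kato (κ := Option ι)
  obtain ⟨C1, p1, h1⟩ := Bd.unif fun a => bd_near (Λ := Λ) hF a
  obtain ⟨C2, p2, h2⟩ := bd_main (Λ := Λ) hF
  obtain ⟨C3, p3, h3⟩ := (bd_trA (Λ := Λ) hF).mul (bd_trA hF)
  obtain ⟨C4, p4, h4⟩ := bd_r2 (M := M) (F := F) (Λ := Λ)
  have q3 : 0 ≤ K * C3 := mul_nonneg K0 p3
  have q4 : 0 ≤ K * C4 := mul_nonneg K0 p4
  refine ⟨k, 1 + C1 + C2 + K * C3 + K * C4, k1, by linarith, fun u hu =>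
    ⟨Ys M u, sm_Ys hu.sm, tan_Ys hu.sm, fun a p => ?_, fun p => ?_⟩⟩
  · have := h1 a (⟨u, hu⟩, p)
    have a0 := M.a2_nonneg u p
    rw [w_eq, Real.sq_sqrt (by linarith)] at this
    exact this.trans (mul_le_mul_of_nonneg_right (by linarith) (by linarith))
  · have a0 := M.a2_nonneg u p
    have e2 := h2 (⟨u, hu⟩, p)
    have e3 := h3 (⟨u, hu⟩, p)
    have e4 := h4 (⟨u, hu⟩, p)
    have e5 := hK (fun a b => M.A u a b p) (fun a b c => T M u a b c p) fun a b => by
      rw [A_symm hu.sm]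
    have w1 : 1 ≤ √(1 + M.a2 u p) := Real.one_le_sqrt.2 (by linarith)
    rw [w_eq, pow_succ, Real.sq_sqrt (by linarith)] at e2
    simp only [add_zero, pow_zero, mul_one] at e2 e3 e4
    have e6 : (M.gS u).gam (M.a2 u) (M.a2 u) p / 4 = ∑ a, (∑ b, ∑ c, M.A u b c p * T M u a b c p)
        * ∑ b, ∑ c, M.A u b c p * T M u a b c p := by
      simp only [Pre.gam, Finset.sum_apply, Pi.mul_apply, D_a2 hu.sm, Finset.sum_div]
      exact Finset.sum_congr rfl fun a _ => by ring
    rw [e6]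
    refine e5.trans ?_
    rw [← a2_apply]
    have t0 : 0 ≤ ∑ a, ∑ b, ∑ c, T M u a b c p * T M u a b c p :=
      Finset.sum_nonneg fun _ _ => Finset.sum_nonneg fun _ _ =>
        Finset.sum_nonneg fun _ _ => mul_self_nonneg _
    generalize ∑ a, ∑ b, ∑ c, T M u a b c p * T M u a b c p = t2 at *
    generalize ∑ a, ∑ b, ∑ c, (T M u a b c p - T M u b a c p) * (T M u a b c p - T M u b a c p)
      = r2 at *
    generalize ∑ a, M.A u a a p = h at *
    have w3 : 1 ≤ (1 + M.a2 u p) * √(1 + M.a2 u p) := one_le_mul_of_one_le_of_one_le (by linarith) w1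
    generalize (1 + M.a2 u p) * √(1 + M.a2 u p) = W at *
    have f1 : K * h ^ 2 ≤ K * C3 :=
      mul_le_mul_of_nonneg_left (by linarith [le_abs_self (h * h)]) K0
    have f2 : K * r2 ≤ K * C4 := mul_le_mul_of_nonneg_left ((le_abs_self _).trans e4) K0
    have f3 : t2 + K * C4 ≤ (M.gS u).dv (Ys M u) p + M.a2 u p ^ 2
        + (1 + C1 + C2 + K * C3 + K * C4) * W := by
      have := mul_le_mul_of_nonneg_left w3 (show 0 ≤ 1 + C1 + K * C3 + K * C4 by linarith)
      linarith [neg_abs_le ((M.gS u).dv (Ys M u) p + M.a2 u p ^ 2 - t2)]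
    refine le_trans ?_ (mul_le_mul_of_nonneg_left f3 (by linarith))
    have f4 := mul_le_mul_of_nonneg_right f2 a0
    have f5 := mul_le_mul_of_nonneg_right f1 t0
    have f6 : 0 ≤ (1 + C1 + C2 + K * C4) * t2 := mul_nonneg (by linarith) t0
    have f7 : 0 ≤ (1 + C1 + C2 + K * C3 + K * C4) * (K * C4) := mul_nonneg (by linarith) q4
    linarith

end Crest.Agent.N222

end
end

-- ▼ part N222/B/Cal
section

/-!
# Row 222, part B: calibration inequalities and area bounds (helper85)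
-/

set_option autoImplicit false
set_option linter.unusedSectionVars false
open MeasureTheory Set Filter Topology Function Metric
open scoped ContDiff InnerProductSpace RealInnerProductSpace

noncomputable section

namespace Crest.Agent.N222

namespace Cl

variable {d : ℕ} {ι : Type} [Fintype ι] [DecidableEq ι] {X : Type} [TopologicalSpace X]
  [T2Space X] [SecondCountableTopology X] [MeasurableSpace X] [BorelSpace X] [CompactSpace X]
  {M : Imm d ι X} {u : X → ℝ}

theorem intg {f : X → ℝ} (hf : Continuous f) : Integrable f M.mu :=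
  hf.integrable_of_hasCompactSupport (HasCompactSupport.of_compactSpace f)

/-- the calibration identity at height zero -/
theorem cal0 (hu : M.Sm u) {f : E (Option ι) → ℝ} (hf : ContDiff ℝ ∞ f) :
    ∫ p, (M.vv u p)⁻¹ * fderiv ℝ f (M.gx u p) (up 1 0) ∂M.mu =
      ∫ p, (fderiv ℝ f (M.gx u p) (M.nuv u p) - f (M.gx u p) * M.pre.dv (M.Xf u) p) ∂M.mu := by
  have hg : M.Sm fun p => f (M.gx u p) := (Imm.sm_gx hu).comp hf
  have hD : Continuous fun p => fderiv ℝ f (M.gx u p) :=
    (hf.continuous_fderiv (by simp)).comp (Imm.sm_gx hu).continuous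
  have h1 := Imm.integral_mul_dv hg.c1 (HasCompactSupport.of_compactSpace _)
    (fun a => (hu.Xf a).c1) (M.tan_Xf u)
  have h2 : ∀ p, (M.vv u p)⁻¹ * fderiv ℝ f (M.gx u p) (up 1 0) =
      fderiv ℝ f (M.gx u p) (M.nuv u p) + M.pre.dir (M.Xf u) (fun p => f (M.gx u p)) p := by
    intro p
    set Xv : E ι := WithLp.toLp 2 fun a => M.Xf u a p with hXv
    have e1 : M.pre.dir (M.Xf u) (fun p => f (M.gx u p)) p =
        fderiv ℝ f (M.gx u p) (M.td (M.gx u) p Xv) := by
      rw [Imm.dir_apply, ← ContinuousLinearMap.comp_apply,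
        ← Imm.td_comp ((Imm.sm_gx hu).diffAt p) (hf.differentiable (by simp) _), Imm.td_apply]
    have e2 : ∀ c, M.td (M.gx u) p Xv c = ∑ a, M.Xf u a p * M.pre.D a (fun q => M.gx u q c) p := by
      intro c
      have := Imm.td_comp ((Imm.sm_gx hu).diffAt p)
        (EuclideanSpace.proj c : E (Option ι) →L[ℝ] ℝ).differentiableAt
      rw [ContinuousLinearMap.fderiv] at this
      exact (congrArg (fun T : E ι →L[ℝ] ℝ => T Xv) this).symm.trans (Imm.td_apply _ p Xv)
    have hv := (M.vv_pos u p).ne'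
    rw [e1, ← map_add, ← smul_eq_mul, ← map_smul]
    congr 1
    ext c
    rw [PiLp.add_apply, e2]
    cases c with
    | none =>
      have h3 := M.sum_Xf_sq u p
      have h4 : ∑ a, M.Xf u a p * M.Xf u a p = M.vv u p * ∑ a, M.Xf u a p * M.pre.D a u p := by
        rw [Finset.mul_sum]
        exact Finset.sum_congr rfl fun a _ => by rw [M.Xf_apply]; ring
      change (M.vv u p)⁻¹ * 1 = M.vv u p + ∑ a, M.Xf u a p * M.pre.D a u p
      field_simp
      linarith
    | some b =>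
      have h3 := congrFun (M.tan_Xf u b) p
      simp only [Finset.sum_apply, Pi.mul_apply] at h3
      change (M.vv u p)⁻¹ * 0 = -M.Xf u b p + ∑ a, M.Xf u a p * M.pre.P a b p
      rw [← h3, mul_zero, eq_neg_add_iff_add_eq, add_zero]
      exact Finset.sum_congr rfl fun a _ => by rw [M.P_symm, mul_comm]
  have i1 := intg (M := M) (hD.clm_apply hu.nuv.continuous)
  simp only [h2]
  rw [integral_add i1 (intg (Imm.sm_dir hu.Xf hg).continuous),
    integral_sub i1 (intg (hg.mul (Imm.sm_dv hu.Xf)).continuous), h1]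
  ring

theorem cal1 (hu : M.Sm u) {C : ℝ} (hC : ∀ p, |M.pre.dv (M.Xf u) p| ≤ C)
    {f : E (Option ι) → ℝ} (hf : ContDiff ℝ ∞ f) (h0 : ∀ y, 0 ≤ f y) (s : ℝ) :
    |∫ p, (M.vv u p)⁻¹ * fderiv ℝ f (up (u p + s) (M.x p)) (up 1 0) ∂M.mu| ≤
      ∫ p, (‖fderiv ℝ f (up (u p + s) (M.x p))‖ + C * f (up (u p + s) (M.x p))) ∂M.mu := by
  have e : ∀ p, M.gx u p + up s 0 = up (u p + s) (M.x p) := fun p => by
    rw [Imm.gx, up_add, add_zero]
  have h1 := cal0 hu (f := fun y => f (y + up s 0)) (hf.comp (contDiff_id.add contDiff_const))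
  simp only [fderiv_comp_add_right, e] at h1
  have hc : Continuous fun p => up (u p + s) (M.x p) := by
    simp only [← e]; exact (Imm.sm_gx hu).continuous.add continuous_const
  rw [h1, ← Real.norm_eq_abs]
  refine norm_integral_le_of_norm_le (intg (((hf.continuous_fderiv (by simp)).comp hc).norm.add
    (continuous_const.mul (hf.continuous.comp hc)))) (Eventually.of_forall fun p => ?_)
  refine (norm_sub_le _ _).trans (add_le_add ?_ ?_)
  · simpa [Imm.norm_nuv hu] using (fderiv ℝ f (up (u p + s) (M.x p))).le_opNorm (M.nuv u p)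
  · rw [norm_mul, Real.norm_of_nonneg (h0 _), mul_comm]
    exact mul_le_mul_of_nonneg_right (hC p) (h0 _)

theorem hcs_up (hu : M.Sm u) {G : Type} [Zero G] {φ : E (Option ι) → G}
    (hφ : HasCompactSupport φ) :
    HasCompactSupport fun z : X × ℝ => φ (up (u z.1 + z.2) (M.x z.1)) := by
  obtain ⟨R, hR⟩ := hφ.isCompact.isBounded.exists_norm_le
  obtain ⟨K, -, hK⟩ := Imm.exists_bound hu.continuous
  refine HasCompactSupport.intro (isCompact_univ.prod (isCompact_closedBall 0 (R + K)))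
    fun z hz => image_eq_zero_of_notMem_tsupport fun h => hz ⟨mem_univ _, ?_⟩
  have h1 := (abs_none_le _).trans (hR _ h)
  have h2 := hK z.1
  rw [up_none] at h1
  rw [mem_closedBall_zero_iff]
  rw [Real.norm_eq_abs] at h2 ⊢
  have := abs_sub (u z.1 + z.2) (u z.1)
  rw [add_sub_cancel_left] at this
  linarith

theorem fub (ν : Measure ℝ) [IsFiniteMeasureOnCompacts ν] [SFinite ν] {a b : X × ℝ → ℝ}
    (ha : Continuous a) (ha' : HasCompactSupport a) (hb : Continuous b) (hb' : HasCompactSupport b)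
    (h : ∀ s, ∫ p, a (p, s) ∂M.mu ≤ ∫ p, b (p, s) ∂M.mu) :
    ∫ p, ∫ s, a (p, s) ∂ν ∂M.mu ≤ ∫ p, ∫ s, b (p, s) ∂ν ∂M.mu := by
  have i1 : Integrable a (M.mu.prod ν) := ha.integrable_of_hasCompactSupport ha'
  have i2 : Integrable b (M.mu.prod ν) := hb.integrable_of_hasCompactSupport hb'
  rw [← integral_prod _ i1, ← integral_prod _ i2, integral_prod_symm _ i1, integral_prod_symm _ i2]
  exact integral_mono i1.integral_prod_right i2.integral_prod_right h

theorem hasDerivAt_up {f : E (Option ι) → ℝ} (hf : ContDiff ℝ ∞ f) (t : ℝ) (y : E ι) (s : ℝ) :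
    HasDerivAt (fun s => f (up (t + s) y)) (fderiv ℝ f (up (t + s) y) (up 1 0)) s := by
  have e : ∀ s : ℝ, up (t + s) y = up t y + s • up 1 (0 : E ι) := fun s => by
    rw [smul_up, up_add]; simp
  simp only [e]
  exact (hf.differentiable (by simp) _).hasFDerivAt.comp_hasDerivAt s
    (by simpa using ((hasDerivAt_id s).smul_const (up 1 (0 : E ι))).const_add (up t y))

theorem cal2 (hu : M.Sm u) {C : ℝ} (hC : ∀ p, |M.pre.dv (M.Xf u) p| ≤ C)
    {f : E (Option ι) → ℝ} (hf : ContDiff ℝ ∞ f) (hc : HasCompactSupport f) (h0 : ∀ y, 0 ≤ f y) :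
    (∫ p, f (M.gx u p) ∂M.gmu u ≤ ∫ p, (∫ t in Iic (u p),
      (‖fderiv ℝ f (up t (M.x p))‖ + C * f (up t (M.x p)))) ∂M.mu) ∧
    (∫ p, f (M.gx u p) ∂M.gmu u ≤ ∫ p, (∫ t in Ioi (u p),
      (‖fderiv ℝ f (up t (M.x p))‖ + C * f (up t (M.x p)))) ∂M.mu) := by
  have hz : Continuous fun z : X × ℝ => up (u z.1 + z.2) (M.x z.1) :=
    contDiff_up.continuous.comp (((hu.continuous.comp continuous_fst).add continuous_snd).prodMk
      (M.continuous_x.comp continuous_fst))
  have hD := (hf.continuous_fderiv (by simp)).comp hz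
  have ha : Continuous fun z : X × ℝ =>
      (M.vv u z.1)⁻¹ * fderiv ℝ f (up (u z.1 + z.2) (M.x z.1)) (up 1 0) :=
    ((hu.vv.continuous.inv₀ fun p => (M.vv_pos u p).ne').comp continuous_fst).mul
      (hD.clm_apply continuous_const)
  have ha' : HasCompactSupport fun z : X × ℝ =>
      (M.vv u z.1)⁻¹ * fderiv ℝ f (up (u z.1 + z.2) (M.x z.1)) (up 1 0) :=
    (hcs_up hu (hc.fderiv_apply ℝ (up 1 0))).mul_left
  have hb : Continuous fun z : X × ℝ => ‖fderiv ℝ f (up (u z.1 + z.2) (M.x z.1))‖ +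
      C * f (up (u z.1 + z.2) (M.x z.1)) := hD.norm.add (continuous_const.mul (hf.continuous.comp hz))
  have hb' : HasCompactSupport fun z : X × ℝ => ‖fderiv ℝ f (up (u z.1 + z.2) (M.x z.1))‖ +
      C * f (up (u z.1 + z.2) (M.x z.1)) :=
    hcs_up hu (φ := fun y => ‖fderiv ℝ f y‖ + C * f y) ((hc.fderiv ℝ).norm.add hc.mul_left)
  have hs : ∀ p, ContDiff ℝ 1 (fun s => f (up (u p + s) (M.x p))) ∧
      HasCompactSupport fun s => f (up (u p + s) (M.x p)) := fun p =>
    ⟨(hf.comp (contDiff_up.comp ((contDiff_const.add contDiff_id).prodMk contDiff_const))).of_le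
      (by simp), (hcs_up hu hc).comp_isClosedEmbedding (g := fun s : ℝ => (p, s))
        ⟨isEmbedding_prodMkRight p, by
          rw [show range (fun s : ℝ => (p, s)) = {p} ×ˢ univ by ext z; simp [Prod.ext_iff, eq_comm]]
          exact isClosed_singleton.prod isClosed_univ⟩⟩
  have hd : ∀ p, deriv (fun s => f (up (u p + s) (M.x p))) =
      fun s => fderiv ℝ f (up (u p + s) (M.x p)) (up 1 0) := fun p =>
    funext fun s => (hasDerivAt_up hf _ _ s).deriv
  have tr : ∀ (G : ℝ → ℝ) (c : ℝ) (S : Set ℝ), ∫ s in (fun s => c + s) ⁻¹' S, G (c + s) =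
      ∫ t in S, G t := fun G c S =>
    (measurePreserving_add_left volume c).setIntegral_preimage_emb (measurableEmbedding_addLeft c) G S
  rw [Imm.integral_gmu hu]
  constructor
  · have := fub (M := M) (volume.restrict (Iic 0)) ha ha' hb hb'
      fun s => (le_abs_self _).trans (cal1 hu hC hf h0 s)
    convert this using 3 with p p
    · dsimp only
      rw [integral_const_mul, ← hd, (hs p).2.integral_Iic_deriv_eq (hs p).1, add_zero]; rfl
    · rw [← tr _ (u p)]; simp
  · have := fub (M := M) (volume.restrict (Ioi 0)) ha.neg ha'.neg hb hb'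
      fun s => by
        simp only [Pi.neg_apply, integral_neg]
        exact (neg_le_abs _).trans (cal1 hu hC hf h0 s)
    convert this using 3 with p p
    · simp only [Pi.neg_apply, integral_neg]
      rw [integral_const_mul, ← hd, (hs p).2.integral_Ioi_deriv_eq (hs p).1, add_zero, mul_neg,
        neg_neg]; rfl
    · rw [← tr _ (u p)]; simp

theorem ball_le : ∃ K : ℝ, 0 ≤ K ∧ ∀ (u : X → ℝ) (C : ℝ), M.Sm u → 0 ≤ C →
    (∀ p, |M.pre.dv (M.Xf u) p| ≤ C) → ∀ (y : E (Option ι)) (R : ℝ), 0 < R →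
    (M.gmu u).real {p | ‖M.gx u p - y‖ ≤ R / 2} ≤
      (K + 2 * C * R) * M.mu.real {p | ‖M.x p - down y‖ ≤ R} := by
  have h1 : ContDiff ℝ ∞ fun z : E (Option ι) => Phi (‖z‖ ^ 2) :=
    contDiff_Phi.comp (contDiff_norm_sq ℝ)
  have h2 : HasCompactSupport fun z : E (Option ι) => Phi (‖z‖ ^ 2) := by
    simpa using hasCompactSupport_Phi (0 : E (Option ι)) one_pos
  obtain ⟨K, hK⟩ := (h1.continuous_fderiv (by simp)).bounded_above_of_compact_support (h2.fderiv ℝ)
  have hK0 : 0 ≤ K := (norm_nonneg _).trans (hK 0)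
  refine ⟨2 * K, by positivity, fun u C hu hC0 hC y R hR => ?_⟩
  set f : E (Option ι) → ℝ := fun z => Phi (‖z - y‖ ^ 2 / R ^ 2) with hfd
  have e : f = (fun z : E (Option ι) => Phi (‖z‖ ^ 2)) ∘ fun z => R⁻¹ • (z - y) := by
    funext z
    simp only [hfd, comp_apply, norm_smul, mul_pow, norm_inv, inv_pow, Real.norm_eq_abs, sq_abs,
      div_eq_inv_mul]
  have hf : ContDiff ℝ ∞ f := e ▸ h1.comp (by fun_prop)
  have hb : ∀ z, ‖fderiv ℝ f z‖ + C * f z ≤ K / R + C := by
    intro z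
    refine add_le_add ?_ (mul_le_of_le_one_right hC0 (Phi_le_one _))
    have h3 : HasFDerivAt (fun z : E (Option ι) => R⁻¹ • (z - y))
        (R⁻¹ • ContinuousLinearMap.id ℝ _) z := ((hasFDerivAt_id z).sub_const y).const_smul R⁻¹
    rw [e, ((h1.differentiable (by simp) _).hasFDerivAt.comp z h3).fderiv]
    refine (ContinuousLinearMap.opNorm_comp_le _ _).trans ?_
    rw [div_eq_mul_inv]
    refine mul_le_mul (hK _) ?_ (norm_nonneg _) hK0
    rw [norm_smul, norm_inv, Real.norm_of_nonneg hR.le]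
    exact mul_le_of_le_one_right (by positivity) ContinuousLinearMap.norm_id_le
  have hz : ∀ z, R < ‖z - y‖ → ‖fderiv ℝ f z‖ + C * f z = 0 := by
    intro z h
    have h3 : f =ᶠ[𝓝 z] fun _ => 0 := by
      filter_upwards [(isOpen_lt continuous_const (by fun_prop :
        Continuous fun w : E (Option ι) => ‖w - y‖)).mem_nhds h] with w hw
      exact Phi_eq_zero_of_le hR (le_of_lt hw)
    rw [h3.fderiv_eq, h3.self_of_nhds]; simp
  have hn : ∀ z, 0 ≤ ‖fderiv ℝ f z‖ + C * f z := fun z =>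
    add_nonneg (norm_nonneg _) (mul_nonneg hC0 (Phi_nonneg _))
  have := Imm.isFiniteMeasure_gmu hu
  have m1 : MeasurableSet {p | ‖M.gx u p - y‖ ≤ R / 2} := (isClosed_le
    ((Imm.sm_gx hu).continuous.sub continuous_const).norm continuous_const).measurableSet
  have m2 : MeasurableSet {p | ‖M.x p - down y‖ ≤ R} := (isClosed_le
    (M.continuous_x.sub continuous_const).norm continuous_const).measurableSet
  calc (M.gmu u).real {p | ‖M.gx u p - y‖ ≤ R / 2} ≤ ∫ p, f (M.gx u p) ∂M.gmu u := by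
        rw [← integral_indicator_one m1]
        refine integral_mono ((integrable_const 1).indicator m1)
          ((hf.continuous.comp (Imm.sm_gx hu).continuous).integrable_of_hasCompactSupport
            (HasCompactSupport.of_compactSpace _)) fun p => ?_
        refine indicator_apply_le' (fun hp => ?_) fun _ => Phi_nonneg _
        exact (Phi_eq_one_of_le hR (norm_nonneg _) hp).ge
    _ ≤ _ := (cal2 hu hC hf (hasCompactSupport_Phi y hR) fun _ => Phi_nonneg _).1
    _ ≤ ∫ p, {p | ‖M.x p - down y‖ ≤ R}.indicator (fun _ => 2 * K + 2 * C * R) p ∂M.mu := by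
        refine integral_mono_of_nonneg (Eventually.of_forall fun p => integral_nonneg fun t => hn _)
          ((integrable_const _).indicator m2) (Eventually.of_forall fun p => ?_)
        refine le_indicator_apply (fun _ => ?_) fun hp => le_of_eq ?_
        · have i1 : Integrable ((closedBall (y none) R).indicator fun _ : ℝ => K / R + C) :=
            (integrable_indicator_iff measurableSet_closedBall).2
              (integrableOn_const measure_closedBall_lt_top.ne)
          refine (integral_mono_of_nonneg (Eventually.of_forall fun t => hn _) i1.integrableOn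
            (Eventually.of_forall fun t => ?_)).trans ((setIntegral_le_integral i1
              (Eventually.of_forall fun t => indicator_nonneg (fun _ _ => by positivity) t)).trans
                (le_of_eq ?_))
          · refine le_indicator_apply (fun _ => hb _) fun ht => le_of_eq (hz _ ?_)
            exact lt_of_lt_of_le (not_le.1 ht) (abs_none_le (up t (M.x p) - y))
          · rw [integral_indicator_const _ measurableSet_closedBall, Real.volume_real_closedBall hR.le,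
              smul_eq_mul]
            field_simp
        · refine integral_eq_zero_of_ae (Eventually.of_forall fun t => hz _ ?_)
          exact lt_of_lt_of_le (not_le.1 hp) (norm_down_le (up t (M.x p) - y))
    _ = _ := by rw [integral_indicator_const _ m2, smul_eq_mul, mul_comm]

end Cl

open Cl in
theorem cal : CalStmt := by
  intro d ι _ _ X _ _ _ _ _ _ M F hi hF Λ
  obtain ⟨B, hB0, hB⟩ := Imm.exists_bound hF.grad.continuous
  obtain ⟨K, hK0, hK⟩ := ball_le (M := M)
  obtain ⟨A, hA0, hA⟩ := Imm.exists_mu_ball_le hi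
  obtain ⟨L, hL0, hL⟩ := Imm.exists_bound M.continuous_x
  set C := |Λ| + B with hC
  have hC0 : 0 ≤ C := by positivity
  have hm : 0 ≤ M.mu.real univ := measureReal_nonneg
  have hdv : ∀ u, M.Adm F Λ u → ∀ p, |M.pre.dv (M.Xf u) p| ≤ C := by
    intro u hu p
    have h1 : M.pre.dv (M.Xf u) p = M.hF F u p - M.pre.dir (M.Xf u) F p := by
      rw [Imm.hF_apply]; ring
    set Xv : E ι := WithLp.toLp 2 fun a => M.Xf u a p with hXv
    have h2 : M.pre.dir (M.Xf u) F p = ⟪M.grad F p, Xv⟫ := by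
      rw [Imm.dir_apply, ← Imm.td_eq_inner, Imm.td_apply]
    have h3 : ‖Xv‖ ≤ 1 := by
      have := norm_down_le (M.nuv u p)
      rw [Imm.norm_nuv hu.sm] at this
      rw [← norm_neg]
      exact this
    rw [h1, h2]
    refine (abs_sub _ _).trans (add_le_add ((hu.h p).trans (le_abs_self _)) ?_)
    exact (abs_real_inner_le_norm _ _).trans ((mul_le_of_le_one_right (norm_nonneg _) h3).trans (hB p))
  set C1 := (K + 4 * C) * A * 2 ^ d with hC1
  set C2 := (K + 4 * C * (1 + L)) * M.mu.real univ with hC2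
  have hC10 : 0 ≤ C1 := by positivity
  have hC20 : 0 ≤ C2 := by positivity
  refine ⟨C + C1 + C2, by positivity, fun u hu => ⟨fun f hf hc h0 =>
    cal2 hu.sm (fun p => (hdv u hu p).trans (by linarith)) hf hc h0, fun y r hr hr1 => ?_,
    fun T hT => ?_⟩⟩
  · have h1 := hK u C hu.sm hC0 (hdv u hu) y (2 * r) (by positivity)
    rw [mul_div_cancel_left₀ _ two_ne_zero] at h1
    calc _ ≤ _ := h1
      _ ≤ (K + 4 * C) * (A * (2 * r) ^ d) :=
        mul_le_mul (by nlinarith) (hA _ _ (by positivity)) measureReal_nonneg (by positivity)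
      _ = C1 * r ^ d := by rw [hC1, mul_pow]; ring
      _ ≤ _ := mul_le_mul_of_nonneg_right (by linarith) (by positivity)
  · have h1 := hK u C hu.sm hC0 (hdv u hu) 0 (2 * (T + L)) (by positivity)
    rw [mul_div_cancel_left₀ _ two_ne_zero] at h1
    have := Imm.isFiniteMeasure_gmu hu.sm
    calc _ ≤ (M.gmu u).real {p | ‖M.gx u p - 0‖ ≤ T + L} := measureReal_mono fun p hp => by
          rw [mem_ofPred_eq, sub_zero]
          exact (norm_up_le _ _).trans (add_le_add hp (hL p))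
      _ ≤ _ := h1
      _ ≤ (K + 4 * C * (1 + L)) * (1 + T) * M.mu.real univ :=
        mul_le_mul (by nlinarith [mul_nonneg hC0 hT, mul_nonneg (mul_nonneg hC0 hT) hL0.le])
          (measureReal_mono (subset_univ _)) measureReal_nonneg (by positivity)
      _ = C2 * (1 + T) := by rw [hC2]; ring
      _ ≤ _ := mul_le_mul_of_nonneg_right (by linarith) (by positivity)

end Crest.Agent.N222
end
end

-- ▼ part N222/B/Stab
section

/-!
# Row 222, part B: the stability inequality (helper31)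
-/

set_option autoImplicit false
set_option linter.unusedSectionVars false
open MeasureTheory Set Filter Topology Function Metric
open scoped ContDiff InnerProductSpace RealInnerProductSpace

noncomputable section

namespace Crest.Agent.N222

namespace Sb

variable {d : ℕ} {ι : Type} [Fintype ι] [DecidableEq ι] {X : Type} [TopologicalSpace X]
  [T2Space X] [SecondCountableTopology X] [MeasurableSpace X] [BorelSpace X] [CompactSpace X]
  {M : Imm d ι X} {z w F u : X → ℝ}

theorem exists_abs_le {f : X → ℝ} (hf : Continuous f) : ∃ C : ℝ, 0 ≤ C ∧ ∀ p, |f p| ≤ C := by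
  obtain ⟨C, hC⟩ := isCompact_univ.exists_bound_of_continuousOn hf.continuousOn
  exact ⟨max C 0, le_max_right _ _, fun p => (hC p trivial).trans (le_max_left _ _)⟩

theorem hcs (f : X → ℝ) : HasCompactSupport f := HasCompactSupport.of_compactSpace f

theorem tst (hz : M.Sm z) : M.Tst z := ⟨hz, hcs z⟩

theorem int {f : X → ℝ} (hf : M.Sm f) : Integrable f M.mu :=
  hf.continuous.integrable_of_hasCompactSupport (hcs f)

/-- the gradient of a product -/
theorem gam_mul_le (hw : M.Sm w) (hz : M.Sm z) {ε : ℝ} (hε : 0 < ε) (p : X) :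
    M.pre.gam (fun q => w q * z q) (fun q => w q * z q) p ≤
      (1 + ε) * (z p ^ 2 * M.pre.gam w w p) + (1 + 1 / ε) * (w p ^ 2 * M.pre.gam z z p) := by
  simp only [Imm.gam_apply, Finset.mul_sum, ← Finset.sum_add_distrib,
    Imm.D_mul (hw.diffAt p) (hz.diffAt p)]
  refine Finset.sum_le_sum fun a _ => ?_
  have h1 : 0 ≤ (ε * (z p * M.pre.D a w p) - w p * M.pre.D a z p) ^ 2 / ε := by positivity
  have h2 : (ε * (z p * M.pre.D a w p) - w p * M.pre.D a z p) ^ 2 / ε =
      (1 + ε) * (z p ^ 2 * (M.pre.D a w p * M.pre.D a w p)) +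
        (1 + 1 / ε) * (w p ^ 2 * (M.pre.D a z p * M.pre.D a z p)) -
      (w p * M.pre.D a z p + M.pre.D a w p * z p) * (w p * M.pre.D a z p + M.pre.D a w p * z p) := by
    field_simp
    ring
  linarith

theorem abs_Xf_le (M : Imm d ι X) (u : X → ℝ) (a : ι) (p : X) : |M.Xf u a p| ≤ 1 := by
  have h1 := Finset.single_le_sum (f := fun a => M.Xf u a p * M.Xf u a p)
    (fun a _ => mul_self_nonneg _) (Finset.mem_univ a)
  rw [M.sum_Xf_sq] at h1
  exact abs_le_one_iff_mul_self_le_one.2 (h1.trans (by nlinarith [sq_nonneg (M.vv u p)]))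

theorem exists_RicF (hF : M.Sm F) : ∃ C : ℝ, ∀ u p, -C ≤ M.pre.RicF F (M.Xf u) p := by
  choose C hC0 hC using fun a b => exists_abs_le ((M.sm_Ric a b).sub (hF.hess a b)).continuous
  refine ⟨∑ a, ∑ b, C a b, fun u p => ?_⟩
  have e : M.pre.RicF F (M.Xf u) p =
      ∑ a, ∑ b, (M.pre.Ric a b p - M.pre.hess F a b p) * (M.Xf u a p * M.Xf u b p) := by
    simp [Pre.RicF, Finset.sum_apply]
  rw [e, ← Finset.sum_neg_distrib]
  refine Finset.sum_le_sum fun a _ => ?_
  rw [← Finset.sum_neg_distrib]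
  refine Finset.sum_le_sum fun b _ => neg_le_of_abs_le ?_
  rw [abs_mul, abs_mul]
  exact (mul_le_mul (hC a b p) (mul_le_one₀ (abs_Xf_le M u a p) (abs_nonneg _) (abs_Xf_le M u b p))
    (by positivity) (hC0 a b)).trans (mul_one _).le

end Sb

open Sb in
/-- stability -/
theorem stab : StabStmt := by
  intro d ι _ _ X _ _ _ _ _ _ M F _ hF Λ ε hε
  obtain ⟨C1, hC1⟩ := exists_RicF hF
  obtain ⟨C2, -, hC2⟩ := exists_abs_le (hF.gam hF).continuous
  refine ⟨C1 + Λ + (1 + 1 / ε) * (C2 / 4), fun u hu z hz => ?_⟩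
  have hs := hu.sm
  set N := M.graph u hs with hN
  have eP : N.pre = M.gS u := Imm.graph_pre hs
  have eμ : N.mu = M.gmu u := Imm.graph_mu hs
  have hw : N.Sm fun q => Real.exp (-(1 / 2) * F q) := ((Imm.sm_const _).mul hF).exp
  have hz' : N.Sm z := hz
  have hF' : N.Sm F := hF
  have hv : N.Sm (M.vv u) := hs.vv
  have ha : N.Sm (M.a2 u) := hs.a2
  have hzw := hz'.mul hw
  have key := pic d (Option ι) X N F (M.vv u) _ hF hv (M.vv_pos u) (tst hzw)
  have ee : ∀ p, Real.exp (-(1 / 2) * F p) ^ 2 * Real.exp (F p) = 1 := fun p => by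
    rw [sq, ← Real.exp_add, ← Real.exp_add, Real.exp_eq_one_iff]
    ring
  rw [← eP, ← eμ]
  have i1 := int (ha.mul (hz'.pow 2))
  have i2 := int (hz'.pow 2)
  have i3 := int (hz'.gam hz')
  have h1 : ∫ p, (M.a2 u p * z p ^ 2 - (C1 + Λ) * z p ^ 2) ∂N.mu ≤
      ∫ p, ((1 + ε) * N.pre.gam z z p + (1 + 1 / ε) * (C2 / 4) * z p ^ 2) ∂N.mu := by
    refine le_trans (integral_mono (i1.sub (i2.const_mul _)) (int
      ((((hF'.lapF hv).neg.div hv fun p => (M.vv_pos u p).ne').mul (hzw.pow 2)).mul hF'.exp))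
      fun p => ?_) (key.trans (integral_mono (int ((hzw.gam hzw).mul hF'.exp))
        ((i3.const_mul (1 + ε)).add (i2.const_mul ((1 + 1 / ε) * (C2 / 4)))) fun p => ?_))
    · have e1 := Imm.jacobi hs hF p
      rw [← eP] at e1
      have e2 := hC1 u p
      have e3 := hu.xh p
      simp only
      rw [e1, mul_div_cancel_right₀ _ (M.vv_pos u p).ne', mul_pow, mul_assoc, mul_assoc, ee,
        mul_one, ← sub_mul]
      exact mul_le_mul_of_nonneg_right (by linarith) (sq_nonneg _)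
    · have e1 := mul_le_mul_of_nonneg_right (gam_mul_le hz' hw hε p) (Real.exp_pos (F p)).le
      have e2 : N.pre.gam (fun q => Real.exp (-(1 / 2) * F q)) (fun q => Real.exp (-(1 / 2) * F q)) p
          = Real.exp (-(1 / 2) * F p) ^ 2 * (N.pre.gam F F p / 4) := by
        have : ∀ a, N.pre.D a (fun q => Real.exp (-(1 / 2) * F q)) p =
            Real.exp (-(1 / 2) * F p) * (-(1 / 2)) * N.pre.D a F p := fun a =>
          Imm.D_comp (hF'.diffAt p) (g := fun t => Real.exp (-(1 / 2) * t))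
            (by simpa using ((hasDerivAt_id (F p)).const_mul (-(1 / 2) : ℝ)).exp) a
        simp only [Imm.gam_apply, this, Finset.mul_sum, Finset.sum_div]
        exact Finset.sum_congr rfl fun a _ => by ring
      have e3 : N.pre.gam F F p ≤ C2 := by
        rw [eP]
        exact (M.gS_gam_le u F p).trans ((le_abs_self _).trans (hC2 p))
      refine e1.trans ?_
      have e4 : (1 + 1 / ε) * (z p ^ 2 * (N.pre.gam F F p / 4)) ≤
          (1 + 1 / ε) * (z p ^ 2 * (C2 / 4)) := by gcongr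
      rw [e2]
      calc _ = ((1 + ε) * N.pre.gam z z p + (1 + 1 / ε) * (z p ^ 2 * (N.pre.gam F F p / 4))) *
          (Real.exp (-(1 / 2) * F p) ^ 2 * Real.exp (F p)) := by ring
        _ ≤ _ := by rw [ee]; linarith
  rw [integral_sub i1 (i2.const_mul _), integral_add (i3.const_mul _) (i2.const_mul _),
    integral_const_mul, integral_const_mul, integral_const_mul] at h1
  linarith

end Crest.Agent.N222

end
end

-- ▼ part N222/B/SSY

/-!
# Row 222, part B: the Schoen-Simon-Yau `L⁴` estimate (helper31)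
-/

set_option autoImplicit false
set_option linter.unusedSectionVars false
open MeasureTheory Set Filter Topology Function Metric
open scoped ContDiff InnerProductSpace RealInnerProductSpace

noncomputable section

namespace Crest.Agent.N222

namespace Sy

open Sb

variable {d : ℕ} {ι : Type} [Fintype ι] [DecidableEq ι] {X : Type} [TopologicalSpace X]
  [T2Space X] [SecondCountableTopology X] [MeasurableSpace X] [BorelSpace X] [CompactSpace X]

/-- the divergence term -/
theorem dir_le {N : Imm d ι X} {w z : X → ℝ} {Y : ι → X → ℝ} (hz : N.Sm z) {C ε : ℝ} (hε : 0 < ε)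
    (hC : 0 ≤ C) (p : X) (hY : ∀ a, |Y a p - w p * N.pre.D a w p| ≤ C * w p ^ 2) :
    -N.pre.dir Y (fun q => z q ^ 2) p ≤ ε * (z p ^ 2 * N.pre.gam w w p) +
      (1 / ε + C) * (w p ^ 2 * N.pre.gam z z p) + Fintype.card ι * C * (w p ^ 2 * z p ^ 2) := by
  have e : (Fintype.card ι : ℝ) * C * (w p ^ 2 * z p ^ 2) =
      ∑ _a : ι, C * (w p ^ 2 * z p ^ 2) := by simp [mul_assoc]
  rw [e]
  simp only [Imm.dir_apply, Imm.gam_apply, Pc.D_sq hz, Finset.mul_sum, ← Finset.sum_add_distrib,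
    ← Finset.sum_neg_distrib]
  refine Finset.sum_le_sum fun a _ => ?_
  have h1 : 0 ≤ (ε * (z p * N.pre.D a w p) + w p * N.pre.D a z p) ^ 2 / ε := by positivity
  have h2 : (ε * (z p * N.pre.D a w p) + w p * N.pre.D a z p) ^ 2 / ε =
      ε * (z p ^ 2 * (N.pre.D a w p * N.pre.D a w p)) +
        1 / ε * (w p ^ 2 * (N.pre.D a z p * N.pre.D a z p)) +
      w p * N.pre.D a w p * (2 * z p * N.pre.D a z p) := by
    field_simp
    ring
  have h3 : |(Y a p - w p * N.pre.D a w p) * (2 * z p * N.pre.D a z p)| ≤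
      C * w p ^ 2 * (z p ^ 2 + N.pre.D a z p * N.pre.D a z p) := by
    rw [abs_mul]
    refine mul_le_mul (hY a) (abs_le.2 ⟨?_, ?_⟩) (abs_nonneg _) (by positivity)
    · nlinarith [sq_nonneg (z p + N.pre.D a z p)]
    · nlinarith [sq_nonneg (z p - N.pre.D a z p)]
  have h4 := neg_abs_le ((Y a p - w p * N.pre.D a w p) * (2 * z p * N.pre.D a z p))
  nlinarith

theorem arith {κ ε I P J K1 K2 : ℝ} (hε : 0 < ε) (hε1 : ε ≤ 1) (hκ : 1 + 9 * ε ≤ κ) (hI : 0 ≤ I)
    (hJ : 0 ≤ J) (hK1 : 0 ≤ K1) (h1 : P ≤ (1 + ε) ^ 2 * I + K1 * J)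
    (h2 : κ * I ≤ ε * I + (1 + ε) * P + K2 * J) : P ≤ (4 * ((2 * K1 + K2) / ε) + K1) * J := by
  have h3 : (1 + ε) * P ≤ (1 + ε) * ((1 + ε) ^ 2 * I + K1 * J) := by gcongr
  have h4 : (1 + ε) ^ 3 * I ≤ (1 + 7 * ε) * I := by
    gcongr
    nlinarith [mul_pos hε hε, mul_le_mul hε1 hε1 hε.le zero_le_one]
  have h5 : (1 + ε) * (K1 * J) ≤ 2 * (K1 * J) := by
    gcongr
    linarith
  have h6 : (1 + 9 * ε) * I ≤ κ * I := by gcongr
  have h7 : I ≤ (2 * K1 + K2) / ε * J := by
    rw [div_mul_eq_mul_div, le_div_iff₀ hε]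
    nlinarith
  have h8 : (1 + ε) ^ 2 * I ≤ 4 * I := by
    gcongr
    nlinarith
  nlinarith

/-- the core estimate -/
theorem core {κ C ε Cs : ℝ} (hC : 1 ≤ C) (hε : 0 < ε) (hε1 : ε ≤ 1) (hκ : 1 + 9 * ε ≤ κ) :
    ∃ K : ℝ, 0 ≤ K ∧ ∀ (N : Imm d ι X) (a : X → ℝ) (Y : ι → X → ℝ), N.Sm a → (∀ p, 0 ≤ a p) →
      (∀ c, N.Sm (Y c)) → N.pre.Tan Y → (∀ c p, |Y c p - N.pre.D c a p / 2| ≤ C * (1 + a p)) →
      (∀ p, κ * (N.pre.gam a a p / 4) ≤ (a p + C) *
        (N.pre.dv Y p + a p ^ 2 + C * ((1 + a p) * √(1 + a p)))) →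
      (∀ z, N.Sm z → ∫ p, a p * z p ^ 2 ∂N.mu ≤
        (1 + ε) * (∫ p, N.pre.gam z z p ∂N.mu) + Cs * ∫ p, z p ^ 2 ∂N.mu) →
      ∀ z, N.Sm z → ∫ p, a p ^ 2 * z p ^ 2 ∂N.mu ≤
        K * ∫ p, (a p + C) * (z p ^ 2 + N.pre.gam z z p) ∂N.mu := by
  set K1 := (1 + ε) * (1 + 1 / ε) + |Cs| with hK1
  set K2 := 1 / ε + C + Fintype.card ι * C + (ε * C + C ^ 2 / ε) with hK2
  have hK10 : 0 ≤ K1 := by positivity
  have hC0 : 0 < C := by linarith
  refine ⟨4 * ((2 * K1 + K2) / ε) + K1, by positivity, fun N a Y ha ha0 hY ht hn hd hs z hz => ?_⟩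
  have hpos : ∀ p, 0 < a p + C := fun p => by linarith [ha0 p]
  have hac : N.Sm fun p => a p + C := ha.add (Imm.sm_const C)
  set w : X → ℝ := fun p => √(a p + C) with hw
  have sw : N.Sm w := hac.sqrt fun p => (hpos p).ne'
  have w2 : ∀ p, w p ^ 2 = a p + C := fun p => Real.sq_sqrt (hpos p).le
  have w0 : ∀ p, 0 < w p := fun p => Real.sqrt_pos.2 (hpos p)
  have Da : ∀ c p, N.pre.D c a p = 2 * w p * N.pre.D c w p := fun c p => by
    rw [← Pc.D_sq sw, funext w2, Imm.D_add (ha.diffAt p) ((Imm.sm_const C).diffAt p), Imm.D_const,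
      add_zero]
  have z2 := hz.pow 2
  have iI := int (z2.mul (sw.gam sw))
  have iP := int (ha.mul ((sw.mul hz).pow 2))
  have i0 := int ((sw.pow 2).mul z2)
  have i1 := int ((sw.pow 2).mul (hz.gam hz))
  have n0 : 0 ≤ ∫ p, w p ^ 2 * z p ^ 2 ∂N.mu := integral_nonneg fun p => by positivity
  have n1 : 0 ≤ ∫ p, w p ^ 2 * N.pre.gam z z p ∂N.mu := integral_nonneg fun p =>
    mul_nonneg (sq_nonneg _) (Imm.gam_self_nonneg z p)
  have eJ : ∫ p, (a p + C) * (z p ^ 2 + N.pre.gam z z p) ∂N.mu =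
      (∫ p, w p ^ 2 * z p ^ 2 ∂N.mu) + ∫ p, w p ^ 2 * N.pre.gam z z p ∂N.mu := by
    rw [← integral_add i0 i1]
    simp only [w2, mul_add]
  have h0 : ∫ p, a p ^ 2 * z p ^ 2 ∂N.mu ≤ ∫ p, a p * (w p * z p) ^ 2 ∂N.mu := by
    refine integral_mono (int ((ha.pow 2).mul z2)) iP fun p => ?_
    simp only [mul_pow, w2]
    nlinarith [mul_nonneg (ha0 p) (sq_nonneg (z p))]
  refine h0.trans ?_
  rw [eJ]
  refine arith (I := ∫ p, z p ^ 2 * N.pre.gam w w p ∂N.mu) hε hε1 hκ (integral_nonneg fun p =>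
    mul_nonneg (sq_nonneg _) (Imm.gam_self_nonneg w p)) (add_nonneg n0 n1) hK10 ?_ ?_
  · have h1 := hs _ (sw.mul hz)
    have h2 : ∫ p, N.pre.gam (fun q => w q * z q) (fun q => w q * z q) p ∂N.mu ≤
        (1 + ε) * (∫ p, z p ^ 2 * N.pre.gam w w p ∂N.mu) +
          (1 + 1 / ε) * ∫ p, w p ^ 2 * N.pre.gam z z p ∂N.mu := by
      rw [← integral_const_mul, ← integral_const_mul,
        ← integral_add (iI.const_mul _) (i1.const_mul _)]
      exact integral_mono (int ((sw.mul hz).gam (sw.mul hz)))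
        ((iI.const_mul _).add (i1.const_mul _)) (gam_mul_le sw hz hε)
    have h3 := mul_le_mul_of_nonneg_left h2 (show 0 ≤ 1 + ε by positivity)
    simp only [mul_pow] at h1 ⊢
    have h4 := mul_le_mul_of_nonneg_right (le_abs_self Cs) n0
    have h5 : 0 ≤ (1 + ε) * (1 + 1 / ε) * ∫ p, w p ^ 2 * z p ^ 2 ∂N.mu := by positivity
    have h6 := mul_nonneg (abs_nonneg Cs) n1
    rw [hK1]
    nlinarith
  · have e := Imm.integral_mul_dv z2.c1 (hcs _) (fun c => (hY c).c1) ht
    have iD := int (z2.mul (Imm.sm_dv hY))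
    have h1 : ∫ p, κ * (z p ^ 2 * N.pre.gam w w p) ∂N.mu ≤
        ∫ p, (z p ^ 2 * N.pre.dv Y p + (1 + ε) * (a p * (w p * z p) ^ 2) +
          (ε * C + C ^ 2 / ε) * (w p ^ 2 * z p ^ 2)) ∂N.mu := by
      refine integral_mono (iI.const_mul _) ((iD.add (iP.const_mul _)).add (i0.const_mul _))
        fun p => ?_
      have e1 : N.pre.gam a a p / 4 = (a p + C) * N.pre.gam w w p := by
        simp only [Imm.gam_apply, Da, Finset.sum_div, Finset.mul_sum, ← w2]
        exact Finset.sum_congr rfl fun c _ => by ring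
      have e2 := hd p
      rw [e1, mul_left_comm] at e2
      have e3 := le_of_mul_le_mul_left e2 (hpos p)
      have e4 : (1 + a p) * √(1 + a p) ≤ w p ^ 2 * w p := by
        rw [w2]
        exact mul_le_mul (by linarith) (Real.sqrt_le_sqrt (by linarith)) (Real.sqrt_nonneg _)
          (hpos p).le
      have e5 : C * w p ≤ ε * w p ^ 2 + C ^ 2 / ε := by
        have : 0 ≤ (ε * w p - C) ^ 2 / ε := by positivity
        have e : (ε * w p - C) ^ 2 / ε = ε * w p ^ 2 + C ^ 2 / ε - 2 * (C * w p) := by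
          field_simp
          ring
        nlinarith [mul_pos hC0 (w0 p)]
      have e6 : C * ((1 + a p) * √(1 + a p)) ≤ w p ^ 2 * (ε * (a p + C) + C ^ 2 / ε) := by
        rw [← w2]
        calc _ ≤ C * (w p ^ 2 * w p) := by gcongr
          _ = w p ^ 2 * (C * w p) := by ring
          _ ≤ _ := by gcongr
      have e7 : a p ^ 2 ≤ a p * w p ^ 2 := by
        rw [w2]
        nlinarith [ha0 p]
      have e8 : κ * N.pre.gam w w p ≤ N.pre.dv Y p + (1 + ε) * (a p * w p ^ 2) +
          (ε * C + C ^ 2 / ε) * w p ^ 2 := by linarith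
      have e9 := mul_le_mul_of_nonneg_left e8 (sq_nonneg (z p))
      simp only
      linarith
    have h2 : ∫ p, -N.pre.dir Y (fun q => z q ^ 2) p ∂N.mu ≤
        ∫ p, (ε * (z p ^ 2 * N.pre.gam w w p) + (1 / ε + C) * (w p ^ 2 * N.pre.gam z z p) +
          Fintype.card ι * C * (w p ^ 2 * z p ^ 2)) ∂N.mu := by
      refine integral_mono (int (Imm.sm_dir hY z2).neg)
        (((iI.const_mul _).add (i1.const_mul _)).add (i0.const_mul _))
        fun p => dir_le hz hε hC0.le p fun c => ?_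
      have := hn c p
      rw [Da, show 2 * w p * N.pre.D c w p / 2 = w p * N.pre.D c w p by ring] at this
      refine this.trans ?_
      rw [w2]
      exact mul_le_mul_of_nonneg_left (by linarith) hC0.le
    rw [integral_add ((iI.const_mul _).fun_add (i1.const_mul _)) (i0.const_mul _),
      integral_add (iI.const_mul _) (i1.const_mul _), integral_neg, ← e] at h2
    rw [integral_add (iD.fun_add (iP.const_mul _)) (i0.const_mul _),
      integral_add iD (iP.const_mul _)] at h1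
    simp only [integral_const_mul] at h1 h2
    have p1 : 0 ≤ (1 / ε + C) * ∫ p, w p ^ 2 * z p ^ 2 ∂N.mu := by positivity
    have p2 : 0 ≤ (Fintype.card ι * C + (ε * C + C ^ 2 / ε)) *
        ∫ p, w p ^ 2 * N.pre.gam z z p ∂N.mu := by positivity
    rw [hK2]
    linarith

/-- cut-off functions of the height -/
theorem cutoff {T : ℝ} (hT : 0 < T) : ∃ B : ℝ, 0 ≤ B ∧ ∀ (N : Imm d ι X) (u : X → ℝ), N.Sm u →
    (∀ p, N.pre.gam u u p ≤ 1) → ∃ z, N.Sm z ∧ ∀ f : X → ℝ, N.Sm f → (∀ p, 0 ≤ f p) →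
      ∫ p in {p | |u p| ≤ T}, f p ∂N.mu ≤ ∫ p, f p * z p ^ 2 ∂N.mu ∧
      ∫ p, f p * (z p ^ 2 + N.pre.gam z z p) ∂N.mu ≤ B * ∫ p in {p | |u p| ≤ T + 1}, f p ∂N.mu := by
  let χ : ContDiffBump (0 : ℝ) := ⟨T, T + 1, hT, by linarith⟩
  have hχ : ContDiff ℝ ∞ χ := χ.contDiff
  obtain ⟨B, hB⟩ := (hχ.continuous_deriv (by simp)).bounded_above_of_compact_support
    χ.hasCompactSupport.deriv
  refine ⟨1 + B ^ 2, by positivity, fun N u hu h1 => ⟨fun p => χ (u p), hu.comp hχ,
    fun f hf h0 => ?_⟩⟩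
  have hz := hu.comp hχ
  have m : ∀ S : ℝ, MeasurableSet {p | |u p| ≤ S} := fun S =>
    (isClosed_le hu.continuous.abs continuous_const).measurableSet
  have eg : ∀ p, N.pre.gam (fun p => χ (u p)) (fun p => χ (u p)) p =
      deriv χ (u p) ^ 2 * N.pre.gam u u p := fun p => by
    simp only [Imm.gam_apply, Finset.mul_sum, Imm.D_comp (hu.diffAt p)
      (hχ.differentiable (by simp) (u p)).hasDerivAt]
    exact Finset.sum_congr rfl fun c _ => by ring
  constructor
  · rw [← integral_indicator (m T)]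
    refine integral_mono ((int hf).indicator (m T)) (int (hf.mul (hz.pow 2))) fun p => ?_
    by_cases hp : p ∈ {p | |u p| ≤ T}
    · have : χ (u p) = 1 := χ.one_of_mem_closedBall (by simpa using hp)
      simp [indicator_of_mem hp, this]
    · rw [indicator_of_notMem hp]
      exact mul_nonneg (h0 p) (sq_nonneg _)
  · rw [← integral_indicator (m _), ← integral_const_mul]
    refine integral_mono (int (hf.mul ((hz.pow 2).add (hz.gam hz))))
      (((int hf).indicator (m _)).const_mul _) fun p => ?_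
    simp only [eg]
    by_cases hp : p ∈ {p | |u p| ≤ T + 1}
    · rw [indicator_of_mem hp, mul_comm]
      refine mul_le_mul_of_nonneg_right (add_le_add (pow_le_one₀ χ.nonneg χ.le_one) ?_) (h0 p)
      have e1 : deriv χ (u p) ^ 2 ≤ B ^ 2 := by
        rw [← sq_abs]
        exact pow_le_pow_left₀ (abs_nonneg _) (hB _) 2
      nlinarith [h1 p, Imm.gam_self_nonneg (M := N) u p, sq_nonneg (deriv χ (u p))]
    · have e0 : u p ∉ tsupport χ := by
        rw [χ.tsupport_eq]
        simpa using hp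
      have e1 : deriv χ (u p) = 0 := by
        by_contra h
        exact e0 (support_deriv_subset h)
      simp [indicator_of_notMem hp, image_eq_zero_of_notMem_tsupport e0, e1]

end Sy

open Sy Sb in
/-- Schoen-Simon-Yau -/
theorem ssy (hS : SimStmt) (hC : CalStmt) : SSYStmt := by
  intro d ι _ _ X _ _ _ _ _ _ M F hi hF Λ T
  obtain ⟨κ, C, hκ, hC1, hsim⟩ := hS d ι X M F hi hF Λ
  obtain ⟨Ca, hCa, hcal⟩ := hC d ι X M F hi hF Λ
  have hε : 0 < min 1 ((κ - 1) / 9) := lt_min one_pos (by linarith)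
  obtain ⟨Cs, hst⟩ := stab d ι X M F hi hF Λ _ hε
  obtain ⟨K, hK, hcore⟩ := core (d := d) (ι := Option ι) (X := X) (κ := κ) (Cs := Cs) hC1 hε
    (min_le_left _ _) (by linarith [min_le_right 1 ((κ - 1) / 9)])
  have hT : 0 < |T| + 1 := by positivity
  obtain ⟨B1, hB1, hc1⟩ := cutoff (d := d) (ι := Option ι) (X := X) hT
  obtain ⟨B2, hB2, hc2⟩ := cutoff (d := d) (ι := Option ι) (X := X) (T := |T| + 1 + 1)
    (by positivity)
  refine ⟨K * (B1 * ((2 + |Cs|) * (B2 * (Ca * (1 + (|T| + 1 + 1 + 1)))) +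
    C * (Ca * (1 + (|T| + 1 + 1))))), fun u hu => ?_⟩
  obtain ⟨Y, hY⟩ := hsim u hu
  have hs := hu.sm
  have harea := (hcal u hu).2.2
  have hst' := hst u hu
  set N := M.graph u hs with hN
  have eP : N.pre = M.gS u := Imm.graph_pre hs
  have eμ : N.mu = M.gmu u := Imm.graph_mu hs
  have h1 : ∀ p, N.pre.gam u u p ≤ 1 := fun p => by
    rw [eP, M.gS_gam_u]
    nlinarith [sq_nonneg (M.vv u p)]
  have ha : N.Sm (M.a2 u) := hs.a2
  have hcore' := hcore N (M.a2 u) Y ha (M.a2_nonneg u) hY.sm (eP ▸ hY.tan) (eP ▸ hY.near)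
    (eP ▸ hY.dv) (by rw [eP, eμ]; exact hst')
  rw [← eP, ← eμ] at hst'
  rw [← eμ] at harea ⊢
  obtain ⟨z1, hz1, hf1⟩ := hc1 N u hs h1
  obtain ⟨z2, hz2, hf2⟩ := hc2 N u hs h1
  have a0 := M.a2_nonneg u
  have s1 : ∫ p in {p | |u p| ≤ T}, M.a2 u p ^ 2 ∂N.mu ≤
      ∫ p in {p | |u p| ≤ |T| + 1}, M.a2 u p ^ 2 ∂N.mu :=
    setIntegral_mono_set (int (ha.pow 2)).integrableOn
      (Eventually.of_forall fun p => sq_nonneg _) (LE.le.eventuallyLE fun p hp =>
        (show |u p| ≤ T from hp).trans (by linarith [le_abs_self T]))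
  have s2 := (hf1 _ (ha.pow 2) fun p => sq_nonneg _).1
  have s3 := (hf1 _ (ha.add (Imm.sm_const C)) fun p => by linarith [a0 p]).2
  have s4 := (hf2 _ ha a0).1
  have s5 := (hf2 _ (Imm.sm_const 1) fun _ => zero_le_one).2
  have s6 := hst' z2 hz2
  have i1 := int (hz2.pow 2)
  have i2 := int (hz2.gam hz2)
  have n1 : 0 ≤ ∫ p, z2 p ^ 2 ∂N.mu := integral_nonneg fun p => sq_nonneg _
  have n2 : 0 ≤ ∫ p, N.pre.gam z2 z2 p ∂N.mu := integral_nonneg (Imm.gam_self_nonneg z2)
  simp only [one_mul, integral_add i1 i2, setIntegral_const, smul_eq_mul, mul_one] at s5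
  rw [integral_add (int ha).integrableOn (int (Imm.sm_const C)).integrableOn, setIntegral_const,
    smul_eq_mul] at s3
  have s7 : ∫ p, M.a2 u p * z2 p ^ 2 ∂N.mu ≤
      (2 + |Cs|) * (B2 * (Ca * (1 + (|T| + 1 + 1 + 1)))) := by
    have t1 := mul_le_mul_of_nonneg_right (le_abs_self Cs) n1
    have t2 := mul_le_mul_of_nonneg_right (min_le_left 1 ((κ - 1) / 9)) n2
    have t3 := mul_nonneg (abs_nonneg Cs) n2
    have t4 := s5.trans (mul_le_mul_of_nonneg_left (harea _ (by positivity)) hB2)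
    have t5 := mul_le_mul_of_nonneg_left t4 (show 0 ≤ 2 + |Cs| by positivity)
    nlinarith
  refine s1.trans (s2.trans ((hcore' z1 hz1).trans (mul_le_mul_of_nonneg_left (s3.trans
    (mul_le_mul_of_nonneg_left (add_le_add (s4.trans s7) ?_) hB1)) hK)))
  rw [mul_comm C]
  exact mul_le_mul_of_nonneg_right (harea _ (by positivity)) (by linarith)

end Crest.Agent.N222

end
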